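import Mathlib

/- The l1 algebra of a monoid: order, mass, positive part, norm, overlap. -/

namespace Vale.Agent.P321

open Finset

abbrev A (M : Type) [Monoid M] := MonoidAlgebra ℝ M

variable {M : Type} [Monoid M]

noncomputable instance instPO : PartialOrder (A M) :=
  PartialOrder.lift MonoidAlgebra.coeff MonoidAlgebra.coeff_injective

lemma le_iff {X Y : A M} : X ≤ Y ↔ ∀ m, X.coeff m ≤ Y.coeff m := Iff.rfl

lemma nonneg_iff {X : A M} : 0 ≤ X ↔ ∀ m, 0 ≤ X.coeff m := Iff.rfl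

instance : IsOrderedAddMonoid (A M) where
  add_le_add_left X Y h Z := by
    intro m
    have := h m
    simp only [MonoidAlgebra.coeff_add, Finsupp.add_apply]
    linarith

lemma mul_nn {X Y : A M} (hX : 0 ≤ X) (hY : 0 ≤ Y) : 0 ≤ X * Y := by
  classical
  intro m
  show (0 : ℝ) ≤ _
  rw [MonoidAlgebra.coeff_mul]
  refine Finset.sum_nonneg fun a _ => Finset.sum_nonneg fun b _ => ?_
  dsimp only
  split_ifs
  · exact mul_nonneg (hX a) (hY b)
  · exact le_rfl

lemma single_nn (m : M) {r : ℝ} (hr : 0 ≤ r) : (0 : A M) ≤ MonoidAlgebra.single m r := by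
  classical
  intro a
  show (0 : ℝ) ≤ _
  rw [MonoidAlgebra.coeff_single, Finsupp.single_apply]
  split_ifs
  · exact hr
  · exact le_rfl

instance : ZeroLEOneClass (A M) := ⟨single_nn 1 zero_le_one⟩

instance : IsOrderedRing (A M) := IsOrderedRing.of_mul_nonneg fun _ _ => mul_nn

instance : PosSMulMono ℝ (A M) where
  smul_le_smul_of_nonneg_left r hr X Y h := by
    intro m
    simp only [MonoidAlgebra.coeff_smul, Finsupp.smul_apply, smul_eq_mul]
    exact mul_le_mul_of_nonneg_left (h m) hr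

instance : SMulPosMono ℝ (A M) where
  smul_le_smul_of_nonneg_right X hX r s h := by
    intro m
    simp only [MonoidAlgebra.coeff_smul, Finsupp.smul_apply, smul_eq_mul]
    exact mul_le_mul_of_nonneg_right h (hX m)

/-- total mass -/
noncomputable def mass : A M →ₐ[ℝ] ℝ := MonoidAlgebra.lift ℝ ℝ M 1

lemma mass_single (m : M) (r : ℝ) : mass (MonoidAlgebra.single m r) = r := by
  simp [mass]

lemma mass_eq (X : A M) : mass X = ∑ m ∈ X.coeff.support, X.coeff m := by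
  simp [mass, MonoidAlgebra.lift_apply, Finsupp.sum]

lemma mass_nn {X : A M} (hX : 0 ≤ X) : 0 ≤ mass X := by
  rw [mass_eq]; exact Finset.sum_nonneg fun m _ => hX m

lemma mass_mono {X Y : A M} (h : X ≤ Y) : mass X ≤ mass Y := by
  have := mass_nn (sub_nonneg.2 h)
  rw [map_sub] at this; linarith

/-- positive part -/
noncomputable def pos (X : A M) : A M :=
  MonoidAlgebra.ofCoeff (X.coeff.mapRange (fun r => max r 0) (by simp))

lemma pos_coeff (X : A M) (m : M) : (pos X).coeff m = max (X.coeff m) 0 := rfl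

lemma pos_nn (X : A M) : 0 ≤ pos X := fun m => by rw [pos_coeff]; exact le_max_right _ _

lemma le_pos (X : A M) : X ≤ pos X := fun m => by rw [pos_coeff]; exact le_max_left _ _

lemma pos_le {X Y : A M} (h0 : 0 ≤ Y) (h : X ≤ Y) : pos X ≤ Y := fun m => by
  rw [pos_coeff]; exact max_le (h m) (h0 m)

lemma pos_sub_pos (X : A M) : pos X - pos (-X) = X := by
  ext m
  simp only [MonoidAlgebra.coeff_sub, Finsupp.sub_apply, pos_coeff, MonoidAlgebra.coeff_neg,
    Finsupp.neg_apply]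
  rcases le_total (X.coeff m) 0 with h | h
  · rw [max_eq_right h, max_eq_left (by linarith)]; ring
  · rw [max_eq_left h, max_eq_right (by linarith)]; ring

/-- mass of the positive part -/
noncomputable def Np (X : A M) : ℝ := mass (pos X)

lemma Np_nn (X : A M) : 0 ≤ Np X := mass_nn (pos_nn X)

lemma Np_le {X Y : A M} (h0 : 0 ≤ Y) (h : X ≤ Y) : Np X ≤ mass Y := mass_mono (pos_le h0 h)

lemma Np_mono {X Y : A M} (h : X ≤ Y) : Np X ≤ Np Y := Np_le (pos_nn Y) (h.trans (le_pos Y))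

lemma Np_add (X Y : A M) : Np (X + Y) ≤ Np X + Np Y := by
  have := Np_le (add_nonneg (pos_nn X) (pos_nn Y)) (add_le_add (le_pos X) (le_pos Y))
  rwa [map_add] at this

lemma Np_zero : Np (0 : A M) = 0 :=
  le_antisymm (by simpa using Np_le (X := (0 : A M)) le_rfl le_rfl) (Np_nn _)

lemma Np_smul {r : ℝ} (hr : 0 ≤ r) (X : A M) : Np (r • X) ≤ r * Np X := by
  have := Np_le (smul_nonneg hr (pos_nn X)) (smul_le_smul_of_nonneg_left (le_pos X) hr)
  rwa [map_smul, smul_eq_mul] at this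

lemma Np_sum {ι : Type*} (s : Finset ι) (f : ι → A M) : Np (∑ i ∈ s, f i) ≤ ∑ i ∈ s, Np (f i) := by
  have := Np_le (Finset.sum_nonneg fun i (_ : i ∈ s) => pos_nn (f i))
    (Finset.sum_le_sum fun i _ => le_pos (f i))
  rwa [map_sum] at this

lemma Np_mul_mul {L R : A M} (hL : 0 ≤ L) (hR : 0 ≤ R) (X : A M) :
    Np (L * X * R) ≤ mass L * mass R * Np X := by
  have := Np_le (mul_nonneg (mul_nonneg hL (pos_nn X)) hR)
    (mul_le_mul_of_nonneg_right (mul_le_mul_of_nonneg_left (le_pos X) hL) hR)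
  rw [map_mul, map_mul] at this
  unfold Np at *; linarith

lemma Np_sub_Np (X : A M) : Np X - Np (-X) = mass X := by
  unfold Np; rw [← map_sub, pos_sub_pos]

/-- l1 norm -/
noncomputable def nrm (X : A M) : ℝ := Np X + Np (-X)

lemma nrm_nn (X : A M) : 0 ≤ nrm X := add_nonneg (Np_nn _) (Np_nn _)

lemma Np_le_nrm (X : A M) : Np X ≤ nrm X := by unfold nrm; linarith [Np_nn (-X)]

lemma nrm_neg (X : A M) : nrm (-X) = nrm X := by unfold nrm; rw [neg_neg, add_comm]

lemma nrm_sub_comm (X Y : A M) : nrm (X - Y) = nrm (Y - X) := by rw [← nrm_neg, neg_sub]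

lemma nrm_add (X Y : A M) : nrm (X + Y) ≤ nrm X + nrm Y := by
  unfold nrm; rw [neg_add]; linarith [Np_add X Y, Np_add (-X) (-Y)]

lemma nrm_zero : nrm (0 : A M) = 0 := by unfold nrm; simp [Np_zero]

lemma nrm_sub_le (X Y Z : A M) : nrm (X - Z) ≤ nrm (X - Y) + nrm (Y - Z) := by
  have := nrm_add (X - Y) (Y - Z); rwa [sub_add_sub_cancel] at this

lemma nrm_smul (r : ℝ) (X : A M) : nrm (r • X) ≤ |r| * nrm X := by
  rcases le_total 0 r with h | h
  · rw [abs_of_nonneg h]; unfold nrm; rw [← smul_neg]; linarith [Np_smul h X, Np_smul h (-X)]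
  · rw [abs_of_nonpos h]
    have h' : 0 ≤ -r := by linarith
    unfold nrm
    have e1 : r • X = (-r) • (-X) := by simp
    have e2 : -(r • X) = (-r) • X := by simp
    rw [e2, e1]; linarith [Np_smul h' X, Np_smul h' (-X)]

lemma nrm_sum {ι : Type*} (s : Finset ι) (f : ι → A M) :
    nrm (∑ i ∈ s, f i) ≤ ∑ i ∈ s, nrm (f i) := by
  unfold nrm
  rw [Finset.sum_add_distrib, ← Finset.sum_neg_distrib]
  exact add_le_add (Np_sum _ _) (Np_sum _ _)

lemma nrm_mul_mul {L R : A M} (hL : 0 ≤ L) (hR : 0 ≤ R) (X : A M) :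
    nrm (L * X * R) ≤ mass L * mass R * nrm X := by
  unfold nrm
  have e : -(L * X * R) = L * (-X) * R := by simp
  rw [e]; linarith [Np_mul_mul hL hR X, Np_mul_mul hL hR (-X)]

lemma nrm_of_nn {X : A M} (h : 0 ≤ X) : nrm X ≤ mass X := by
  unfold nrm
  have h1 := Np_le h le_rfl
  have h2 : Np (-X) ≤ mass (0 : A M) := Np_le le_rfl (neg_nonpos.2 h)
  rw [map_zero] at h2; linarith

lemma abs_mass_le (X : A M) : |mass X| ≤ nrm X := by
  rw [← Np_sub_Np]; unfold nrm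
  rw [abs_le]; constructor <;> linarith [Np_nn X, Np_nn (-X)]

lemma nrm_mul (X Y : A M) : nrm (X * Y) ≤ nrm X * nrm Y := by
  have e : X * Y = pos X * Y * 1 + -(pos (-X) * Y * 1) := by
    conv_lhs => rw [← pos_sub_pos X]
    noncomm_ring
  have h1 := nrm_mul_mul (pos_nn X) zero_le_one Y
  have h2 := nrm_mul_mul (pos_nn (-X)) zero_le_one Y
  rw [map_one] at h1 h2
  rw [e]
  refine (nrm_add _ _).trans ?_
  rw [nrm_neg]
  have : nrm X = mass (pos X) + mass (pos (-X)) := rfl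
  rw [this]; linarith

/-- probability elements -/
structure Prob (X : A M) : Prop where
  nn : 0 ≤ X
  one : mass X = 1

lemma Prob.mul {X Y : A M} (hX : Prob X) (hY : Prob Y) : Prob (X * Y) :=
  ⟨mul_nonneg hX.nn hY.nn, by rw [map_mul, hX.one, hY.one, mul_one]⟩

lemma prob_one : Prob (1 : A M) := ⟨zero_le_one, map_one _⟩

lemma Prob.pow {X : A M} (hX : Prob X) (n : ℕ) : Prob (X ^ n) :=
  ⟨pow_nonneg hX.nn n, by rw [map_pow, hX.one, one_pow]⟩

lemma prob_single (m : M) : Prob (MonoidAlgebra.single m (1 : ℝ)) :=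
  ⟨single_nn m zero_le_one, mass_single m 1⟩

lemma prob_list (l : List (A M)) (h : ∀ X ∈ l, Prob X) : Prob l.prod := by
  induction l with
  | nil => exact prob_one
  | cons a l ih =>
    rw [List.prod_cons]
    exact (h a (by simp)).mul (ih fun X hX => h X (by simp [hX]))

lemma Np_sw {L R : A M} (hL : Prob L) (hR : Prob R) (X : A M) : Np (L * X * R) ≤ Np X := by
  have := Np_mul_mul hL.nn hR.nn X
  rwa [hL.one, hR.one, one_mul, one_mul] at this

lemma nrm_sw {L R : A M} (hL : Prob L) (hR : Prob R) (X : A M) : nrm (L * X * R) ≤ nrm X := by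
  have := nrm_mul_mul hL.nn hR.nn X
  rwa [hL.one, hR.one, one_mul, one_mul] at this

lemma nrm_left {L : A M} (hL : Prob L) (X : A M) : nrm (L * X) ≤ nrm X := by
  simpa using nrm_sw hL prob_one X

lemma nrm_right {R : A M} (hR : Prob R) (X : A M) : nrm (X * R) ≤ nrm X := by
  simpa using nrm_sw prob_one hR X

lemma Prob.nrm_le {X : A M} (h : Prob X) : nrm X ≤ 1 := by simpa [h.one] using nrm_of_nn h.nn

lemma nrm_mul_sub {X Y X' Y' : A M} (hX : Prob X) (hY' : Prob Y') :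
    nrm (X * Y - X' * Y') ≤ nrm (X - X') + nrm (Y - Y') := by
  have e : X * Y - X' * Y' = (X - X') * Y' + X * (Y - Y') := by noncomm_ring
  rw [e]
  exact (nrm_add _ _).trans (add_le_add (nrm_right hY' _) (nrm_left hX _))

/-- pointwise domination -/
structure Dom (D : A M) (δ : ℝ) (U : A M) : Prop where
  le : D ≤ δ • U
  ge : -D ≤ δ • U

lemma Dom.mono {D U : A M} {δ δ' : ℝ} (h : Dom D δ U) (hU : 0 ≤ U) (hδ : δ ≤ δ') : Dom D δ' U :=
  ⟨h.le.trans (smul_le_smul_of_nonneg_right hδ hU), h.ge.trans (smul_le_smul_of_nonneg_right hδ hU)⟩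

lemma Dom.sw {D U L R : A M} {δ : ℝ} (h : Dom D δ U) (hL : 0 ≤ L) (hR : 0 ≤ R) :
    Dom (L * D * R) δ (L * U * R) := by
  constructor
  · have := mul_le_mul_of_nonneg_right (mul_le_mul_of_nonneg_left h.le hL) hR
    simpa using this
  · have := mul_le_mul_of_nonneg_right (mul_le_mul_of_nonneg_left h.ge hL) hR
    simpa using this

lemma Dom.nrm_le {D U : A M} {δ : ℝ} (h : Dom D δ U) (hU : Prob U) : nrm D ≤ δ := by
  have : pos D + pos (-D) ≤ δ • U := by
    intro m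
    have h1 := h.le m
    have h2 := h.ge m
    simp only [MonoidAlgebra.coeff_add, Finsupp.add_apply, pos_coeff, MonoidAlgebra.coeff_neg,
      Finsupp.neg_apply] at *
    rcases le_total (D.coeff m) 0 with h | h
    · rw [max_eq_right h, max_eq_left (by linarith)]; linarith
    · rw [max_eq_left h, max_eq_right (by linarith)]; linarith
  have h2 := mass_mono this
  rw [map_add, map_smul, hU.one, smul_eq_mul, mul_one] at h2
  exact h2

/-- overlap of mass `c` -/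
def Ov (X Y : A M) (c : ℝ) : Prop := ∃ C : A M, 0 ≤ C ∧ C ≤ X ∧ C ≤ Y ∧ mass C = c

lemma Ov.mono {X Y : A M} {c c' : ℝ} (h : Ov X Y c) (h0 : 0 ≤ c') (hc : c' ≤ c) : Ov X Y c' := by
  obtain ⟨C, hC, h1, h2, rfl⟩ := h
  rcases eq_or_lt_of_le (mass_nn hC) with hm | hm
  · exact ⟨C, hC, h1, h2, by linarith⟩
  · have hle : (c' / mass C) • C ≤ C := by
      have := smul_le_smul_of_nonneg_right ((div_le_one hm).2 hc) hC
      rwa [one_smul] at this
    refine ⟨(c' / mass C) • C, smul_nonneg (div_nonneg h0 hm.le) hC, hle.trans h1, hle.trans h2, ?_⟩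
    rw [map_smul, smul_eq_mul]; field_simp

lemma Ov.mul {X Y X' Y' : A M} {c c' : ℝ} (h : Ov X Y c) (h' : Ov X' Y' c') :
    Ov (X * X') (Y * Y') (c * c') := by
  obtain ⟨C, hC, h1, h2, rfl⟩ := h
  obtain ⟨C', hC', h1', h2', rfl⟩ := h'
  exact ⟨C * C', mul_nonneg hC hC', mul_le_mul h1 h1' hC' (hC.trans h1),
    mul_le_mul h2 h2' hC' (hC.trans h2), map_mul _ _ _⟩

lemma Ov.of_le {X Y X' Y' : A M} {c : ℝ} (h : Ov X Y c) (hX : X ≤ X') (hY : Y ≤ Y') :
    Ov X' Y' c := by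
  obtain ⟨C, hC, h1, h2, e⟩ := h
  exact ⟨C, hC, h1.trans hX, h2.trans hY, e⟩

lemma Ov.smul {X Y : A M} {c r : ℝ} (h : Ov X Y c) (hr : 0 ≤ r) : Ov (r • X) (r • Y) (r * c) := by
  obtain ⟨C, hC, h1, h2, rfl⟩ := h
  exact ⟨r • C, smul_nonneg hr hC, smul_le_smul_of_nonneg_left h1 hr,
    smul_le_smul_of_nonneg_left h2 hr, by rw [map_smul, smul_eq_mul]⟩

lemma Prob.ov_self {X : A M} (h : Prob X) : Ov X X 1 := ⟨X, h.nn, le_rfl, le_rfl, h.one⟩

lemma ov_of_nrm {X Y : A M} (hX : Prob X) (hY : Prob Y) (h : nrm (X - Y) ≤ 1) :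
    Ov X Y (1 / 2) := by
  have h0 : Ov X Y (1 - Np (X - Y)) := by
    refine ⟨X - pos (X - Y), ?_, ?_, ?_, ?_⟩
    · exact sub_nonneg.2 (pos_le hX.nn (by simpa using hY.nn))
    · simpa using pos_nn (X - Y)
    · have := le_pos (X - Y)
      rw [sub_le_iff_le_add] at this ⊢
      rwa [add_comm]
    · rw [map_sub, hX.one]; rfl
  refine h0.mono (by norm_num) ?_
  have h1 := Np_sub_Np (X - Y)
  rw [map_sub, hX.one, hY.one] at h1
  unfold nrm at h
  linarith

/-- mixing at scale `J` -/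
def Mix (U : A M) (J : ℕ) : Prop := Ov (U ^ J) (U ^ (J + 1)) (1 / 2)

lemma Mix.mono {U : A M} (hU : Prob U) {J J' : ℕ} (h : Mix U J) (hJ : J ≤ J') : Mix U J' := by
  obtain ⟨d, rfl⟩ := Nat.exists_eq_add_of_le hJ
  have := Ov.mul h (hU.pow d).ov_self
  unfold Mix
  rw [← pow_add, ← pow_add, mul_one] at this
  rwa [show J + d + 1 = J + 1 + d by ring]

/-- clamping a signed element that is almost dominated -/
lemma clamp {Y X : A M} {δ η : ℝ} (hX : Prob X) (hδ : 0 ≤ δ) (hY : mass Y = 0)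
    (h1 : Np (Y - δ • X) ≤ η) (h2 : Np (-Y - δ • X) ≤ η) :
    ∃ D : A M, mass D = 0 ∧ Dom D (2 * δ) X ∧ nrm (D - Y) ≤ 4 * η := by
  set D' : A M := Y - pos (Y - δ • X) + pos (-Y - δ • X) with hD'
  have hdom : Dom D' δ X := by
    constructor <;> intro m <;>
    · have h0 : 0 ≤ δ * X.coeff m := mul_nonneg hδ (hX.nn m)
      simp only [hD', MonoidAlgebra.coeff_add, Finsupp.add_apply, pos_coeff,
        MonoidAlgebra.coeff_neg, Finsupp.neg_apply, MonoidAlgebra.coeff_sub, Finsupp.sub_apply,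
        MonoidAlgebra.coeff_smul, Finsupp.smul_apply, smul_eq_mul]
      rcases le_total (Y.coeff m - δ * X.coeff m) 0 with h | h <;>
      rcases le_total (-Y.coeff m - δ * X.coeff m) 0 with h' | h' <;>
      simp only [max_eq_right, max_eq_left, h, h'] <;> linarith
  have hn : nrm (D' - Y) ≤ 2 * η := by
    have e : D' - Y = -pos (Y - δ • X) + pos (-Y - δ • X) := by rw [hD']; abel
    rw [e]
    refine (nrm_add _ _).trans ?_
    rw [nrm_neg]
    have a1 := nrm_of_nn (pos_nn (Y - δ • X))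
    have a2 := nrm_of_nn (pos_nn (-Y - δ • X))
    unfold Np at h1 h2; linarith
  have hm1 : |mass D'| ≤ δ := (abs_mass_le _).trans (hdom.nrm_le hX)
  have hm2 : |mass D'| ≤ 2 * η := by
    have := (abs_mass_le _).trans hn
    rwa [map_sub, hY, sub_zero] at this
  refine ⟨D' - mass D' • X, by simp [hX.one], ⟨?_, ?_⟩, ?_⟩
  · have : -(mass D') • X ≤ δ • X :=
      smul_le_smul_of_nonneg_right (by linarith [abs_le.1 hm1]) hX.nn
    calc D' - mass D' • X = D' + -(mass D') • X := by rw [neg_smul, sub_eq_add_neg]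
      _ ≤ δ • X + δ • X := add_le_add hdom.le this
      _ = _ := by rw [← add_smul, two_mul]
  · have : (mass D') • X ≤ δ • X :=
      smul_le_smul_of_nonneg_right (by linarith [abs_le.1 hm1]) hX.nn
    calc -(D' - mass D' • X) = -D' + (mass D') • X := by abel
      _ ≤ δ • X + δ • X := add_le_add hdom.ge this
      _ = _ := by rw [← add_smul, two_mul]
  · have e : D' - mass D' • X - Y = (D' - Y) + (-(mass D')) • X := by rw [neg_smul]; abel
    rw [e]
    refine (nrm_add _ _).trans ?_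
    have a1 := nrm_smul (-(mass D')) X
    rw [abs_neg] at a1
    have a2 := mul_le_mul hm2 hX.nrm_le (nrm_nn _) (by linarith [abs_nonneg (mass D')])
    linarith

/-- the pair gadget inequality -/
lemma gadget_Np {U : A M} (hU : Prob U) {J : ℕ} (h : Mix U J) (Y₀ Y₁ : A M) :
    Np ((1 / 2 : ℝ) • (U ^ (J + 1) * Y₀ * U ^ J + U ^ J * Y₁ * U ^ (J + 1))) ≤
      1 / 4 * Np ((1 / 2 : ℝ) • (Y₀ + Y₁)) + 3 / 8 * Np Y₀ + 3 / 8 * Np Y₁ := by
  obtain ⟨C, hC, h1, h2, hm⟩ := h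
  have p0 := hU.pow J
  have p1 := hU.pow (J + 1)
  set P := U ^ J
  set Q := U ^ (J + 1)
  have e : (1 / 2 : ℝ) • (Q * Y₀ * P + P * Y₁ * Q) =
      C * ((1 / 2 : ℝ) • (Y₀ + Y₁)) * C + (1 / 2 : ℝ) • (((Q - C) * Y₀ * P + C * Y₀ * (P - C)) +
        ((P - C) * Y₁ * Q + C * Y₁ * (Q - C))) := by
    rw [mul_smul_comm, smul_mul_assoc, ← smul_add]
    congr 1
    noncomm_ring
  rw [e]
  have b0 := Np_mul_mul hC hC ((1 / 2 : ℝ) • (Y₀ + Y₁))
  have b1 := Np_mul_mul (sub_nonneg.2 h2) p0.nn Y₀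
  have b2 := Np_mul_mul hC (sub_nonneg.2 h1) Y₀
  have b3 := Np_mul_mul (sub_nonneg.2 h1) p1.nn Y₁
  have b4 := Np_mul_mul hC (sub_nonneg.2 h2) Y₁
  simp only [map_sub, hm, p0.one, p1.one] at b0 b1 b2 b3 b4
  refine (Np_add _ _).trans ?_
  have c1 := Np_smul (by norm_num : (0 : ℝ) ≤ 1 / 2) (((Q - C) * Y₀ * P + C * Y₀ * (P - C)) +
        ((P - C) * Y₁ * Q + C * Y₁ * (Q - C)))
  have c2 := Np_add ((Q - C) * Y₀ * P + C * Y₀ * (P - C)) ((P - C) * Y₁ * Q + C * Y₁ * (Q - C))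
  have c3 := Np_add ((Q - C) * Y₀ * P) (C * Y₀ * (P - C))
  have c4 := Np_add ((P - C) * Y₁ * Q) (C * Y₁ * (Q - C))
  linarith

lemma gadget_nrm {U : A M} (hU : Prob U) {J : ℕ} (h : Mix U J) (Y₀ Y₁ : A M) :
    nrm ((1 / 2 : ℝ) • (U ^ (J + 1) * Y₀ * U ^ J + U ^ J * Y₁ * U ^ (J + 1))) ≤
      1 / 4 * nrm ((1 / 2 : ℝ) • (Y₀ + Y₁)) + 3 / 8 * nrm Y₀ + 3 / 8 * nrm Y₁ := by
  have h1 := gadget_Np hU h Y₀ Y₁
  have h2 := gadget_Np hU h (-Y₀) (-Y₁)
  have e1 : (1 / 2 : ℝ) • (U ^ (J + 1) * -Y₀ * U ^ J + U ^ J * -Y₁ * U ^ (J + 1)) =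
    -((1 / 2 : ℝ) • (U ^ (J + 1) * Y₀ * U ^ J + U ^ J * Y₁ * U ^ (J + 1))) := by
    rw [← smul_neg]; congr 1; noncomm_ring
  have e2 : (1 / 2 : ℝ) • (-Y₀ + -Y₁) = -((1 / 2 : ℝ) • (Y₀ + Y₁)) := by
    rw [← smul_neg, neg_add]
  rw [e1, e2] at h2
  unfold nrm; linarith

end Vale.Agent.P321
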