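import Vale.Agent.P321.Step2

/- The base of the recursion, and the iteration. -/

namespace Vale.Agent.P321

open Finset

lemma base_num {K y : ℕ} (hK : 1 ≤ K) {b : ℝ} (hb0 : 0 < b) (hy : 6 * b * K ≤ y) (hy1 : 1 ≤ y) :
    Real.exp ((K * y ^ 3 / b) ^ 2 * b ^ 2 * (8 / ((((y ^ 4 : ℕ) : ℝ) + 1) * √(((y ^ 4 : ℕ) : ℝ) + 1)) +
      2 * (6 * b * K / y ^ 3) ^ 2 / √(((y ^ 4 : ℕ) : ℝ) + 1)) / 2 -
      K * y ^ 3 / b * (6 * b * K / y ^ 3)) / (K * y ^ 3 / b) ≤ eta K := by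
  have hK' : (1 : ℝ) ≤ K := by exact_mod_cast hK
  have hy' : (1 : ℝ) ≤ y := by exact_mod_cast hy1
  have a0 : (y : ℝ) ^ 2 ≤ √(((y ^ 4 : ℕ) : ℝ) + 1) :=
    Real.le_sqrt_of_sq_le (by push_cast; nlinarith)
  have a0' : (y : ℝ) ^ 4 ≤ ((y ^ 4 : ℕ) : ℝ) + 1 := by push_cast; linarith
  have a2 : (K * y ^ 3 / b) ^ 2 * b ^ 2 * (8 / ((((y ^ 4 : ℕ) : ℝ) + 1) * √(((y ^ 4 : ℕ) : ℝ) + 1)) +
      2 * (6 * b * K / y ^ 3) ^ 2 / √(((y ^ 4 : ℕ) : ℝ) + 1)) / 2 ≤
      (K * y ^ 3 / b) ^ 2 * b ^ 2 * (8 / ((y : ℝ) ^ 4 * y ^ 2) +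
      2 * (6 * b * K / y ^ 3) ^ 2 / y ^ 2) / 2 := by gcongr
  have a3 : (K * y ^ 3 / b) ^ 2 * b ^ 2 * (8 / ((y : ℝ) ^ 4 * y ^ 2) +
      2 * (6 * b * K / y ^ 3) ^ 2 / y ^ 2) / 2 = 4 * K ^ 2 + K ^ 2 * (6 * b * K / y) ^ 2 := by
    field_simp; ring
  have a4 : K * y ^ 3 / b * (6 * b * K / y ^ 3) = 6 * K ^ 2 := by
    field_simp
  have a5 : 1 ≤ K * y ^ 3 / b := by
    rw [le_div_iff₀ hb0]
    have : (y : ℝ) * 1 ^ 2 ≤ y * y ^ 2 := by gcongr
    nlinarith
  have a6 : (6 * b * K / y) ^ 2 ≤ 1 :=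
    pow_le_one₀ (by positivity) ((div_le_one (by linarith)).2 hy)
  refine (div_le_self (Real.exp_pos _).le a5).trans (le_trans ?_ (exp_le_eta K))
  refine Real.exp_le_exp.2 ?_
  nlinarith [mul_le_mul_of_nonneg_left a6 (sq_nonneg (K : ℝ))]

lemma base_gain {M : Type} [Monoid M] {T B : A M} (pT : Prob T) (pB : Prob B) {b : ℝ}
    (hb0 : 0 < b) (hD : Dom (B - T) b T) {J K y s : ℕ} (hJ : Mix T J) (hK : 1 ≤ K) (hKy : K ≤ y)
    (hy : 6 * b * K ≤ y) (hs : 12 * y ^ 4 * (J + 1) ≤ s) {σ : ℝ} (hσ : σ = 1 ∨ σ = -1) :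
    Np (σ • (T ^ (s + 1) * B * T ^ (s + 1) - T ^ (s + 2) * B * T ^ s) -
      (6 * b * K / y ^ 3 : ℝ) • (T ^ (s + 1) * B * T ^ (s + 1))) ≤ 2 * eta K := by
  obtain ⟨S, _, μ, φ, hr, e1, hd⟩ := exists_rep pT
  obtain ⟨e, he, he1, -⟩ := hd _ _ hD
  have eB : ev μ φ (fun s => 1 + e s) = B := by rw [ev_add, e1, he, add_sub_cancel]
  have hy1 : 1 ≤ y := hK.trans hKy
  have G := base_centre hr e1 eB pB hb0 he1 (by positivity) hσ (n := 12 * y ^ 4) (by positivity)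
    (base_num hK hb0 hy hy1)
  have H := tower_base pT hJ _ _ _ _ G le_rfl
  obtain ⟨c, rfl⟩ := Nat.exists_eq_add_of_le hs
  rw [zero_add, zero_add] at H
  have T2 := ((Np_sw (pT.pow (c + 1)) (pT.pow c) _).trans H).trans (Phi_final _ _)
  rw [sw_mul T _ (a' := 12 * y ^ 4 * (J + 1) + c + 1) (b' := 12 * y ^ 4 * (J + 1) + c) (by ring)
    (by ring)] at T2
  generalize 12 * y ^ 4 * (J + 1) + c = s at T2 ⊢
  have e1 : T ^ (s + 1) * (B * T) * T ^ s = T ^ (s + 1) * B * T ^ (s + 1) := by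
    nth_rw 3 [pow_succ']; simp only [mul_assoc]
  have e2 : T ^ (s + 1) * (T * B) * T ^ s = T ^ (s + 2) * B * T ^ s := by
    rw [pow_succ T (s + 1)]; simp only [mul_assoc]
  simp only [mul_sub, sub_mul, mul_smul_comm, smul_mul_assoc, e1, e2] at T2
  have := half_pow_le_eta (K := K) (n := y ^ 4) (by
    have a : K * K ≤ y * y := Nat.mul_le_mul hKy hKy
    have b : 1 ≤ y * y := by nlinarith
    nlinarith)
  linarith

lemma base {q : ℝ} (q0 : 0 < q) (q1 : q < 1) : ∃ W₀ : ℕ, ∀ K w : ℕ, w = 2 ^ K → W₀ ≤ w →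
    State q (w ^ 72) (1 / w ^ 41) (8 * eta K) := by
  set t : FM := FreeMonoid.of false * FreeMonoid.of true with ht
  set T := PP q t with hT
  set B := PP q (FreeMonoid.of true) with hB
  have pT : Prob T := prob_PP q0.le q1.le _
  have pB : Prob B := prob_PP q0.le q1.le _
  have l1 : ∀ b, q • (1 : A FM) ≤ PP q (FreeMonoid.of b) := fun b => by
    rw [PP_of]
    exact le_add_of_nonneg_right (smul_nonneg (by linarith) (prob_single _).nn)
  have l2 : q • B ≤ T := by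
    have := mul_le_mul_of_nonneg_right (l1 false) pB.nn
    rwa [smul_mul_assoc, one_mul, hB, ← map_mul] at this
  have l3 : (q * q) • (1 : A FM) ≤ T := by
    rw [mul_smul]; exact (smul_le_smul_of_nonneg_left (l1 true) q0.le).trans l2
  have qq : q * q ≤ 1 := by nlinarith
  have o : Ov (T ^ 0) (T ^ (0 + 1)) (q * q) :=
    ⟨(q * q) • 1, smul_nonneg (by positivity) zero_le_one,
      by simpa using smul_le_smul_of_nonneg_right qq (zero_le_one (α := A FM)),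
      by simpa using l3, by simp⟩
  have mT := mix_of_ov pT o (by positivity) qq (n := ⌈6 / (q * q)⌉₊)
    (by rw [mul_comm, ← div_le_iff₀ (by positivity)]; exact Nat.le_ceil _)
  set J := ⌈6 / (q * q)⌉₊ * (0 + 1)
  set b := 1 / q + 1 with hb
  have hb0 : 0 < b := by positivity
  have hD : Dom (B - T) b T := by
    have a := smul_le_smul_of_nonneg_left l2 (by positivity : 0 ≤ 1 / q)
    rw [smul_smul, one_div_mul_cancel q0.ne', one_smul] at a
    have a2 := smul_nonneg (by positivity : 0 ≤ 1 / q) pT.nn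
    constructor
    · rw [hb, add_smul, one_smul]
      exact ((sub_le_self _ pT.nn).trans a).trans (le_add_of_nonneg_right pT.nn)
    · rw [hb, add_smul, one_smul, neg_sub]
      exact (sub_le_self _ pB.nn).trans (le_add_of_nonneg_left a2)
  set Q := ⌈2 ^ 19 * ((2 * b ^ 2 + (b ^ 2) ^ 2) * (J + 1)) ^ 2⌉₊ + 2 with hQ
  obtain ⟨C, hC⟩ := mixing FM q0 q1.le (Q := Q) (by omega)
  refine ⟨48 * Q * (J + 1) * (5 + C * (J + 1)) + ⌈12 * b⌉₊ + 2, fun K w hw hW => ?_⟩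
  have hK : 1 ≤ K := by
    rcases Nat.eq_zero_or_pos K with rfl | h
    · omega
    · exact h
  have hKw : K ≤ w := by rw [hw]; exact Nat.lt_two_pow_self.le
  have hKw' : (K : ℝ) ≤ w := by exact_mod_cast hKw
  have hw1 : 1 ≤ w := by omega
  have hw' : (1 : ℝ) ≤ w := by exact_mod_cast hw1
  have hbw : 12 * b ≤ w := (Nat.le_ceil _).trans (by exact_mod_cast (by omega))
  have hbK : 12 * b * K ≤ (w : ℝ) ^ 2 := by rw [sq]; gcongr
  have hp : 0 < (w ^ 15) ^ 4 * (J + 1) := by positivity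
  obtain ⟨s, hs⟩ : ∃ s, s + 1 = 4 * Q * (12 * (w ^ 15) ^ 4) * (J + 1) :=
    ⟨4 * Q * (12 * (w ^ 15) ^ 4) * (J + 1) - 1, by
      have : 0 < 4 * Q * (12 * (w ^ 15) ^ 4) * (J + 1) := by positivity
      omega⟩
  have hg := fun σ hσ => base_gain pT pB hb0 hD mT hK (y := w ^ 15) (s := s) (σ := σ)
    (hKw.trans (Nat.le_self_pow (by norm_num) w))
    (by
      push_cast
      have : (w : ℝ) ^ 2 ≤ w ^ 15 := pow_le_pow_right₀ hw' (by norm_num)
      nlinarith)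
    (by
      have : 2 ≤ Q := by omega
      nlinarith) hσ
  have g1 := hg _ (Or.inr rfl)
  have g2 := hg _ (Or.inl rfl)
  rw [neg_smul, one_smul, neg_sub] at g1
  rw [one_smul, ← neg_sub (T ^ (s + 2) * B * T ^ s)] at g2
  have pU : Prob (T ^ (s + 1) * B * T ^ (s + 1)) := ((pT.pow _).mul pB).mul (pT.pow _)
  have pV : Prob (T ^ (s + 2) * B * T ^ s) := ((pT.pow _).mul pB).mul (pT.pow _)
  obtain ⟨D, d1, d2, d3⟩ := clamp pU (by positivity) (by rw [map_sub, pU.one, pV.one, sub_self])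
    g1 g2
  have lt : t.length = 2 := rfl
  have lu : (t ^ (s + 1) * FreeMonoid.of true * t ^ (s + 1)).length = 4 * (s + 1) + 1 := by
    simp only [FreeMonoid.length_mul, length_pow, lt, FreeMonoid.length_of]; ring
  have hX : (s + 1) * (5 + C * (J + 1)) ≤ w ^ 72 := by
    rw [hs]
    calc _ = 48 * Q * (J + 1) * (5 + C * (J + 1)) * w ^ 60 := by ring
      _ ≤ w ^ 12 * w ^ 60 := by
        gcongr
        exact le_trans (by omega) (Nat.le_self_pow (by norm_num) w)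
      _ = _ := by ring
  have e0 := eta_nn K
  refine ⟨t ^ (s + 1) * FreeMonoid.of true * t ^ (s + 1), t ^ (s + 2) * FreeMonoid.of true * t ^ s,
    _, D, ?_, ?_, ?_, pU, d1, d2.mono pU.nn ?_, ?_, ?_, ?_⟩
  · rw [lu]; simp only [FreeMonoid.length_mul, length_pow, lt, FreeMonoid.length_of]; ring
  · intro he
    rw [pow_succ t (s + 1), mul_assoc, mul_assoc, mul_assoc] at he
    have he := mul_left_cancel he
    rw [ht, mul_assoc] at he
    exact absurd (FreeMonoid.of_injective (eq_of_mul_eq (u := FreeMonoid.of true)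
      (v := FreeMonoid.of false) rfl he)) (by simp)
  · rw [lu]; nlinarith [Nat.zero_le ((s + 1) * (C * (J + 1)))]
  · push_cast
    rw [← mul_div_assoc, div_le_div_iff₀ (by positivity) (by positivity)]
    have : (w : ℝ) ^ 2 * w ^ 41 ≤ (w ^ 15) ^ 3 := by
      rw [← pow_add, ← pow_mul]; exact pow_le_pow_right₀ hw' (by norm_num)
    have a := mul_le_mul_of_nonneg_right hbK (by positivity : (0 : ℝ) ≤ w ^ 41)
    linarith
  · refine (hC T B b J _ _ (2 * (s + 1)) pT pB hD mT (by positivity) hs ?_ (by omega) ?_).mono pU ?_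
    · rw [hQ]; push_cast
      linarith [Nat.le_ceil (2 ^ 19 * ((2 * b ^ 2 + (b ^ 2) ^ 2) * (J + 1)) ^ 2)]
    · have := mul_le_mul_of_nonneg_right (mul_le_mul_of_nonneg_left (l1 true) (pT.pow (s + 1)).nn)
        (pT.pow (s + 1)).nn
      rwa [mul_smul_comm, smul_mul_assoc, mul_one, ← pow_add, ← two_mul] at this
    · nlinarith
  · simp only [map_mul, map_pow, ← hT, ← hB, sub_self, nrm_zero]
    positivity
  · rw [lu]
    simp only [map_mul, map_pow, ← hT, ← hB]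
    rw [nrm_sub_comm, ← sub_add_eq_add_sub, ← neg_sub (T ^ (s + 2) * B * T ^ s), neg_add_eq_sub]
    refine d3.trans ?_
    push_cast
    nlinarith [mul_nonneg (Nat.cast_nonneg s : (0 : ℝ) ≤ s) e0]

lemma iterate {q : ℝ} (q0 : 0 < q) (q1 : q < 1) : ∃ W₀ : ℕ, ∀ K w : ℕ, w = 2 ^ K → W₀ ≤ w →
    ∀ l : ℕ, State q ((w ^ (10 * 4 ^ l - 1)) ^ 8) (1 / w ^ (40 * 4 ^ l + 1 + l * 4 ^ l))
      ((8 + 10 * l) * eta K) := by
  obtain ⟨W₁, h1⟩ := base q0 q1
  obtain ⟨W₂, h2⟩ := double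
  refine ⟨W₁ + W₂, fun K w hw hW l => ?_⟩
  have hw1 : 1 ≤ w := by rw [hw]; exact Nat.one_le_two_pow
  have hw' : (1 : ℝ) ≤ w := by exact_mod_cast hw1
  induction l with
  | zero => simpa [← pow_mul] using h1 K w hw (by omega)
  | succ l ih =>
    have hp : 1 ≤ 4 ^ l := Nat.one_le_pow _ _ (by norm_num)
    obtain ⟨a, ha⟩ : ∃ a, 10 * 4 ^ l = a + 1 := ⟨10 * 4 ^ l - 1, by omega⟩
    rw [ha, Nat.add_sub_cancel] at ih
    have hK : K ≤ w ^ a := by
      have : K ≤ w := by rw [hw]; exact Nat.lt_two_pow_self.le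
      exact this.trans (Nat.le_self_pow (by omega) w)
    have := h2 q K w (w ^ a) _ _ q0.le q1.le hw (by omega) hK (by positivity) (by
      push_cast
      rw [mul_one_div, div_mul_eq_mul_div, ← pow_mul, ← pow_add, div_le_one (by positivity)]
      exact pow_le_pow_right₀ hw' (by omega)) ih
    refine this.mono (le_of_eq ?_) ?_ (le_of_eq (by push_cast; ring))
    · rw [← pow_mul w a, ← pow_add, pow_succ 4 l]
      congr 2; omega
    · push_cast
      rw [one_div_pow, mul_one_div, div_div, ← pow_mul, ← pow_add,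
        div_le_div_iff₀ (by positivity) (by positivity), one_mul, ← pow_add]
      refine pow_le_pow_right₀ hw' ?_
      rw [pow_succ 4 l]
      nlinarith

end Vale.Agent.P321
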