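import Mathlib

/- Symmetric binomial weights and the supersolution lemma. -/

namespace Vale.Agent.P321

open Finset

/-- symmetric binomial weights on the integers -/
noncomputable def bz : ℕ → ℤ → ℝ
  | 0, i => if i = 0 then 1 else 0
  | k + 1, i => (bz k i + bz k (i - 1)) / 2

lemma bz_nn : ∀ (k : ℕ) (i : ℤ), 0 ≤ bz k i
  | 0, i => by unfold bz; split_ifs <;> norm_num
  | k + 1, i => by unfold bz; linarith [bz_nn k i, bz_nn k (i - 1)]

lemma bz_zero : ∀ (k : ℕ) (i : ℤ), (i < 0 ∨ (k : ℤ) < i) → bz k i = 0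
  | 0, i, h => by unfold bz; rw [if_neg]; omega
  | k + 1, i, h => by
    unfold bz; rw [bz_zero k i (by omega), bz_zero k (i - 1) (by omega)]; simp

lemma bz_mul : ∀ (k : ℕ) (i : ℤ), (i : ℝ) * bz (k + 1) i = (k + 1) / 2 * bz k (i - 1)
  | 0, i => by
    simp only [bz]
    split_ifs with h1 h2 h2
    · omega
    · subst h1; simp
    · have : (i : ℝ) = 1 := by exact_mod_cast (by omega : i = 1)
      rw [this]; norm_num
    · simp
  | k + 1, i => by
    have h1 := bz_mul k i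
    have h2 := bz_mul k (i - 1)
    have h3 : bz (k + 1) (i - 1) = (bz k (i - 1) + bz k (i - 1 - 1)) / 2 := by rw [bz]
    rw [bz]
    push_cast at *
    linear_combination (1 / 2 : ℝ) * h1 + (1 / 2 : ℝ) * h2 - ((k : ℝ) + 1) / 2 * h3

lemma bz_grad (k : ℕ) (i : ℤ) :
    ((k : ℝ) + 1) * (bz k i - bz k (i - 1)) = 2 * bz (k + 1) i * (k + 1 - 2 * i) := by
  have h1 := bz_mul k i
  have h3 : bz (k + 1) i = (bz k i + bz k (i - 1)) / 2 := by rw [bz]
  linear_combination 4 * h1 - 2 * ((k : ℝ) + 1) * h3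

/-- shifted binomial weights on the naturals -/
noncomputable def bk (k r τ : ℕ) : ℝ := bz k ((τ : ℤ) - r)

lemma bk_nn (k r τ : ℕ) : 0 ≤ bk k r τ := bz_nn _ _

lemma bk_of_lt {k r τ : ℕ} (h : r + k < τ) : bk k r τ = 0 := bz_zero _ _ (by omega)

lemma bk_succ_zero (k r : ℕ) : bk k (r + 1) 0 = 0 := bz_zero _ _ (by omega)

lemma bk_succ_succ (k r τ : ℕ) : bk k (r + 1) (τ + 1) = bk k r τ := by
  unfold bk; congr 1; push_cast; ring

lemma bk_succ (k r τ : ℕ) : bk (k + 1) r τ = (bk k r τ + bk k (r + 1) τ) / 2 := by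
  unfold bk; rw [bz]; congr 3; push_cast; ring

lemma bk_zero_left (r τ : ℕ) : bk 0 r τ = if τ = r then 1 else 0 := by
  unfold bk bz; congr 1; apply propext; omega

lemma sum_bk_ext {V : Type*} [AddCommGroup V] [Module ℝ V] {k r n : ℕ} (h : r + k ≤ n)
    (f : ℕ → V) : ∑ τ ∈ range (n + 2), bk k r τ • f τ = ∑ τ ∈ range (n + 1), bk k r τ • f τ := by
  rw [sum_range_succ, bk_of_lt (by omega), zero_smul, add_zero]

lemma sum_bk_shift {V : Type*} [AddCommGroup V] [Module ℝ V] (k r n : ℕ) (f : ℕ → V) :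
    ∑ τ ∈ range (n + 2), bk k (r + 1) τ • f τ = ∑ τ ∈ range (n + 1), bk k r τ • f (τ + 1) := by
  rw [sum_range_succ', bk_succ_zero, zero_smul, add_zero]
  simp only [bk_succ_succ]

lemma sum_bk_succ {V : Type*} [AddCommGroup V] [Module ℝ V] {k r n : ℕ} (h : r + k ≤ n)
    (f : ℕ → V) : ∑ τ ∈ range (n + 2), bk (k + 1) r τ • f τ =
      (1 / 2 : ℝ) • (∑ τ ∈ range (n + 1), bk k r τ • f τ +
        ∑ τ ∈ range (n + 1), bk k r τ • f (τ + 1)) := by
  rw [← sum_bk_ext h, ← sum_bk_shift, ← sum_add_distrib, smul_sum]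
  refine sum_congr rfl fun τ _ => ?_
  rw [bk_succ, ← add_smul, smul_smul]; congr 1; ring

lemma sum_bk : ∀ {k r n : ℕ}, r + k ≤ n → ∑ τ ∈ range (n + 1), bk k r τ = 1
  | 0, r, n, h => by
    simp only [bk_zero_left]
    rw [sum_ite_eq' , if_pos (mem_range.2 (by omega))]
  | k + 1, r, 0, h => by omega
  | k + 1, r, n + 1, h => by
    have := sum_bk_succ (V := ℝ) (k := k) (r := r) (n := n) (by omega) fun _ => 1
    simp only [smul_eq_mul, mul_one] at this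
    rw [this, sum_bk (by omega)]; norm_num

lemma sum_bk_sq : ∀ {k r n : ℕ}, r + k ≤ n →
    ∑ τ ∈ range (n + 1), bk k r τ * ((k : ℝ) + 2 * r - 2 * τ) ^ 2 = (k : ℝ)
  | 0, r, n, h => by
    simp only [bk_zero_left, ite_mul, one_mul, zero_mul]
    rw [sum_ite_eq' , if_pos (mem_range.2 (by omega))]; simp
  | k + 1, r, 0, h => by omega
  | k + 1, r, n + 1, h => by
    have := sum_bk_succ (V := ℝ) (k := k) (r := r) (n := n) (by omega)
      fun τ => (((k + 1 : ℕ) : ℝ) + 2 * r - 2 * τ) ^ 2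
    simp only [smul_eq_mul] at this
    rw [this, ← sum_add_distrib]
    have h1 := sum_bk_sq (k := k) (r := r) (n := n) (by omega)
    have h2 := sum_bk (k := k) (r := r) (n := n) (by omega)
    have e : ∑ τ ∈ range (n + 1), (bk k r τ * (((k + 1 : ℕ) : ℝ) + 2 * r - 2 * τ) ^ 2 +
        bk k r τ * (((k + 1 : ℕ) : ℝ) + 2 * r - 2 * ((τ + 1 : ℕ) : ℝ)) ^ 2) =
        2 * ∑ τ ∈ range (n + 1), bk k r τ * ((k : ℝ) + 2 * r - 2 * τ) ^ 2 +
          2 * ∑ τ ∈ range (n + 1), bk k r τ := by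
      rw [mul_sum, mul_sum, ← sum_add_distrib]
      exact sum_congr rfl fun τ _ => by push_cast; ring
    rw [e, h1, h2]; push_cast; ring

lemma bk_grad (k r τ : ℕ) : bk k r τ - bk k (r + 1) τ =
    2 / ((k : ℝ) + 1) * (bk (k + 1) r τ * (((k + 1 : ℕ) : ℝ) + 2 * r - 2 * τ)) := by
  have := bz_grad k ((τ : ℤ) - r)
  unfold bk
  rw [show (τ : ℤ) - ((r + 1 : ℕ) : ℤ) = τ - r - 1 by push_cast; ring]
  have hk : (k : ℝ) + 1 ≠ 0 := by positivity
  field_simp
  push_cast at *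
  linear_combination this

lemma sum_abs_grad {k r n : ℕ} (h : r + k ≤ n) :
    ∑ τ ∈ range (n + 2), |bk k r τ - bk k (r + 1) τ| ≤ 2 / √((k : ℝ) + 1) := by
  have hk : (0 : ℝ) < k + 1 := by positivity
  set c := √((k : ℝ) + 1) with hc
  have hc0 : 0 < c := Real.sqrt_pos.2 hk
  have hcc : c * c = k + 1 := Real.mul_self_sqrt hk.le
  have h1 := sum_bk_sq (k := k + 1) (r := r) (n := n + 1) (by omega)
  have h2 := sum_bk (k := k + 1) (r := r) (n := n + 1) (by omega)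
  calc ∑ τ ∈ range (n + 2), |bk k r τ - bk k (r + 1) τ|
      ≤ ∑ τ ∈ range (n + 2), 2 / ((k : ℝ) + 1) * ((bk (k + 1) r τ *
          (((k + 1 : ℕ) : ℝ) + 2 * r - 2 * τ) ^ 2) / (2 * c) + c / 2 * bk (k + 1) r τ) := by
        refine sum_le_sum fun τ _ => ?_
        rw [bk_grad, abs_mul, abs_of_pos (by positivity), abs_mul, abs_of_nonneg (bk_nn _ _ _)]
        refine mul_le_mul_of_nonneg_left ?_ (by positivity)
        set x := (((k + 1 : ℕ) : ℝ) + 2 * r - 2 * τ)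
        have : |x| ≤ x ^ 2 / (2 * c) + c / 2 := by
          rw [← sq_abs x, div_add' _ _ _ (by positivity), le_div_iff₀ (by positivity)]
          nlinarith [sq_nonneg (|x| - c)]
        have := mul_le_mul_of_nonneg_left this (bk_nn (k + 1) r τ)
        calc _ ≤ _ := this
          _ = _ := by ring
    _ = 2 / c := by
        rw [← mul_sum, sum_add_distrib, ← sum_div, ← mul_sum, h1, h2]
        push_cast
        rw [← hcc]; field_simp; ring

lemma bz_le (k : ℕ) (i : ℤ) : bz k i ≤ 1 / √((k : ℝ) + 1) := by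
  by_cases hi : i < 0 ∨ (k : ℤ) < i
  · rw [bz_zero k i hi]; positivity
  obtain ⟨τ, rfl⟩ : ∃ τ : ℕ, i = τ := ⟨i.toNat, by omega⟩
  have h := sum_abs_grad (k := k) (r := 0) (n := k) (by omega)
  obtain ⟨d, hd⟩ : ∃ d, k + 2 = (τ + 1) + d := ⟨k + 1 - τ, by omega⟩
  rw [hd, sum_range_add] at h
  set g : ℕ → ℝ := fun j => bk k 1 j with hg
  have e : ∀ j, bk k 0 j - bk k (0 + 1) j = g (j + 1) - g j := fun j => by
    simp only [hg]; rw [← bk_succ_succ k 0 j]
  simp only [e] at h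
  have a1 := abs_sum_le_sum_abs (fun j => g (j + 1) - g j) (range (τ + 1))
  have a2 := abs_sum_le_sum_abs (fun j => g (τ + 1 + j + 1) - g (τ + 1 + j)) (range d)
  rw [sum_range_sub] at a1
  rw [show (fun j => g (τ + 1 + j + 1) - g (τ + 1 + j)) =
    fun j => (fun j => g (τ + 1 + j)) (j + 1) - (fun j => g (τ + 1 + j)) j from rfl,
    sum_range_sub (fun j => g (τ + 1 + j))] at a2
  have z1 : g 0 = 0 := bk_succ_zero k 0
  have z2 : g (τ + 1 + d) = 0 := bk_of_lt (by omega)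
  have z3 : g (τ + 1) = bz k τ := by simp [hg, bk]
  simp only [z1, z2, z3, add_zero, sub_zero, zero_sub, abs_neg] at a1 a2
  rw [abs_of_nonneg (bz_nn _ _)] at a1 a2
  have : 2 / √((k : ℝ) + 1) = 2 * (1 / √((k : ℝ) + 1)) := by ring
  linarith

lemma sum_bk_sq_le {k r n : ℕ} (h : r + k ≤ n) :
    ∑ τ ∈ range (n + 1), bk k r τ ^ 2 ≤ 1 / √((k : ℝ) + 1) := by
  calc ∑ τ ∈ range (n + 1), bk k r τ ^ 2
      ≤ ∑ τ ∈ range (n + 1), 1 / √((k : ℝ) + 1) * bk k r τ := sum_le_sum fun τ _ => by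
        rw [sq]; exact mul_le_mul_of_nonneg_right (bz_le _ _) (bk_nn _ _ _)
    _ = _ := by rw [← mul_sum, sum_bk h, mul_one]

lemma sum_grad_sq_le {k r n : ℕ} (h : r + k ≤ n) :
    ∑ τ ∈ range (n + 2), (bk k r τ - bk k (r + 1) τ) ^ 2 ≤
      4 / (((k : ℝ) + 1) * √((k : ℝ) + 1)) := by
  have hk : (0 : ℝ) < k + 1 := by positivity
  have h1 := sum_bk_sq (k := k + 1) (r := r) (n := n + 1) (by omega)
  have hs : 1 / √(((k + 1 : ℕ) : ℝ) + 1) ≤ 1 / √((k : ℝ) + 1) :=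
    one_div_le_one_div_of_le (Real.sqrt_pos.2 hk) (Real.sqrt_le_sqrt (by push_cast; linarith))
  calc ∑ τ ∈ range (n + 2), (bk k r τ - bk k (r + 1) τ) ^ 2
      ≤ ∑ τ ∈ range (n + 2), (2 / ((k : ℝ) + 1)) ^ 2 * (1 / √((k : ℝ) + 1)) * (bk (k + 1) r τ *
          (((k + 1 : ℕ) : ℝ) + 2 * r - 2 * τ) ^ 2) := by
        refine sum_le_sum fun τ _ => ?_
        rw [bk_grad]
        have a : bk (k + 1) r τ ≤ 1 / √((k : ℝ) + 1) := (bz_le _ _).trans hs
        have b := bk_nn (k + 1) r τ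
        set x := (((k + 1 : ℕ) : ℝ) + 2 * r - 2 * τ)
        set y := bk (k + 1) r τ
        have : (2 / ((k : ℝ) + 1)) ^ 2 * y * (y * x ^ 2) ≤
          (2 / ((k : ℝ) + 1)) ^ 2 * (1 / √((k : ℝ) + 1)) * (y * x ^ 2) := by gcongr
        calc _ = _ := by ring
          _ ≤ _ := this
    _ = _ := by
        rw [← mul_sum, h1]; push_cast
        have : √((k : ℝ) + 1) ≠ 0 := (Real.sqrt_pos.2 hk).ne'
        field_simp; ring

lemma inv_sqrt_step {κ x : ℝ} (h0 : 0 ≤ κ) (h1 : κ ≤ 1) (hx : 1 ≤ x) :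
    κ * (1 / √(x + 1)) + (1 - κ) * (1 / √x) ≤ 1 / √(x + κ / 2) := by
  have hx0 : 0 < x := by linarith
  have a : (1 / √(x + 1)) ^ 2 = 1 / (x + 1) := by
    rw [div_pow, Real.sq_sqrt (by linarith), one_pow]
  have b : (1 / √x) ^ 2 = 1 / x := by rw [div_pow, Real.sq_sqrt hx0.le, one_pow]
  have c : (1 / √(x + κ / 2)) ^ 2 = 1 / (x + κ / 2) := by
    rw [div_pow, Real.sq_sqrt (by linarith), one_pow]
  have d : κ * (1 / (x + 1)) + (1 - κ) * (1 / x) ≤ 1 / (x + κ / 2) := by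
    rw [mul_one_div, mul_one_div, div_add_div _ _ (by linarith) hx0.ne',
      div_le_div_iff₀ (by positivity) (by linarith)]
    nlinarith [mul_nonneg h0 (sub_nonneg.2 hx), mul_nonneg h0 h0]
  refine abs_le_of_sq_le_sq' ?_ (by positivity) |>.2
  rw [c]
  refine le_trans ?_ d
  rw [← a, ← b]
  nlinarith [mul_nonneg (mul_nonneg h0 (sub_nonneg.2 h1)) (sq_nonneg (1 / √(x + 1) - 1 / √x))]

lemma supersol {κ c : ℝ} (h0 : 0 ≤ κ) (h1 : κ ≤ 1) (hc : 0 ≤ c) (f : ℕ → ℕ → ℝ)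
    (hb : ∀ k, f 0 k ≤ c / √((k : ℝ) + 1))
    (hs : ∀ n k, f (n + 1) k ≤ κ * f n (k + 1) + (1 - κ) * f n k) :
    ∀ n k, f n k ≤ c / √((k : ℝ) + 1 + κ * n / 2)
  | 0, k => by simpa using hb k
  | n + 1, k => by
    have a := supersol h0 h1 hc f hb hs n (k + 1)
    have b := supersol h0 h1 hc f hb hs n k
    have hx : (1 : ℝ) ≤ k + 1 + κ * n / 2 := by
      have : 0 ≤ κ * n / 2 := by positivity
      have : (0 : ℝ) ≤ k := by positivity
      linarith
    have d := mul_le_mul_of_nonneg_left (inv_sqrt_step h0 h1 hx) hc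
    rw [show ((k + 1 : ℕ) : ℝ) + 1 + κ * n / 2 = k + 1 + κ * n / 2 + 1 by push_cast; ring] at a
    rw [show (k : ℝ) + 1 + κ * ((n + 1 : ℕ) : ℝ) / 2 = k + 1 + κ * n / 2 + κ / 2 by
      push_cast; ring]
    have a' := mul_le_mul_of_nonneg_left a h0
    have b' := mul_le_mul_of_nonneg_left b (sub_nonneg.2 h1)
    calc f (n + 1) k ≤ _ := hs n k
      _ ≤ _ := add_le_add a' b'
      _ = _ := by ring
      _ ≤ _ := d
      _ = _ := by ring

end Vale.Agent.P321
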