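import Vale.Agent.P321.TM

/- The centres of the smearing towers. -/

namespace Vale.Agent.P321

open Finset

variable {M : Type} [Monoid M] {S : Type} [Fintype S] {μ : S → ℝ} {φ : S → A M}

lemma ev_sw (X Y : A M) (g : S → ℝ) :
    ev μ (fun s => X * φ s * Y) g = X * ev μ φ g * Y := by
  simp [ev, mul_sum, sum_mul]

lemma list_conj {R : Type} [Monoid R] (U : R) {x y c : ℕ} (h : y + x = c) : ∀ l : List R,
    (l.map fun a => U ^ c * a).prod * U ^ y = U ^ y * (l.map fun a => U ^ x * a * U ^ y).prod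
  | [] => by simp
  | a :: l => by
    rw [List.map_cons, List.prod_cons, mul_assoc, list_conj U h l, List.map_cons, List.prod_cons,
      ← h, pow_add]
    simp only [mul_assoc]

/-- the core of a column-structured centre -/
noncomputable def core (μ : S → ℝ) (φ : S → A M) (U : A M) (c w : ℕ)
    (G : (Fin (w + 1) → S) → ℝ) : A M :=
  ev (pw μ (w + 1)) (fun col => φ (col 0) * (List.ofFn fun i : Fin w => U ^ c * φ (col i.succ)).prod) G

lemma core_eq (U : A M) {x y c w : ℕ} (h : y + x = c) (G : (Fin (w + 1) → S) → ℝ) :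
    U ^ x * core μ φ U c w G * U ^ y =
      ev (pw μ (w + 1)) (pφ (fun s => U ^ x * φ s * U ^ y) (w + 1)) G := by
  rw [core, ← ev_sw]
  congr 1
  funext col
  have := list_conj U h (List.ofFn fun i : Fin w => φ (col i.succ))
  rw [List.map_ofFn, List.map_ofFn] at this
  rw [pφ, List.ofFn_succ, List.prod_cons, mul_assoc, mul_assoc]
  erw [this]
  simp only [mul_assoc]
  rfl

lemma ev_ind [DecidableEq S] (c : S) : ev μ φ (fun s => if s = c then 1 else 0) = μ c • φ c := by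
  simp [ev]

/-- column representation of the shifted centre -/
lemma col_eq (U : A M) (hU : ev μ φ (fun _ => 1) = U) (w L p p' : ℕ) (τ : Fin L)
    (G : (Fin w → S) → ℝ) :
    ev (pw μ w) (pφ (fun s => U ^ (p + τ) * φ s * U ^ (L - 1 - τ + p')) w) G =
      ev (pw (pw μ w) L) (fun ω => (List.ofFn fun i : Fin w =>
        U ^ p * pφ φ L (fun j => ω j i) * U ^ p').prod) (fun ω => G (ω τ)) := by
  classical
  have e1 : (fun ω : Fin L → Fin w → S => G (ω τ)) = fun ω => ∑ col : Fin w → S,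
      G col * ∏ i, atf (fun s => if s = col i then (1 : ℝ) else 0) L τ (fun j => ω j i) := by
    funext ω
    simp only [atf_eq]
    rw [sum_eq_single (ω τ)]
    · simp
    · intro col _ hc
      obtain ⟨i, hi⟩ := Function.ne_iff.1 hc
      rw [prod_eq_zero (mem_univ i) (if_neg (Ne.symm hi)), mul_zero]
    · simp
  rw [e1, ev_sum]
  conv_lhs => rw [ev]
  refine sum_congr rfl fun col _ => ?_
  rw [ev_smul]
  have e2 := ev_prod (μ := pw μ L) (φ := fun η => U ^ p * pφ φ L η * U ^ p') w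
    fun i => atf (fun s => if s = col i then (1 : ℝ) else 0) L τ
  have e3 : ev (pw (pw μ w) L) (fun ω => (List.ofFn fun i : Fin w =>
        U ^ p * pφ φ L (fun j => ω j i) * U ^ p').prod)
      (fun ω => ∏ i, atf (fun s => if s = col i then (1 : ℝ) else 0) L τ (fun j => ω j i)) =
      ev (pw (pw μ L) w) (pφ (fun η => U ^ p * pφ φ L η * U ^ p') w)
        (fun ω => ∏ i, atf (fun s => if s = col i then (1 : ℝ) else 0) L τ (ω i)) := by
    unfold ev
    refine Fintype.sum_equiv (Equiv.piComm _) _ _ fun ω => ?_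
    congr 2
    simp only [pw]
    exact prod_comm
  rw [e3, e2]
  simp only [ev_sw, ev_atf _ τ.2, ev_ind, hU]
  have e4 : ∀ i, U ^ p * (U ^ (τ : ℕ) * μ (col i) • φ (col i) * U ^ (L - 1 - τ)) * U ^ p' =
      μ (col i) • (U ^ (p + τ) * φ (col i) * U ^ (L - 1 - τ + p')) := fun i => by
    rw [pow_add, pow_add]
    simp only [mul_smul_comm, smul_mul_assoc, mul_assoc]
  simp only [e4]
  rw [ofFn_smul_prod, smul_smul, mul_comm]
  rfl

lemma kernel_facts {k r n : ℕ} (hk : r + k ≤ n) {κ : ℕ → ℝ} {lo hi : ℝ} (hlo : 1 / 2 ≤ lo)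
    (hhi : hi ≤ 2) (hκ : ∀ τ, lo * bk k r τ ≤ κ τ ∧ κ τ ≤ hi * bk k r τ) :
    (∀ τ, 0 ≤ κ τ) ∧ 1 / 2 ≤ ∑ τ : Fin (n + 1), κ τ ∧ ∑ τ : Fin (n + 1), κ τ ≤ 2 ∧
      ∑ τ : Fin (n + 1), κ τ ^ 2 ≤ 4 / √((k : ℝ) + 1) := by
  have h0 : ∀ τ, 0 ≤ κ τ := fun τ =>
    (mul_nonneg (by linarith) (bk_nn _ _ _)).trans (hκ τ).1
  have h2 : ∀ τ, κ τ ≤ 2 * bk k r τ := fun τ =>
    (hκ τ).2.trans (mul_le_mul_of_nonneg_right hhi (bk_nn _ _ _))
  rw [Fin.sum_univ_eq_sum_range κ, Fin.sum_univ_eq_sum_range (fun τ => κ τ ^ 2)]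
  refine ⟨h0, ?_, ?_, ?_⟩
  · have := sum_le_sum fun τ (_ : τ ∈ range (n + 1)) => (hκ τ).1
    rw [← mul_sum, sum_bk hk] at this
    linarith
  · have := sum_le_sum fun τ (_ : τ ∈ range (n + 1)) => h2 τ
    rw [← mul_sum, sum_bk hk] at this
    linarith
  · have := sum_le_sum fun τ (_ : τ ∈ range (n + 1)) => pow_le_pow_left₀ (h0 τ) (h2 τ) 2
    simp only [mul_pow] at this
    rw [← mul_sum] at this
    have a := sum_bk_sq_le hk
    calc _ ≤ _ := this
      _ ≤ 2 ^ 2 * (1 / √((k : ℝ) + 1)) := by gcongr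
      _ = _ := by ring

lemma gain_centre (hr : IsRep μ φ) {U : A M} (hU : ev μ φ (fun _ => 1) = U) {w : ℕ}
    {g H : (Fin (w + 1) → S) → ℝ} (hg : ∑ col, pw μ (w + 1) col * g col = 0) {b : ℝ} (hb : 0 < b)
    (hb1 : 2 * b ≤ 1) (hgb : ∀ col, |g col| ≤ b) (hH : ∀ col, 1 / 2 ≤ H col) {δ : ℝ} (hδ : 0 ≤ δ)
    {lo hi : ℝ} (hlo : 1 / 2 ≤ lo) (hhi : hi ≤ 2) {n s k₀ : ℕ} (hn : n ≤ s) {θ η : ℝ} (hθ : 0 < θ)
    (hη : Real.exp (θ ^ 2 * b ^ 2 * (4 / √((k₀ : ℝ) + 1)) / 2 - θ * (δ / 4)) / θ ≤ η) :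
    GInv U (core μ φ U (s + s) w fun col => g col - δ * H col) s s n lo hi (Phi η k₀ 0) := by
  have pU : Prob U := hU ▸ hr.prob_ev
  set E : (Fin (n + 1) → Fin (w + 1) → S) → A M := fun ω => (List.ofFn fun i : Fin (w + 1) =>
    U ^ s * pφ φ (n + 1) (fun j => ω j i) * U ^ (s - n)).prod with hE
  have pE : ∀ ω, Prob (E ω) := fun ω => prob_ofFn fun i =>
    ((pU.pow _).mul ((hr.pow _).prob _)).mul (pU.pow _)
  have hp := hr.pow (w + 1)
  have hρ : IsRep (pw (pw μ (w + 1)) (n + 1)) E := ⟨pw_nn hp.nn _, pw_sum hp.sum _, pE⟩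
  have key : ∀ (k r : ℕ) (κ : ℕ → ℝ), r + k ≤ n →
      (∀ τ, lo * bk k r τ ≤ κ τ ∧ κ τ ≤ hi * bk k r τ) →
      ∑ τ ∈ range (n + 1), κ τ • (U ^ (s + τ) *
        (core μ φ U (s + s) w fun col => g col - δ * H col) * U ^ (s - τ)) ≤
      ev (pw (pw μ (w + 1)) (n + 1)) E fun ω => ∑ τ : Fin (n + 1), κ τ * g (ω τ) - δ / 4 := by
    intro k r κ hk hκ
    obtain ⟨f0, f1, -, -⟩ := kernel_facts hk hlo hhi hκ
    have e : ∑ τ ∈ range (n + 1), κ τ • (U ^ (s + τ) *
        (core μ φ U (s + s) w fun col => g col - δ * H col) * U ^ (s - τ)) =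
        ev (pw (pw μ (w + 1)) (n + 1)) E fun ω => ∑ τ : Fin (n + 1),
          κ τ * (g (ω τ) - δ * H (ω τ)) := by
      rw [ev_sum, ← Fin.sum_univ_eq_sum_range (fun τ => κ τ • (U ^ (s + τ) *
        (core μ φ U (s + s) w fun col => g col - δ * H col) * U ^ (s - τ)))]
      refine sum_congr rfl fun τ _ => ?_
      have := τ.2
      rw [ev_smul, core_eq U (by omega), hE,
        ← col_eq U hU (w + 1) (n + 1) s (s - n) τ fun col => g col - δ * H col,
        show n + 1 - 1 - τ + (s - n) = s - τ by omega]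
    rw [e]
    refine hρ.ev_mono fun ω => ?_
    simp only [mul_sub, sum_sub_distrib]
    have : ∑ τ : Fin (n + 1), δ / 2 * κ τ ≤ ∑ τ : Fin (n + 1), κ τ * (δ * H (ω τ)) :=
      sum_le_sum fun τ _ => by nlinarith [mul_nonneg (mul_nonneg hδ (f0 τ)) (sub_nonneg.2 (hH (ω τ)))]
    rw [← mul_sum] at this
    nlinarith
  refine ginv_init (le_trans (by positivity) hη) (fun k r κ hk hκ => ?_) fun k r κ h0 hk hκ => ?_
  · obtain ⟨f0, -, f2, -⟩ := kernel_facts hk hlo hhi hκ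
    refine (Np_le hρ.prob_ev.nn ((key k r κ hk hκ).trans (hρ.ev_mono fun ω => ?_))).trans
      hρ.prob_ev.one.le
    have : ∑ τ : Fin (n + 1), κ τ * g (ω τ) ≤ ∑ τ : Fin (n + 1), κ τ * b :=
      sum_le_sum fun τ _ => mul_le_mul_of_nonneg_left (abs_le.1 (hgb _)).2 (f0 τ)
    rw [← sum_mul] at this
    nlinarith
  · obtain ⟨-, -, -, f3⟩ := kernel_facts hk hlo hhi hκ
    refine (Np_mono (key k r κ hk hκ)).trans
      ((centre hp.nn hp.sum hg hb hgb pE (fun τ => κ τ) (δ / 4) hθ).trans (le_trans ?_ hη))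
    have : 4 / √((k : ℝ) + 1) ≤ 4 / √((k₀ : ℝ) + 1) := by
      have : (k₀ : ℝ) ≤ k := by exact_mod_cast h0
      gcongr
    have := f3.trans this
    gcongr

lemma base_centre (hr : IsRep μ φ) {U B : A M} (hU : ev μ φ (fun _ => 1) = U) {e : S → ℝ}
    (hB : ev μ φ (fun s => 1 + e s) = B) (pB : Prob B) {b : ℝ} (hb : 0 < b)
    (heb : ∀ s, |e s| ≤ b) {δ σ : ℝ} (hδ : 0 ≤ δ) (hσ : σ = 1 ∨ σ = -1) {n k₀ : ℕ} {θ η : ℝ}
    (hθ : 0 < θ) (hη : Real.exp (θ ^ 2 * b ^ 2 * (8 / (((k₀ : ℝ) + 1) * √((k₀ : ℝ) + 1)) +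
      2 * δ ^ 2 / √((k₀ : ℝ) + 1)) / 2 - θ * δ) / θ ≤ η) :
    GInv U (σ • (B * U - U * B) - δ • (B * U)) 0 n n 1 1 (Phi η k₀ 0) := by
  have pU : Prob U := hU ▸ hr.prob_ev
  have he : ∑ s, μ s * e s = 0 := by
    have := hr.mass_ev fun s => 1 + e s
    rw [hB, pB.one] at this
    simp only [mul_add, mul_one, sum_add_distrib, hr.sum] at this
    linarith
  have hκ' : ∀ {k r : ℕ} {κ : ℕ → ℝ}, (∀ τ, 1 * bk k r τ ≤ κ τ ∧ κ τ ≤ 1 * bk k r τ) →
      κ = bk k r := fun h => funext fun τ => by linarith [(h τ).1, (h τ).2]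
  refine ginv_init (le_trans (by positivity) hη) (fun k r κ hk hκ => ?_) fun k r κ h0 hk hκ => ?_
  · rw [hκ' hκ]
    have hC : Np (σ • (B * U - U * B) - δ • (B * U)) ≤ 1 := by
      have p1 := pB.mul pU
      have p2 := pU.mul pB
      have n1 := smul_nonneg hδ p1.nn
      rcases hσ with rfl | rfl
      · refine (Np_le p1.nn ?_).trans p1.one.le
        rw [one_smul, sub_sub]; exact sub_le_self _ (add_nonneg p2.nn n1)
      · refine (Np_le p2.nn ?_).trans p2.one.le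
        rw [neg_smul, one_smul, neg_sub, sub_sub]; exact sub_le_self _ (add_nonneg p1.nn n1)
    refine (Np_sum _ _).trans ((sum_le_sum fun τ _ => (Np_smul (bk_nn k r τ) _).trans
      (mul_le_mul_of_nonneg_left ((Np_sw (pU.pow _) (pU.pow _) _).trans hC) (bk_nn k r τ))).trans ?_)
    simp [sum_bk hk]
  · rw [hκ' hκ]
    set Z : ℕ → A M := fun τ => U ^ τ * B * U ^ (n + 1 - τ) with hZ
    set c : ℕ → ℝ := fun τ => σ * (bk k r τ - bk k (r + 1) τ) - δ * bk k r τ with hc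
    have e1 : ∑ τ ∈ range (n + 1), bk k r τ • (U ^ (0 + τ) * (σ • (B * U - U * B) - δ • (B * U)) *
        U ^ (n - τ)) = ∑ τ ∈ range (n + 2), c τ • Z τ := by
      simp only [hc, sub_smul, mul_smul, sum_sub_distrib, ← smul_sum, mul_sub]
      rw [sum_bk_ext hk, sum_bk_shift, ← smul_sub, ← sum_sub_distrib, smul_sum, smul_sum,
        ← sum_sub_distrib]
      refine sum_congr rfl fun τ hτ => ?_
      have := mem_range.1 hτ
      have z0 : U ^ τ * (B * U) * U ^ (n - τ) = Z τ := by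
        simp only [hZ]; rw [show n + 1 - τ = n - τ + 1 by omega, pow_succ']; simp only [mul_assoc]
      have z1 : U ^ τ * (U * B) * U ^ (n - τ) = Z (τ + 1) := by
        simp only [hZ]; rw [show n + 1 - (τ + 1) = n - τ by omega, pow_succ]; simp only [mul_assoc]
      simp only [zero_add, mul_smul_comm, sub_mul, smul_mul_assoc, mul_sub, z0, z1]
      module
    have s1 : ∑ τ ∈ range (n + 2), c τ = -δ := by
      simp only [hc, sum_sub_distrib, ← mul_sum]
      rw [sum_bk (k := k) (r := r) (n := n + 1) (by omega),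
        sum_bk (k := k) (r := r + 1) (n := n + 1) (by omega)]
      ring
    have e2 : ∑ τ ∈ range (n + 2), c τ • Z τ =
        ev (pw μ (n + 2)) (pφ φ (n + 2)) fun ω => ∑ τ : Fin (n + 2), c τ * e (ω τ) - δ := by
      have : (fun ω : Fin (n + 2) → S => ∑ τ : Fin (n + 2), c τ * e (ω τ) - δ) =
          fun ω => ∑ τ : Fin (n + 2), c τ * atf (fun s => 1 + e s) (n + 2) τ ω := by
        funext ω
        simp only [atf_eq, mul_add, mul_one, sum_add_distrib]
        rw [Fin.sum_univ_eq_sum_range c, s1]; ring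
      rw [this, ev_sum, ← Fin.sum_univ_eq_sum_range (fun τ => c τ • Z τ)]
      refine sum_congr rfl fun τ _ => ?_
      rw [ev_smul, ev_atf _ τ.2, hU, hB]
      rfl
    rw [e1, e2]
    refine (centre hr.nn hr.sum he hb heb (hr.pow _).prob (fun τ => c τ) δ hθ).trans
      (le_trans ?_ hη)
    have hσ2 : σ ^ 2 = 1 := by rcases hσ with rfl | rfl <;> norm_num
    have s2 : ∑ τ : Fin (n + 2), c τ ^ 2 ≤
        8 / (((k₀ : ℝ) + 1) * √((k₀ : ℝ) + 1)) + 2 * δ ^ 2 / √((k₀ : ℝ) + 1) := by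
      rw [Fin.sum_univ_eq_sum_range (fun τ => c τ ^ 2)]
      have a1 := sum_grad_sq_le hk
      have a2 := sum_bk_sq_le (k := k) (r := r) (n := n + 1) (by omega)
      have a3 : ∑ τ ∈ range (n + 2), c τ ^ 2 ≤ ∑ τ ∈ range (n + 2),
          (2 * (bk k r τ - bk k (r + 1) τ) ^ 2 + 2 * δ ^ 2 * bk k r τ ^ 2) :=
        sum_le_sum fun τ _ => by
          simp only [hc]
          set x := bk k r τ - bk k (r + 1) τ
          have : (σ * x) ^ 2 = x ^ 2 := by rw [mul_pow, hσ2, one_mul]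
          nlinarith [sq_nonneg (σ * x + δ * bk k r τ)]
      rw [sum_add_distrib, ← mul_sum, ← mul_sum] at a3
      have hk0 : (k₀ : ℝ) ≤ k := by exact_mod_cast h0
      have a4 : 4 / (((k : ℝ) + 1) * √((k : ℝ) + 1)) ≤ 4 / (((k₀ : ℝ) + 1) * √((k₀ : ℝ) + 1)) := by
        gcongr
      have a5 : 1 / √((k : ℝ) + 1) ≤ 1 / √((k₀ : ℝ) + 1) := by gcongr
      have a6 := mul_le_mul_of_nonneg_left (a2.trans a5) (by positivity : 0 ≤ 2 * δ ^ 2)
      calc _ ≤ _ := a3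
        _ ≤ 2 * (4 / (((k₀ : ℝ) + 1) * √((k₀ : ℝ) + 1))) + 2 * δ ^ 2 * (1 / √((k₀ : ℝ) + 1)) := by
          linarith
        _ = _ := by ring
    gcongr

end Vale.Agent.P321
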