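import Mathlib

namespace Vale.Agent.P321

/-- The string obtained from `x` by keeping exactly the positions `i` with `keep i = true`,
in their original order. -/
def trace {n : ℕ} (x keep : Fin n → Bool) : List Bool := ((List.finRange n).filter keep).map x

/-- Probability of the pattern `keep` when each position is deleted independently with
probability `q`. -/
def maskProb (q : ℝ) {n : ℕ} (keep : Fin n → Bool) : ℝ := ∏ i, if keep i then 1 - q else q

/-- Probability that the randomized estimator `est`, given `m` independent traces of `x`,
outputs `x`. -/
noncomputable def success (q : ℝ) {n m : ℕ} (est : (Fin m → List Bool) → PMF (Fin n → Bool))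
    (x : Fin n → Bool) : ℝ :=
  ∑ keep : Fin m → Fin n → Bool,
    (∏ j, maskProb q (keep j)) * (est (fun j => trace x (keep j)) x).toReal

/-- The numbers `m` of traces that suffice for worst-case reconstruction at length `n`. -/
def Suffices (q : ℝ) (n : ℕ) : Set ℕ :=
  {m | ∃ est : (Fin m → List Bool) → PMF (Fin n → Bool), ∀ x, 2 / 3 ≤ success q est x}

/-- Worst-case sample complexity of trace reconstruction. -/
noncomputable def T (q : ℝ) (n : ℕ) : ℕ := sInf (Suffices q n)

end Vale.Agent.P321
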