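import Vale.Agent.P321.Base
import Vale.Agent.P321.Defs

/- From close pairs of words to the sample complexity lower bound. -/

namespace Vale.Agent.P321

open Finset

lemma close {q : ℝ} (q0 : 0 < q) (q1 : q < 1) : ∃ L₀ : ℕ, ∀ L n : ℕ, L₀ ≤ L →
    2 ^ (80 * 256 ^ L) ≤ n → ∃ u v : FM, u.length = n ∧ v.length = n ∧ u ≠ v ∧
      Np (PP q u - PP q v) ≤ 3 * (1 / 2) ^ (L * 256 ^ L) := by
  obtain ⟨W₀, h⟩ := iterate q0 q1
  refine ⟨W₀ + 2, fun L n hL hn => ?_⟩
  have a1 : L < 64 ^ L := Nat.lt_pow_self (by norm_num)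
  have a2 : 64 ^ L < 2 ^ 64 ^ L := Nat.lt_two_pow_self
  obtain ⟨u, v, U, D, H⟩ := h (64 ^ L) _ rfl (by omega) L
  have e : 64 ^ L * 4 ^ L = 256 ^ L := (mul_pow 64 4 L).symm
  have hX : ((2 ^ 64 ^ L) ^ (10 * 4 ^ L - 1)) ^ 8 ≤ 2 ^ (80 * 256 ^ L) := by
    rw [← pow_mul, ← pow_mul]
    refine Nat.pow_le_pow_right (by norm_num) ?_
    calc 64 ^ L * ((10 * 4 ^ L - 1) * 8) ≤ 64 ^ L * ((10 * 4 ^ L) * 8) := by gcongr; omega
      _ = _ := by rw [← e]; ring
  have hu := H.le.trans hX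
  obtain ⟨c, hc⟩ := Nat.exists_eq_add_of_le (hu.trans hn)
  refine ⟨u * FreeMonoid.of false ^ c, v * FreeMonoid.of false ^ c, ?_, ?_,
    fun he => H.ne (mul_right_cancel he), ?_⟩
  · rw [FreeMonoid.length_mul, length_pow, FreeMonoid.length_of, hc, mul_one]
  · rw [FreeMonoid.length_mul, length_pow, FreeMonoid.length_of, hc, mul_one, H.len]
  rw [map_mul, map_mul, ← sub_mul]
  refine (Np_le_nrm _).trans ((nrm_right (prob_PP q0.le q1.le _) _).trans ?_)
  have b1 := nrm_sub_le (PP q u) U (PP q v)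
  have b2 := nrm_sub_le U (U + D) (PP q v)
  rw [sub_add_cancel_left, nrm_neg, nrm_sub_comm (U + D)] at b2
  have b3 := H.dom.nrm_le H.prob
  have b4 : (1 : ℝ) / ((2 ^ 64 ^ L : ℕ) : ℝ) ^ (40 * 4 ^ L + 1 + L * 4 ^ L) ≤
      (1 / 2) ^ (L * 256 ^ L) := by
    push_cast
    rw [← pow_mul, ← one_div_pow]
    refine pow_le_pow_of_le_one (by norm_num) (by norm_num) ?_
    rw [← e]; nlinarith [Nat.zero_le (64 ^ L * 4 ^ L)]
  have b5 : (u.length : ℝ) * ((8 + 10 * L) * eta (64 ^ L)) ≤ (1 / 2) ^ (L * 256 ^ L) := by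
    have c1 : (u.length : ℝ) ≤ 2 ^ (80 * 256 ^ L) := by exact_mod_cast hu
    have c2 : (8 + 10 * L : ℝ) ≤ 2 ^ (256 ^ L) := by
      have d1 : 8 + 10 * L ≤ 256 ^ L := by
        have := one_add_mul_le_pow (a := (255 : ℤ)) (by norm_num) L
        have : 1 + L * 255 ≤ 256 ^ L := by exact_mod_cast this
        omega
      have d2 : 256 ^ L < 2 ^ 256 ^ L := Nat.lt_two_pow_self
      exact_mod_cast d1.trans d2.le
    have c3 : 80 * 256 ^ L + 256 ^ L + L * 256 ^ L ≤ 64 ^ L * 64 ^ L := by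
      have d1 : 64 ^ L * 64 ^ L = 16 ^ L * 256 ^ L := (mul_pow 64 64 L).symm.trans (mul_pow 16 256 L)
      have d2 : 81 + L ≤ 16 ^ L := by
        obtain ⟨k, rfl⟩ : ∃ k, L = k + 2 := ⟨L - 2, by omega⟩
        have : k < 16 ^ k := Nat.lt_pow_self (by norm_num)
        rw [pow_add]; omega
      rw [d1]; nlinarith [Nat.zero_le (256 ^ L)]
    have c4 : eta (64 ^ L) ≤ (1 / 2) ^ (80 * 256 ^ L + 256 ^ L + L * 256 ^ L) :=
      pow_le_pow_of_le_one (by norm_num) (by norm_num) c3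
    calc (u.length : ℝ) * ((8 + 10 * L) * eta (64 ^ L))
        ≤ 2 ^ (80 * 256 ^ L) * (2 ^ (256 ^ L) *
          (1 / 2) ^ (80 * 256 ^ L + 256 ^ L + L * 256 ^ L)) := by
          have := eta_nn (64 ^ L)
          gcongr
      _ = (2 * (1 / 2)) ^ (80 * 256 ^ L) * (2 * (1 / 2)) ^ (256 ^ L) * (1 / 2) ^ (L * 256 ^ L) := by
          rw [pow_add, pow_add, mul_pow, mul_pow]; ring
      _ = _ := by norm_num
  linarith [H.eu, H.ev]

lemma trace_eq : ∀ {n : ℕ} (x keep : Fin n → Bool),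
    (List.ofFn fun i => if keep i then FreeMonoid.of (x i) else 1).prod =
      FreeMonoid.ofList (trace x keep)
  | 0, x, keep => by simp [trace]
  | n + 1, x, keep => by
    rw [List.ofFn_succ, List.prod_cons, trace_eq (fun i => x i.succ) fun i => keep i.succ]
    unfold trace
    rw [List.finRange_succ, List.filter_cons, List.filter_map]
    split_ifs <;> simp [Function.comp_def]

lemma PP_eq (q : ℝ) {n : ℕ} (x : Fin n → Bool) : PP q (FreeMonoid.ofList (List.ofFn x)) =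
    ∑ keep : Fin n → Bool,
      maskProb q keep • MonoidAlgebra.single (FreeMonoid.ofList (trace x keep)) (1 : ℝ) := by
  have e : ∀ b, PP q (FreeMonoid.of b) = ∑ s : Bool, (if s then 1 - q else q) •
      MonoidAlgebra.of ℝ FM (if s then FreeMonoid.of b else 1) := fun b => by
    rw [PP_of, Fintype.sum_bool, add_comm]
    rfl
  have e0 : PP q (FreeMonoid.ofList (List.ofFn x)) =
      (List.ofFn fun i => PP q (FreeMonoid.of (x i))).prod := by
    conv_lhs => rw [PP, FreeMonoid.lift_apply, FreeMonoid.toList_ofList, List.map_ofFn]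
    rfl
  rw [e0]
  simp only [e]
  rw [ofFn_sum_prod]
  refine sum_congr rfl fun keep _ => ?_
  rw [ofFn_smul_prod, ← trace_eq, ← MonoidAlgebra.of_apply, map_list_prod, List.map_ofFn]
  rfl

lemma pair_le (g : List Bool → ℝ) (hg : ∀ l, 0 ≤ g l ∧ g l ≤ 1) (q : ℝ) {n : ℕ}
    (x y : Fin n → Bool) :
    ∑ keep, maskProb q keep * g (trace x keep) - ∑ keep, maskProb q keep * g (trace y keep) ≤
      Np (PP q (FreeMonoid.ofList (List.ofFn x)) - PP q (FreeMonoid.ofList (List.ofFn y))) := by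
  set F : A FM →ₗ[ℝ] ℝ := Finsupp.linearCombination ℝ (fun m : FM => g m.toList) ∘ₗ
    (MonoidAlgebra.coeffLinearEquiv ℝ).toLinearMap with hF
  have F1 : ∀ X : A FM, F X = ∑ m ∈ X.coeff.support, X.coeff m * g m.toList := fun X => rfl
  have F2 : ∀ x : Fin n → Bool, F (PP q (FreeMonoid.ofList (List.ofFn x))) =
      ∑ keep, maskProb q keep * g (trace x keep) := fun x => by
    rw [PP_eq, map_sum]
    refine sum_congr rfl fun keep _ => ?_
    rw [map_smul, smul_eq_mul]
    simp [hF]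
  rw [← F2, ← F2, ← map_sub]
  generalize PP q (FreeMonoid.ofList (List.ofFn x)) - PP q (FreeMonoid.ofList (List.ofFn y)) = X
  have a : 0 ≤ F (pos X - X) := by
    rw [F1]; exact sum_nonneg fun m _ => mul_nonneg (sub_nonneg.2 (le_pos X) m) (hg _).1
  have b : F (pos X) ≤ Np X := by
    rw [F1, Np, mass_eq]
    exact sum_le_sum fun m _ => mul_le_of_le_one_right (pos_nn X m) (hg _).2
  rw [map_sub] at a
  linarith

lemma hybrid {α β : Type} [Fintype α] {w : α → ℝ} (hw0 : ∀ a, 0 ≤ w a) (hw1 : ∑ a, w a = 1)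
    (f f' : α → β) {ε : ℝ} (h : ∀ g : β → ℝ, (∀ l, 0 ≤ g l ∧ g l ≤ 1) →
      ∑ a, w a * g (f a) - ∑ a, w a * g (f' a) ≤ ε) :
    ∀ (m : ℕ) (g : (Fin m → β) → ℝ), (∀ l, 0 ≤ g l ∧ g l ≤ 1) →
      ∑ k : Fin m → α, pw w m k * g (fun j => f (k j)) -
        ∑ k : Fin m → α, pw w m k * g (fun j => f' (k j)) ≤ m * ε
  | 0, g, _ => by
    have : ∀ k : Fin 0 → α, (fun j => f (k j)) = fun j => f' (k j) := fun k =>
      Subsingleton.elim _ _
    simp only [this]; simp
  | m + 1, g, hg => by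
    have e : ∀ F : α → β, ∑ k : Fin (m + 1) → α, pw w (m + 1) k * g (fun j => F (k j)) =
        ∑ a, w a * ∑ k : Fin m → α, pw w m k * g (Fin.cons (F a) fun j => F (k j)) := fun F => by
      rw [← (Fin.consEquiv fun _ : Fin (m + 1) => α).sum_comp, Fintype.sum_prod_type]
      refine sum_congr rfl fun a _ => ?_
      rw [mul_sum]
      refine sum_congr rfl fun k _ => ?_
      rw [pw, Fin.prod_univ_succ, pw, mul_assoc]
      congr 3
      funext j
      refine Fin.cases rfl (fun _ => rfl) j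
    rw [e, e]
    have h1 : ∑ a, w a * ∑ k : Fin m → α, pw w m k * g (Fin.cons (f a) fun j => f (k j)) -
        ∑ a, w a * ∑ k : Fin m → α, pw w m k * g (Fin.cons (f a) fun j => f' (k j)) ≤ m * ε := by
      rw [← sum_sub_distrib]
      refine (sum_le_sum fun a _ => (mul_sub _ _ _).symm.le.trans (mul_le_mul_of_nonneg_left
        (hybrid hw0 hw1 f f' h m (fun l => g (Fin.cons (f a) l)) fun l => hg _) (hw0 a))).trans ?_
      rw [← sum_mul, hw1, one_mul]
    have h2 := h (fun b => ∑ k : Fin m → α, pw w m k * g (Fin.cons b fun j => f' (k j))) fun b =>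
      ⟨sum_nonneg fun k _ => mul_nonneg (pw_nn hw0 _ _) (hg _).1,
        (sum_le_sum fun k _ => mul_le_of_le_one_right (pw_nn hw0 _ _) (hg _).2).trans
          (pw_sum hw1 m).le⟩
    push_cast
    linarith

lemma maskProb_nn {q : ℝ} (q0 : 0 ≤ q) (q1 : q ≤ 1) {n : ℕ} (keep : Fin n → Bool) :
    0 ≤ maskProb q keep := prod_nonneg fun i _ => by split_ifs <;> linarith

lemma maskProb_sum (q : ℝ) (n : ℕ) : ∑ keep : Fin n → Bool, maskProb q keep = 1 :=
  pw_sum (μ := fun s : Bool => if s then 1 - q else q) (by simp) n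

lemma two_point {q : ℝ} (q0 : 0 ≤ q) (q1 : q ≤ 1) {n m : ℕ} (hm : m ∈ Suffices q n) {u v : FM}
    (hu : u.length = n) (hv : v.length = n) (hne : u ≠ v) :
    1 / 3 ≤ m * Np (PP q u - PP q v) := by
  obtain ⟨est, h⟩ := hm
  obtain ⟨x, rfl⟩ : ∃ x : Fin n → Bool, u = FreeMonoid.ofList (List.ofFn x) := by
    subst hu; exact ⟨u.toList.get, congrArg FreeMonoid.ofList (List.ofFn_get u.toList).symm⟩
  obtain ⟨y, rfl⟩ : ∃ y : Fin n → Bool, v = FreeMonoid.ofList (List.ofFn y) := by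
    subst hv; exact ⟨v.toList.get, congrArg FreeMonoid.ofList (List.ofFn_get v.toList).symm⟩
  have hxy : x ≠ y := fun e => hne (by rw [e])
  have hb : ∀ l, (est l x).toReal + (est l y).toReal ≤ 1 := fun l => by
    have a : ∑ z ∈ {x, y}, est l z ≤ ∑' z, est l z := ENNReal.sum_le_tsum _
    rw [sum_pair hxy, PMF.tsum_coe] at a
    rw [← ENNReal.toReal_add (PMF.apply_ne_top _ _) (PMF.apply_ne_top _ _)]
    exact ENNReal.toReal_le_of_le_ofReal zero_le_one (by simpa using a)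
  have H := hybrid (maskProb_nn q0 q1) (maskProb_sum q n) (trace x) (trace y)
    (fun g hg => pair_le g hg q x y) m (fun l => (est l x).toReal) fun l =>
      ⟨ENNReal.toReal_nonneg, by linarith [hb l, (ENNReal.toReal_nonneg : 0 ≤ (est l y).toReal)]⟩
  have hx := h x
  have hy := h y
  have s1 : ∑ k : Fin m → Fin n → Bool, pw (maskProb q) m k *
      ((est (fun j => trace y (k j)) x).toReal + (est (fun j => trace y (k j)) y).toReal) ≤ 1 :=
    (sum_le_sum fun k _ => mul_le_of_le_one_right (pw_nn (maskProb_nn q0 q1) _ _) (hb _)).trans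
      (pw_sum (maskProb_sum q n) m).le
  simp only [mul_add, sum_add_distrib] at s1
  unfold success at hx hy
  unfold pw at H s1
  linarith

lemma suffices_nonempty {q : ℝ} (q0 : 0 ≤ q) (q1 : q < 1) (n : ℕ) : (Suffices q n).Nonempty := by
  classical
  have hp : 0 < (1 - q) ^ n := pow_pos (by linarith) n
  obtain ⟨m, hm⟩ := exists_pow_lt_of_lt_one (by norm_num : (0 : ℝ) < 1 / 3)
    (by linarith : 1 - (1 - q) ^ n < 1)
  refine ⟨m, fun l => PMF.pure (if h : ∃ y : Fin n → Bool, ∃ j, l j = List.ofFn y then h.choose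
    else default), fun x => ?_⟩
  have t1 : trace x (fun _ => true) = List.ofFn x := by simp [trace, List.ofFn_eq_map]
  have t2 : ∀ (keep y : Fin n → Bool), trace x keep = List.ofFn y → y = x := fun keep y h => by
    have a := congrArg List.length h
    rw [trace, List.length_map, List.length_ofFn] at a
    rw [trace, List.filter_eq_self.2 (List.length_filter_eq_length_iff.1
      (a.trans List.length_finRange.symm)),
      ← List.ofFn_eq_map] at h
    exact (List.ofFn_injective h).symm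
  have s1 := exp_prod (maskProb q (n := n)) m fun _ k => if k = fun _ => true then 0 else 1
  have s2 : ∑ k : Fin n → Bool, maskProb q k * (if k = fun _ => true then 0 else 1) =
      1 - (1 - q) ^ n := by
    have : ∀ k : Fin n → Bool, maskProb q k * (if k = fun _ => true then 0 else 1) =
        maskProb q k - if k = fun _ => true then (1 - q) ^ n else 0 := fun k => by
      split_ifs with h
      · simp [h, maskProb]
      · simp
    simp only [this, sum_sub_distrib, maskProb_sum]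
    simp
  simp only [s2, prod_const, card_univ, Fintype.card_fin] at s1
  have s3 := pw_sum (maskProb_sum q n) m
  have s4 : ∑ k : Fin m → Fin n → Bool, pw (maskProb q) m k *
      (1 - ∏ j, if k j = fun _ => true then 0 else 1) ≤ success q (fun l : Fin m → List Bool =>
        PMF.pure (if h : ∃ y : Fin n → Bool, ∃ j, l j = List.ofFn y then h.choose
          else default)) x := by
    refine sum_le_sum fun k _ => mul_le_mul_of_nonneg_left ?_ (pw_nn (maskProb_nn q0 q1.le) _ _)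
    by_cases hk : ∃ j, k j = fun _ => true
    · obtain ⟨j, hj⟩ := hk
      have h : ∃ y : Fin n → Bool, ∃ j, trace x (k j) = List.ofFn y := ⟨x, j, by rw [hj, t1]⟩
      obtain ⟨j', hj'⟩ := h.choose_spec
      rw [prod_eq_zero (f := fun j => if k j = fun _ => true then (0 : ℝ) else 1) (mem_univ j)
        (if_pos hj)]
      beta_reduce
      rw [dif_pos h, t2 _ _ hj']
      simp
    · rw [prod_eq_one fun j _ => if_neg fun h => hk ⟨j, h⟩, sub_self]
      exact ENNReal.toReal_nonneg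
  simp only [mul_sub, mul_one, sum_sub_distrib, s1, s3] at s4
  linarith

lemma lower_num {n L m : ℕ} (hL : 16 ≤ L) (hn2 : 2 ≤ n) (hn : n ≤ 2 ^ (20480 * 256 ^ L))
    (t2 : (2 : ℝ) ^ (L * 256 ^ L) ≤ 16 * m) :
    (n : ℝ) ^ ((1 / 10 ^ 6 : ℝ) * Real.log (Real.log n)) ≤ m := by
  have hL16 : (16 : ℝ) ≤ L := by exact_mod_cast hL
  have hl2 : (0.69 : ℝ) < Real.log 2 := by linarith [Real.log_two_gt_d9]
  have hl2' : Real.log 2 < 0.7 := by linarith [Real.log_two_lt_d9]
  have hn2 : (2 : ℝ) ≤ n := by exact_mod_cast hn2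
  have hn' : (0 : ℝ) < n := by linarith
  have g0 : 0 < Real.log n := Real.log_pos (by linarith)
  obtain ⟨Y, hY⟩ : ∃ Y : ℝ, Y = 256 ^ L := ⟨_, rfl⟩
  have hY1 : 1 ≤ Y := by rw [hY]; exact one_le_pow₀ (by norm_num)
  have g1 : Real.log n ≤ 20480 * Y * Real.log 2 := by
    have a' : (n : ℝ) ≤ 2 ^ (20480 * 256 ^ L) := by exact_mod_cast hn
    have := Real.log_le_log hn' a'
    rw [Real.log_pow] at this
    rw [hY]
    exact_mod_cast this
  have g2 : Real.log (Real.log n) ≤ 7 * L := by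
    have e : (2 : ℝ) ^ (8 * L + 15) = 32768 * Y := by
      rw [pow_add, pow_mul, hY]; norm_num [mul_comm]
    have a : Real.log n ≤ 2 ^ (8 * L + 15) := by
      rw [e]; nlinarith
    have := Real.log_le_log g0 a
    rw [Real.log_pow] at this
    push_cast at this
    nlinarith
  set P := L * 256 ^ L with hP
  have hP' : (P : ℝ) = L * Y := by rw [hP, hY]; push_cast; ring
  have hP1 : (16 : ℝ) ≤ P := by nlinarith
  have g3 : Real.log n * (1 / 10 ^ 6 * Real.log (Real.log n)) ≤ (P - 4) * Real.log 2 := by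
    calc Real.log n * (1 / 10 ^ 6 * Real.log (Real.log n))
        ≤ Real.log n * (1 / 10 ^ 6 * (7 * L)) := by gcongr
      _ ≤ 20480 * Y * Real.log 2 * (1 / 10 ^ 6 * (7 * L)) := by gcongr
      _ = 20480 * 7 / 10 ^ 6 * P * Real.log 2 := by rw [hP']; ring
      _ ≤ _ := by gcongr; linarith
  rw [Real.rpow_def_of_pos hn']
  refine (Real.exp_le_exp.2 g3).trans ?_
  rw [sub_mul, Real.exp_sub, Real.exp_nat_mul, Real.exp_log (by norm_num),
    show (4 : ℝ) = (4 : ℕ) by norm_num, Real.exp_nat_mul, Real.exp_log (by norm_num),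
    div_le_iff₀ (by positivity)]
  linarith

lemma pick_level {n L₀ : ℕ} (hn : 2 ^ (80 * 256 ^ L₀) ≤ n) :
    ∃ L, L₀ ≤ L ∧ 2 ^ (80 * 256 ^ L) ≤ n ∧ n ≤ 2 ^ (20480 * 256 ^ L) ∧ 2 ≤ n := by
  have hn0 : n ≠ 0 := by
    have : 0 < 2 ^ (80 * 256 ^ L₀) := by positivity
    omega
  have b1 : 80 * 256 ^ L₀ ≤ Nat.log 2 n := Nat.le_log_of_pow_le (by norm_num) hn
  have b2 : 2 ^ Nat.log 2 n ≤ n := Nat.pow_log_le_self 2 hn0
  have b3 : n < 2 ^ (Nat.log 2 n + 1) := Nat.lt_pow_succ_log_self (by norm_num) n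
  generalize Nat.log 2 n = b at b1 b2 b3
  have l0 : 0 < 256 ^ L₀ := by positivity
  have l4 : 256 ^ L₀ ≤ b / 80 := by omega
  have l1 : L₀ ≤ Nat.log 256 (b / 80) := Nat.le_log_of_pow_le (by norm_num) l4
  have l2 : 256 ^ Nat.log 256 (b / 80) ≤ b / 80 := Nat.pow_log_le_self 256 (by omega)
  have l3 : b / 80 < 256 ^ (Nat.log 256 (b / 80) + 1) := Nat.lt_pow_succ_log_self (by norm_num) _
  generalize Nat.log 256 (b / 80) = L at l1 l2 l3
  refine ⟨L, l1, (Nat.pow_le_pow_right (by norm_num) (by omega)).trans b2,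
    b3.le.trans (Nat.pow_le_pow_right (by norm_num) ?_), ?_⟩
  · rw [pow_succ] at l3; omega
  · have : 2 ^ 1 ≤ 2 ^ b := Nat.pow_le_pow_right (by norm_num) (by omega)
    omega

lemma lower {q : ℝ} (q0 : 0 < q) (q1 : q < 1) : ∃ n₀ : ℕ, ∀ n, n₀ ≤ n → ∀ m ∈ Suffices q n,
    (n : ℝ) ^ ((1 / 10 ^ 6 : ℝ) * Real.log (Real.log n)) ≤ m := by
  obtain ⟨L₀, h⟩ := close q0 q1
  obtain ⟨L₁, h1, h2⟩ : ∃ L₁, L₀ ≤ L₁ ∧ 16 ≤ L₁ := ⟨L₀ + 16, by omega, by omega⟩
  refine ⟨2 ^ (80 * 256 ^ L₁), fun n hn m hm => ?_⟩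
  obtain ⟨L, l1, l2, l3, l4⟩ := pick_level hn
  obtain ⟨u, v, hu, hv, hne, hN⟩ := h L n (h1.trans l1) l2
  have t := (two_point q0.le q1.le hm hu hv hne).trans
    (mul_le_mul_of_nonneg_left hN (Nat.cast_nonneg m))
  refine lower_num (h2.trans l1) l4 l3 ?_
  rw [one_div_pow, mul_one_div, ← mul_div_assoc, le_div_iff₀ (by positivity)] at t
  linarith [(Nat.cast_nonneg m : (0 : ℝ) ≤ m)]

end Vale.Agent.P321
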