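import Vale.Agent.P321.Mixing

/- Smearing towers for the positive-part functional. -/

namespace Vale.Agent.P321

open Finset

variable {M : Type} [Monoid M]

def GInv (U C : A M) (a b n : ℕ) (lo hi : ℝ) (Φ : ℕ → ℝ) : Prop :=
  ∀ (k r : ℕ) (κ : ℕ → ℝ), r + k ≤ n → (∀ τ, lo * bk k r τ ≤ κ τ ∧ κ τ ≤ hi * bk k r τ) →
    Np (∑ τ ∈ range (n + 1), κ τ • (U ^ (a + τ) * C * U ^ (b - τ))) ≤ Φ k

lemma sw_mul {R : Type} [Monoid R] (U C : R) {a b a' b' m n : ℕ} (h1 : m + a = a')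
    (h2 : b + n = b') : U ^ m * (U ^ a * C * U ^ b) * U ^ n = U ^ a' * C * U ^ b' := by
  rw [← h1, ← h2, pow_add, pow_add]
  simp only [mul_assoc]

lemma GInv.gadget {U C : A M} (hU : Prob U) {J : ℕ} (hJ : Mix U J) {a b n : ℕ} {lo hi : ℝ}
    {Φ : ℕ → ℝ} (h : GInv U C a b (n + 1) lo hi Φ) (hb : n + 1 ≤ b) :
    GInv U C (a + J + 1) (b + J) n lo hi fun k => 3 / 4 * Φ k + 1 / 4 * Φ (k + 1) := by
  intro k r κ hk hκ
  set Z : ℕ → A M := fun τ => U ^ (a + τ) * C * U ^ (b - τ) with hZ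
  set Y₀ := ∑ τ ∈ range (n + 1), κ τ • Z τ with hY₀
  set Y₁ := ∑ τ ∈ range (n + 1), κ τ • Z (τ + 1) with hY₁
  have e1 : ∑ τ ∈ range (n + 1), κ τ • (U ^ (a + J + 1 + τ) * C * U ^ (b + J - τ)) =
      (1 / 2 : ℝ) • (U ^ (J + 1) * Y₀ * U ^ J + U ^ J * Y₁ * U ^ (J + 1)) := by
    rw [hY₀, hY₁, mul_sum, sum_mul, mul_sum, sum_mul, ← sum_add_distrib, smul_sum]
    refine sum_congr rfl fun τ hτ => ?_
    have := mem_range.1 hτ
    simp only [hZ, mul_smul_comm, smul_mul_assoc]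
    rw [sw_mul U C (a' := a + J + 1 + τ) (b' := b + J - τ) (by omega) (by omega),
      sw_mul U C (a' := a + J + 1 + τ) (b' := b + J - τ) (by omega) (by omega), ← two_smul ℝ,
      smul_smul]
    norm_num
  set κ' : ℕ → ℝ := fun τ => Nat.casesOn τ 0 κ with hκ'
  have hκ1 : ∀ τ, lo * bk k (r + 1) τ ≤ κ' τ ∧ κ' τ ≤ hi * bk k (r + 1) τ := by
    intro τ
    cases τ with
    | zero => simp [hκ', bk_succ_zero]
    | succ τ => rw [bk_succ_succ]; exact hκ τ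
  have z : κ (n + 1) = 0 := by
    have := hκ (n + 1)
    rw [bk_of_lt (by omega), mul_zero, mul_zero] at this
    exact le_antisymm this.2 this.1
  have e2 : Y₀ = ∑ τ ∈ range (n + 1 + 1), κ τ • Z τ := by
    rw [sum_range_succ _ (n + 1), z, zero_smul, add_zero]
  have e3 : Y₁ = ∑ τ ∈ range (n + 1 + 1), κ' τ • Z τ := by
    rw [sum_range_succ' _ (n + 1)]; simp [hκ', hY₁]
  have e4 : (1 / 2 : ℝ) • (Y₀ + Y₁) = ∑ τ ∈ range (n + 1 + 1), ((κ τ + κ' τ) / 2) • Z τ := by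
    rw [e2, e3, ← sum_add_distrib, smul_sum]
    refine sum_congr rfl fun τ _ => ?_
    rw [← add_smul, smul_smul]; congr 1; ring
  have b0 := h k r κ (by omega) hκ
  have b1 := h k (r + 1) κ' (by omega) hκ1
  have b2 := h (k + 1) r (fun τ => (κ τ + κ' τ) / 2) (by omega) fun τ => by
    rw [bk_succ]
    constructor <;> linarith [(hκ τ).1, (hκ τ).2, (hκ1 τ).1, (hκ1 τ).2]
  rw [← e2] at b0
  rw [← e3] at b1
  rw [← e4] at b2
  rw [e1]
  linarith [gadget_Np hU hJ Y₀ Y₁]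

section Window

variable {S : Type} [Fintype S] {μ : S → ℝ} {φ : S → A M} {f : S → ℝ} {lo' hi' : ℝ}

lemma kernel_mul {lo hi lo' hi' b κ F : ℝ} (hb : 0 ≤ b) (h0 : 0 ≤ lo) (h0' : 0 ≤ lo')
    (hκ : lo * b ≤ κ ∧ κ ≤ hi * b) (hF : lo' ≤ F ∧ F ≤ hi') :
    lo * lo' * b ≤ κ * F ∧ κ * F ≤ hi * hi' * b := by
  have a : 0 ≤ κ := (mul_nonneg h0 hb).trans hκ.1
  have c : 0 ≤ F := h0'.trans hF.1
  constructor
  · calc lo * lo' * b = lo * b * lo' := by ring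
      _ ≤ _ := mul_le_mul hκ.1 hF.1 h0' a
  · calc κ * F ≤ hi * b * hi' := mul_le_mul hκ.2 hF.2 c (a.trans hκ.2)
      _ = _ := by ring

lemma GInv.left (hr : IsRep μ φ) (hf : ∀ s, lo' ≤ f s ∧ f s ≤ hi') (h0' : 0 ≤ lo') (h1 : lo' ≤ 1)
    (h2 : 1 ≤ hi') {U W C : A M} (hU : ev μ φ (fun _ => 1) = U) (hW : ev μ φ f = W)
    {a b n : ℕ} {lo hi : ℝ} (h0 : 0 ≤ lo) {Φ : ℕ → ℝ}
    (h : GInv U C a b n (lo * lo') (hi * hi') Φ) {x : ℕ} (hx : a + n ≤ x) (a' : ℕ) :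
    GInv U (W * U ^ x * C) a' b n lo hi Φ := by
  intro k r κ hk hκ
  set m := a' + 1 + x - a with hm
  have hp := hr.pow m
  have e : ∑ τ ∈ range (n + 1), κ τ • (U ^ (a' + τ) * (W * U ^ x * C) * U ^ (b - τ)) =
      ∑ ω, pw μ m ω • (pφ φ m ω * (∑ τ ∈ range (n + 1), (κ τ * atf f m (a' + τ) ω) •
        (U ^ (a + τ) * C * U ^ (b - τ))) * 1) := by
    simp only [mul_sum, sum_mul, smul_sum]
    rw [sum_comm]
    refine sum_congr rfl fun τ hτ => ?_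
    have := mem_range.1 hτ
    have e1 := ev_atf (μ := μ) (φ := φ) f (n := m) (k := a' + τ) (by omega)
    rw [hU, hW] at e1
    have e2 : U ^ (a' + τ) * (W * U ^ x * C) * U ^ (b - τ) =
        U ^ (a' + τ) * W * U ^ (m - 1 - (a' + τ)) * (U ^ (a + τ) * C * U ^ (b - τ)) := by
      rw [show x = m - 1 - (a' + τ) + (a + τ) by omega, pow_add U _ (a + τ)]
      simp only [mul_assoc]
    rw [e2, ← e1, ev, sum_mul, smul_sum]
    refine sum_congr rfl fun ω _ => ?_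
    simp only [mul_one, mul_smul_comm, smul_mul_assoc, smul_smul]
    congr 1; ring
  rw [e]
  refine (Np_avg hp.nn hp.prob (fun _ => prob_one) _).trans ?_
  refine (sum_le_sum fun ω _ => mul_le_mul_of_nonneg_left (h k r _ hk fun τ =>
    kernel_mul (bk_nn _ _ _) h0 h0' (hκ τ) (atf_mem hf h1 h2 _ _ _)) (hp.nn ω)).trans ?_
  rw [← sum_mul, hp.sum, one_mul]

lemma GInv.right (hr : IsRep μ φ) (hf : ∀ s, lo' ≤ f s ∧ f s ≤ hi') (h0' : 0 ≤ lo') (h1 : lo' ≤ 1)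
    (h2 : 1 ≤ hi') {U W C : A M} (hU : ev μ φ (fun _ => 1) = U) (hW : ev μ φ f = W)
    {a b n : ℕ} {lo hi : ℝ} (h0 : 0 ≤ lo) {Φ : ℕ → ℝ}
    (h : GInv U C a b n (lo * lo') (hi * hi') Φ) {y b' : ℕ} (hy : b ≤ y) (hn : n ≤ b)
    (hb : n ≤ b') : GInv U (C * U ^ y * W) a b' n lo hi Φ := by
  intro k r κ hk hκ
  set m := b' + 1 + y - b with hm
  have hp := hr.pow m
  have e : ∑ τ ∈ range (n + 1), κ τ • (U ^ (a + τ) * (C * U ^ y * W) * U ^ (b' - τ)) =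
      ∑ ω, pw μ m ω • (1 * (∑ τ ∈ range (n + 1), (κ τ * atf f m (y - b + τ) ω) •
        (U ^ (a + τ) * C * U ^ (b - τ))) * pφ φ m ω) := by
    simp only [mul_sum, sum_mul, smul_sum]
    rw [sum_comm]
    refine sum_congr rfl fun τ hτ => ?_
    have := mem_range.1 hτ
    have e1 := ev_atf (μ := μ) (φ := φ) f (n := m) (k := y - b + τ) (by omega)
    rw [hU, hW, show m - 1 - (y - b + τ) = b' - τ by omega] at e1
    have e2 : U ^ (a + τ) * (C * U ^ y * W) * U ^ (b' - τ) =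
        (U ^ (a + τ) * C * U ^ (b - τ)) * (U ^ (y - b + τ) * W * U ^ (b' - τ)) := by
      conv_lhs => rw [show y = b - τ + (y - b + τ) by omega, pow_add U (b - τ)]
      simp only [mul_assoc]
    rw [e2, ← e1, ev, mul_sum, smul_sum]
    refine sum_congr rfl fun ω _ => ?_
    simp only [one_mul, mul_smul_comm, smul_mul_assoc, smul_smul]
    congr 1; ring
  rw [e]
  refine (Np_avg hp.nn (fun _ => prob_one) hp.prob _).trans ?_
  refine (sum_le_sum fun ω _ => mul_le_mul_of_nonneg_left (h k r _ hk fun τ =>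
    kernel_mul (bk_nn _ _ _) h0 h0' (hκ τ) (atf_mem hf h1 h2 _ _ _)) (hp.nn ω)).trans ?_
  rw [← sum_mul, hp.sum, one_mul]

/-- the potential for the number of effective gadgets -/
noncomputable def Phi (η : ℝ) (k₀ i k : ℕ) : ℝ := η + 2 ^ k₀ * (1 / 2) ^ k * (7 / 8) ^ i

lemma Phi_succ (η : ℝ) (k₀ i : ℕ) :
    (fun k => 3 / 4 * Phi η k₀ i k + 1 / 4 * Phi η k₀ i (k + 1)) = Phi η k₀ (i + 1) := by
  funext k; unfold Phi; ring

lemma Phi_final (η : ℝ) (k₀ : ℕ) : Phi η k₀ (12 * k₀) 0 ≤ η + (1 / 2) ^ k₀ := by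
  unfold Phi
  rw [pow_zero, mul_one, pow_mul, ← mul_pow]
  gcongr
  norm_num

lemma GInv.top {U C : A M} {a b : ℕ} {Φ : ℕ → ℝ} (h : GInv U C a b 0 1 1 Φ) :
    Np (U ^ a * C * U ^ b) ≤ Φ 0 := by
  simpa [bk_zero_left] using h 0 0 (bk 0 0) le_rfl fun τ => by simp

lemma ginv_init {U C : A M} {a b n k₀ : ℕ} {lo hi η : ℝ} (hη : 0 ≤ η)
    (h1 : GInv U C a b n lo hi fun _ => 1)
    (h2 : ∀ (k r : ℕ) (κ : ℕ → ℝ), k₀ ≤ k → r + k ≤ n →
      (∀ τ, lo * bk k r τ ≤ κ τ ∧ κ τ ≤ hi * bk k r τ) →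
      Np (∑ τ ∈ range (n + 1), κ τ • (U ^ (a + τ) * C * U ^ (b - τ))) ≤ η) :
    GInv U C a b n lo hi (Phi η k₀ 0) := by
  intro k r κ hk hκ
  unfold Phi
  rcases le_total k₀ k with h | h
  · refine (h2 k r κ h hk hκ).trans ?_
    have : (0 : ℝ) ≤ 2 ^ k₀ * (1 / 2) ^ k * (7 / 8) ^ 0 := by positivity
    linarith
  · refine (h1 k r κ hk hκ).trans ?_
    have : (2 : ℝ) ^ k ≤ 2 ^ k₀ := pow_le_pow_right₀ (by norm_num) h
    have e : (1 : ℝ) ≤ 2 ^ k₀ * (1 / 2) ^ k := by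
      rw [one_div, inv_pow, ← div_eq_mul_inv, one_le_div (by positivity)]; exact this
    simp only [pow_zero, mul_one]; linarith

lemma tower_base {U C : A M} (hU : Prob U) {J : ℕ} (hJ : Mix U J) {η : ℝ} {k₀ : ℕ} :
    ∀ n a b i : ℕ, GInv U C a b n 1 1 (Phi η k₀ i) → n ≤ b →
      Np (U ^ (a + n * (J + 1)) * C * U ^ (b + n * J)) ≤ Phi η k₀ (i + n) 0
  | 0, a, b, i, h, _ => by simpa using h.top
  | n + 1, a, b, i, h, hb => by
    have := h.gadget hU hJ hb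
    rw [Phi_succ] at this
    have := tower_base hU hJ n _ _ _ this (by omega)
    rwa [show a + J + 1 + n * (J + 1) = a + (n + 1) * (J + 1) by ring,
      show b + J + n * J = b + (n + 1) * J by ring, show i + 1 + n = i + (n + 1) by ring] at this

lemma tower_gain (hr : IsRep μ φ) (hf : ∀ s, lo' ≤ f s ∧ f s ≤ hi') (h0' : 0 ≤ lo') (h1 : lo' ≤ 1)
    (h2 : 1 ≤ hi') {U W : A M} (hU : ev μ φ (fun _ => 1) = U) (hW : ev μ φ f = W) {J : ℕ}
    (hJ : Mix U J) {η : ℝ} {k₀ s : ℕ} : ∀ (h i : ℕ) (C : A M),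
      GInv U C s s h (lo' ^ (2 * h)) (hi' ^ (2 * h)) (Phi η k₀ i) → h + J ≤ s →
      Np ((U ^ s * W * U ^ s) ^ h * (U ^ s * C * U ^ s) * (U ^ s * W * U ^ s) ^ h) ≤
        Phi η k₀ (i + h) 0
  | 0, i, C, H, _ => by
    simp only [mul_zero, pow_zero] at H
    simpa using H.top
  | h + 1, i, C, H, hs => by
    have hU' : Prob U := hU ▸ hr.prob_ev
    have a1 := H.gadget hU' hJ (by omega)
    rw [Phi_succ, show 2 * (h + 1) = 2 * h + 1 + 1 by ring, pow_succ lo', pow_succ hi'] at a1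
    have a2 := a1.left hr hf h0' h1 h2 hU hW (by positivity) (x := s + s) (by omega) s
    rw [pow_succ lo', pow_succ hi'] at a2
    have a3 := a2.right hr hf h0' h1 h2 hU hW (by positivity) (y := s + s) (b' := s) (by omega)
      (by omega) (by omega)
    have := tower_gain hr hf h0' h1 h2 hU hW hJ h _ _ a3 (by omega)
    rw [show i + 1 + h = i + (h + 1) by ring] at this
    convert this using 2
    nth_rw 2 [pow_succ']
    rw [pow_succ, pow_add]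
    simp only [mul_assoc]

end Window

end Vale.Agent.P321
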