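import Vale.Agent.P321.Piece

/- The mixing lemma for a sandwiched defect. -/

namespace Vale.Agent.P321

open Finset

variable {M : Type} [Monoid M]

lemma ov_pieces {U U' : A M} (hU : Prob U) (hU' : Prob U') {c₀ : ℝ} (h0 : 0 < c₀)
    {B N N' Δ : ℕ} (hp : nrm (U' ^ B - U ^ N) ≤ 1 / 4)
    (hr : ∀ m d, d ≤ Δ → nrm (U ^ (N + m) - U ^ (N + m + d)) ≤ 1 / 2)
    (hc : c₀ • U ^ N' ≤ U') : ∀ P k : ℕ, k ≤ P * Δ → k ≤ N' →
      Ov (U' ^ (P * (B + 1))) (U ^ k * U' ^ (P * (B + 1))) ((c₀ / 2) ^ P)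
  | 0, k, h1, _ => by
    have : k = 0 := by omega
    subst this
    simpa using (prob_one (M := M)).ov_self
  | P + 1, k, h1, h2 => by
    have ih := ov_pieces hU hU' h0 hp hr hc P (k - Δ) (by rw [add_mul] at h1; omega) (by omega)
    set Z := U' ^ (P * (B + 1)) with hZ
    have pZ : Prob Z := hU'.pow _
    have o1 : Ov (U' ^ B * U ^ N') (U ^ k * U' ^ B * U ^ (N' - (k - Δ))) (1 / 2) := by
      refine ov_of_nrm ((hU'.pow _).mul (hU.pow _)) (((hU.pow _).mul (hU'.pow _)).mul (hU.pow _)) ?_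
      have a1 := (nrm_right (hU.pow N') _).trans hp
      have a2 := (nrm_sw (hU.pow k) (hU.pow (N' - (k - Δ))) _).trans hp
      have a3 := hr N' (k - (k - Δ)) (by omega)
      rw [sub_mul, ← pow_add] at a1
      rw [mul_sub, sub_mul, ← pow_add, ← pow_add, nrm_sub_comm,
        show k + N + (N' - (k - Δ)) = N + N' + (k - (k - Δ)) by omega] at a2
      have b1 := nrm_sub_le (U' ^ B * U ^ N') (U ^ (N + N')) (U ^ k * U' ^ B * U ^ (N' - (k - Δ)))
      have b2 := nrm_sub_le (U ^ (N + N')) (U ^ (N + N' + (k - (k - Δ))))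
        (U ^ k * U' ^ B * U ^ (N' - (k - Δ)))
      linarith
    have o2 := (o1.mul ih).smul h0.le
    have e : U' ^ ((P + 1) * (B + 1)) = U' ^ B * U' * Z := by
      rw [hZ, ← pow_succ, ← pow_add]; congr 1; ring
    rw [e, show (c₀ / 2) ^ (P + 1) = c₀ * (1 / 2 * (c₀ / 2) ^ P) by ring]
    have hle : U' ^ B * (c₀ • U ^ N') * Z ≤ U' ^ B * U' * Z :=
      mul_le_mul_of_nonneg_right (mul_le_mul_of_nonneg_left hc (hU'.pow B).nn) pZ.nn
    refine o2.of_le ?_ ?_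
    · simpa using hle
    · have := mul_le_mul_of_nonneg_left hle (hU.pow k).nn
      refine le_trans (le_of_eq ?_) this
      rw [mul_smul_comm, smul_mul_assoc, mul_smul_comm]
      congr 1
      simp only [mul_assoc]
      rw [← mul_assoc (U ^ (N' - _)), ← pow_add, show N' - (k - Δ) + (k - Δ) = N' by omega]

lemma mixing (M : Type) [Monoid M] {c₀ : ℝ} (h0 : 0 < c₀) (h1 : c₀ ≤ 1) {Q : ℕ} (hQ : 2 ≤ Q) :
    ∃ C : ℕ, ∀ (U W : A M) (ε : ℝ) (J g' s N' : ℕ), Prob U → Prob W → Dom (W - U) ε U →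
      Mix U J → 0 < g' → s = 4 * Q * g' * (J + 1) →
      2 ^ 19 * ((2 * ε ^ 2 + (ε ^ 2) ^ 2) * (J + 1)) ^ 2 ≤ Q → N' ≤ 2 * s + 1 →
      c₀ • U ^ N' ≤ U ^ s * W * U ^ s → Mix (U ^ s * W * U ^ s) (C * s * (J + 1)) := by
  set κ := c₀ * (c₀ / 2) ^ (9 * Q) with hκ
  have κ0 : 0 < κ := by positivity
  have κ1 : κ ≤ 1 := mul_le_one₀ h1 (by positivity) (pow_le_one₀ (by positivity) (by linarith))
  refine ⟨12 * ⌈6 / κ⌉₊, fun U W ε J g' s N' hU hW hD hJ hg hs hl hN hc => ?_⟩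
  set U' := U ^ s * W * U ^ s with hU'
  have pU' : Prob U' := ((hU.pow s).mul hW).mul (hU.pow s)
  have hQg : 0 < Q * g' := Nat.mul_pos (by omega) hg
  have hp := piece hU hW hD hJ (g := Q * g') (h := 2 * g' * (J + 1) ^ 2) (R := 2 * (Q * g') * (J + 1))
    (s := s) hQg (by positivity) (by rw [hs]; nlinarith) (by rw [hs]; exact le_of_eq (by ring))
    (by
      have : 2 * g' * (J + 1) ^ 2 * (Q * g') * 1 ≤ 2 * g' * (J + 1) ^ 2 * (Q * g') * (2 * Q) :=
        Nat.mul_le_mul_left _ (by omega)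
      calc _ = _ := by ring
        _ ≤ _ := this
        _ = _ := by ring)
    (by
      have := mul_le_mul_of_nonneg_right hl (by positivity : (0 : ℝ) ≤ g')
      push_cast
      calc _ = _ := by ring
        _ ≤ _ := this)
  set B := 2 * (2 * g' * (J + 1) ^ 2) with hB
  have hg' : (0 : ℝ) < g' := by exact_mod_cast hg
  have hr0 := hJ.rate hU (n := 64 * (g' * (J + 1)) ^ 2) (a := 1 / (2 * (g' * (J + 1))))
    (by positivity) (by push_cast; field_simp; norm_num)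
  have hr : ∀ m d, d ≤ g' * (J + 1) →
      nrm (U ^ (B * (2 * s + 1) + m) - U ^ (B * (2 * s + 1) + m + d)) ≤ 1 / 2 := by
    intro m d hd
    refine (nrm_pow_sub hU hr0 ?_ d).trans ?_
    · have : 32 * (g' * (J + 1)) ^ 2 * (J + 1) * 2 ≤ 32 * (g' * (J + 1)) ^ 2 * (J + 1) * Q :=
        Nat.mul_le_mul_left _ hQ
      have e : B * (2 * s + 1) = 32 * (g' * (J + 1)) ^ 2 * (J + 1) * Q + B := by
        rw [hB, hs]; ring
      rw [e]; nlinarith
    · have : (d : ℝ) ≤ g' * (J + 1) := by exact_mod_cast hd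
      rw [mul_one_div, div_le_div_iff₀ (by positivity) (by norm_num)]
      linarith
  have o1 := ov_pieces hU pU' h0 hp hr hc (9 * Q) N' (by
    have : 0 < Q * g' * (J + 1) := by positivity
    rw [hs] at hN; nlinarith) le_rfl
  set j := 9 * Q * (B + 1) with hj
  have o2 : Ov (U' ^ j) (U' ^ (j + 1)) κ := by
    refine (o1.smul h0.le).of_le ?_ ?_
    · simpa using smul_le_smul_of_nonneg_right h1 (pU'.pow j).nn
    · rw [pow_succ', ← smul_mul_assoc]
      exact mul_le_mul_of_nonneg_right hc (pU'.pow j).nn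
  have m1 := mix_of_ov pU' o2 κ0.le κ1 (n := ⌈6 / κ⌉₊)
    (by rw [mul_comm, ← div_le_iff₀ κ0]; exact Nat.le_ceil _)
  refine m1.mono pU' ?_
  have : j + 1 ≤ 12 * s * (J + 1) := by
    have a : 1 ≤ g' * (J + 1) ^ 2 := Nat.succ_le_of_lt (by positivity)
    rw [hj, hB, hs]; nlinarith
  calc _ ≤ ⌈6 / κ⌉₊ * (12 * s * (J + 1)) := Nat.mul_le_mul_left _ this
    _ = _ := by ring

end Vale.Agent.P321
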