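import Vale.Agent.P321.Quad

/- The piece lemma: a long periodic marked word is close to the unmarked one. -/

namespace Vale.Agent.P321

open Finset

variable {M : Type} [Monoid M]

/-- shifted sandwich -/
def hz {R : Type} [Monoid R] (U C : R) (a b : ℕ) (σ : ℤ) : R :=
  U ^ ((a : ℤ) + σ).toNat * C * U ^ ((b : ℤ) - σ).toNat

lemma hz_mul {R : Type} [Monoid R] (U C : R) {a b a' b' m n : ℕ} {σ τ : ℤ}
    (h1 : m + ((a : ℤ) + τ).toNat = ((a' : ℤ) + σ).toNat)
    (h2 : ((b : ℤ) - τ).toNat + n = ((b' : ℤ) - σ).toNat) :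
    U ^ m * hz U C a b τ * U ^ n = hz U C a' b' σ := by
  unfold hz
  rw [← h1, ← h2, pow_add, pow_add]
  simp only [mul_assoc]

lemma hz_left {R : Type} [Monoid R] (U W C : R) {a b a' m x : ℕ} {σ : ℤ}
    (h1 : m + ((a : ℤ) + σ).toNat = x) :
    U ^ ((a' : ℤ) + σ).toNat * W * U ^ m * hz U C a b σ = hz U (W * U ^ x * C) a' b σ := by
  unfold hz
  rw [← h1, pow_add]
  simp only [mul_assoc]

lemma hz_right {R : Type} [Monoid R] (U W C : R) {a b b' m n y : ℕ} {σ : ℤ}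
    (h1 : ((b : ℤ) - σ).toNat + m = y) (h2 : n = ((b' : ℤ) - σ).toNat) :
    hz U C a b σ * (U ^ m * W * U ^ n) = hz U (C * U ^ y * W) a b' σ := by
  unfold hz
  rw [← h1, h2, pow_add]
  simp only [mul_assoc]

structure PInv (U C : A M) (nc a b : ℕ) (p ψ : ℤ → ℝ) : Prop where
  mem : ∀ σ, 0 ≤ p σ ∧ p σ ≤ 1
  supp : ∀ σ, p σ ≠ 0 → 0 ≤ (a : ℤ) + σ ∧ 0 ≤ (b : ℤ) - σ
  q : QInv (fun σ => p σ • (hz U C a b σ - U ^ (a + b + nc))) (U ^ (a + b + nc)) ψ

lemma PInv.gadget {U C : A M} (hU : Prob U) {J : ℕ} (hJ : Mix U J) {nc a b : ℕ} {p ψ : ℤ → ℝ}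
    (h : PInv U C nc a b p ψ) {e a' b' : ℕ} (he : e ≤ 1) (ha : a' + e = a + J + 1)
    (hb : b' = b + J + e) :
    PInv U C nc a' b' (fun σ => (p (σ - e) + p (σ - e + 1)) / 2) (TT ψ) := by
  refine ⟨fun σ => ?_, fun σ hσ => ?_, ?_⟩
  · have h1 := h.mem (σ - e)
    have h2 := h.mem (σ - e + 1)
    constructor <;> linarith [h1.1, h1.2, h2.1, h2.2]
  · by_cases h1 : p (σ - e) = 0
    · have h2 : p (σ - e + 1) ≠ 0 := fun h2 => hσ (by simp [h1, h2])
      have := h.supp _ h2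
      omega
    · have := h.supp _ h1
      omega
  · have hE0 : U ^ (J + 1) * U ^ (a + b + nc) * U ^ J = U ^ (a' + b' + nc) := by
      rw [← pow_add, ← pow_add]; congr 1; omega
    have hE1 : U ^ J * U ^ (a + b + nc) * U ^ (J + 1) = U ^ (a' + b' + nc) := by
      rw [← pow_add, ← pow_add]; congr 1; omega
    have := h.q.gadget hU hJ e hE0 hE1
    convert this using 2 with σ
    have k0 : U ^ (J + 1) * (p (σ - e) • (hz U C a b (σ - e) - U ^ (a + b + nc))) * U ^ J =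
        p (σ - e) • (hz U C a' b' σ - U ^ (a' + b' + nc)) := by
      by_cases h1 : p (σ - e) = 0
      · simp [h1]
      · have := h.supp _ h1
        rw [mul_smul_comm, smul_mul_assoc, mul_sub, sub_mul, hE0,
          hz_mul U C (a' := a') (b' := b') (σ := σ) (by omega) (by omega)]
    have k1 : U ^ J * (p (σ - e + 1) • (hz U C a b (σ - e + 1) - U ^ (a + b + nc))) * U ^ (J + 1) =
        p (σ - e + 1) • (hz U C a' b' σ - U ^ (a' + b' + nc)) := by
      by_cases h1 : p (σ - e + 1) = 0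
      · simp [h1]
      · have := h.supp _ h1
        rw [mul_smul_comm, smul_mul_assoc, mul_sub, sub_mul, hE1,
          hz_mul U C (a' := a') (b' := b') (σ := σ) (by omega) (by omega)]
    rw [k0, k1, ← add_smul, smul_smul]
    congr 1; ring

lemma PInv.gadget2 {U C : A M} (hU : Prob U) {J : ℕ} (hJ : Mix U J) {nc a b : ℕ} {p ψ : ℤ → ℝ}
    (h : PInv U C nc a b p ψ) :
    PInv U C nc (a + (2 * J + 1)) (b + (2 * J + 1)) (A2 p) ((TT ^ 2) ψ) := by
  have h1 := h.gadget hU hJ (e := 0) (a' := a + J + 1) (b' := b + J) (by omega) (by omega) (by omega)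
  have h2 := h1.gadget hU hJ (e := 1) (a' := a + (2 * J + 1)) (b' := b + (2 * J + 1)) (by omega)
    (by omega) (by omega)
  convert h2 using 1
  · funext σ
    simp only [A2_apply, Nat.cast_one, Nat.cast_zero, sub_zero, sub_add_cancel]
    ring
  · rw [pow_two]; rfl

lemma PInv.gadgets {U C : A M} (hU : Prob U) {J : ℕ} (hJ : Mix U J) {nc a b : ℕ} {p ψ : ℤ → ℝ}
    (h : PInv U C nc a b p ψ) : ∀ g : ℕ,
    PInv U C nc (a + g * (2 * J + 1)) (b + g * (2 * J + 1)) ((A2 ^ g) p) ((TT ^ (2 * g)) ψ)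
  | 0 => by simpa using h
  | g + 1 => by
    have := (h.gadgets hU hJ g).gadget2 hU hJ
    rw [← Module.End.mul_apply, ← pow_succ', ← Module.End.mul_apply, ← pow_add] at this
    convert this using 1 <;> ring_nf

lemma pot_A2 {p : ℤ → ℝ} {c v : ℝ} (h : ∀ σ, (1 - p σ) * c ≤ (σ : ℝ) ^ 2 + v) :
    ∀ (g : ℕ) (σ : ℤ), (1 - (A2 ^ g) p σ) * c ≤ (σ : ℝ) ^ 2 + (v + g / 2)
  | 0, σ => by simpa using h σ
  | g + 1, σ => by
    rw [pow_succ', Module.End.mul_apply, A2_apply]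
    have h1 := pot_A2 h g (σ - 1)
    have h2 := pot_A2 h g σ
    have h3 := pot_A2 h g (σ + 1)
    push_cast at *
    nlinarith

section Window

variable {S : Type} [Fintype S] {μ : S → ℝ} {φ : S → A M} {f : S → ℝ} {l : ℝ}

lemma atf_second (hr : IsRep μ φ) (hf1 : ∑ s, μ s * f s = 1)
    (hf2 : ∑ s, μ s * f s ^ 2 ≤ 1 + l) (hl : 0 ≤ l) (n : ℕ) (c : ℤ) {σ σ' : ℤ}
    (h : 0 ≤ c + σ) (h' : 0 ≤ c + σ') :
    ∑ ω, pw μ n ω * (atf f n (c + σ).toNat ω * atf f n (c + σ').toNat ω) ≤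
      1 + l * dz (σ - σ') := by
  refine (exp_atf2 hr.sum hf1 hf2 (by linarith) n _ _).trans (le_of_eq ?_)
  unfold dz
  by_cases e : σ - σ' = 0
  · rw [if_pos e, if_pos (by congr 1; omega), mul_one]
  · rw [if_neg e, if_neg (by omega), mul_zero, add_zero]

lemma PInv.left (hr : IsRep μ φ) (hf0 : ∀ s, 0 ≤ f s) (hf1 : ∑ s, μ s * f s = 1)
    (hf2 : ∑ s, μ s * f s ^ 2 ≤ 1 + l) (hl : 0 ≤ l) {U W C : A M} (hU : ev μ φ (fun _ => 1) = U)
    (hW : ev μ φ f = W) {nc a b : ℕ} {p ψ : ℤ → ℝ} (h : PInv U C nc a b p ψ) (hψ : ∀ d, 0 ≤ ψ d)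
    {R x a' : ℕ} (hx : a + R ≤ x) (ha : R ≤ a') :
    PInv U (W * U ^ x * C) (nc + x + 1) a' b (fun σ => if |σ| ≤ R then p σ else 0)
      (ψ + (l * (ψ 0 + 1)) • dz) := by
  refine ⟨fun σ => ?_, fun σ hσ => ?_, ?_⟩
  · split_ifs
    · exact h.mem σ
    · norm_num
  · by_cases h1 : |σ| ≤ R
    · rw [if_pos h1] at hσ
      have := h.supp σ hσ
      have := abs_le.1 h1
      omega
    · exact absurd (if_neg h1) hσ
  · set n := a' + 1 + x - a with hn
    have hp := hr.pow n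
    have e0 : ∀ X : A M, ∑ ω, pw μ n ω • (pφ φ n ω * X * 1) = U ^ n * X := fun X => by
      rw [← hU, ← ev_pow_one, ev, sum_mul]; simp
    have := h.q.window hψ hp.nn hp.sum (L := pφ φ n) (R := fun _ => 1) hp.prob (fun _ => prob_one)
      (fun σ => |σ| ≤ R) (F := fun σ => atf f n ((a' : ℤ) + σ).toNat) (fun σ ω => atf_nn hf0 _ _ _)
      (fun σ => exp_atf hr.sum hf1 _ _) hl
      (fun σ σ' h1 h2 => atf_second hr hf1 hf2 hl n a'
        (by have := abs_le.1 h1; omega) (by have := abs_le.1 h2; omega)) h.mem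
    have eN : U ^ n * U ^ (a + b + nc) = U ^ (a' + b + (nc + x + 1)) := by
      rw [← pow_add]; congr 1; omega
    rw [e0, eN] at this
    convert this using 2 with σ
    split_ifs with h1
    swap
    · simp
    by_cases h2 : p σ = 0
    · simp [h2]
    have h3 := h.supp σ h2
    have h4 := abs_le.1 h1
    have e1 : ∀ X : A M, ∑ ω, pw μ n ω • (pφ φ n ω * (atf f n ((a' : ℤ) + σ).toNat ω • X) * 1) =
        U ^ ((a' : ℤ) + σ).toNat * W * U ^ (n - 1 - ((a' : ℤ) + σ).toNat) * X := fun X => by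
      rw [← hW, ← hU, ← ev_atf f (by omega), ev, sum_mul]; simp [smul_smul]
    simp only [mul_sub, sub_mul, smul_sub, sum_sub_distrib, sub_add_cancel]
    rw [e0, e1, mul_smul_comm, mul_smul_comm, eN, hz_left U W C (x := x) (by omega)]

lemma PInv.right (hr : IsRep μ φ) (hf0 : ∀ s, 0 ≤ f s) (hf1 : ∑ s, μ s * f s = 1)
    (hf2 : ∑ s, μ s * f s ^ 2 ≤ 1 + l) (hl : 0 ≤ l) {U W C : A M} (hU : ev μ φ (fun _ => 1) = U)
    (hW : ev μ φ f = W) {nc a b : ℕ} {p ψ : ℤ → ℝ} (h : PInv U C nc a b p ψ) (hψ : ∀ d, 0 ≤ ψ d)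
    {R y b' : ℕ} (hy : b + R ≤ y) (hb : R ≤ b') :
    PInv U (C * U ^ y * W) (nc + y + 1) a b' (fun σ => if |σ| ≤ R then p σ else 0)
      (ψ + (l * (ψ 0 + 1)) • dz) := by
  refine ⟨fun σ => ?_, fun σ hσ => ?_, ?_⟩
  · split_ifs
    · exact h.mem σ
    · norm_num
  · by_cases h1 : |σ| ≤ R
    · rw [if_pos h1] at hσ
      have := h.supp σ hσ
      have := abs_le.1 h1
      omega
    · exact absurd (if_neg h1) hσ
  · set n := b' + 1 + y - b with hn
    have hp := hr.pow n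
    have e0 : ∀ X : A M, ∑ ω, pw μ n ω • (1 * X * pφ φ n ω) = X * U ^ n := fun X => by
      rw [← hU, ← ev_pow_one, ev, mul_sum]; simp
    have := h.q.window hψ hp.nn hp.sum (L := fun _ => 1) (R := pφ φ n) (fun _ => prob_one) hp.prob
      (fun σ => |σ| ≤ R) (F := fun σ => atf f n ((y : ℤ) - b + σ).toNat)
      (fun σ ω => atf_nn hf0 _ _ _) (fun σ => exp_atf hr.sum hf1 _ _) hl
      (fun σ σ' h1 h2 => atf_second hr hf1 hf2 hl n ((y : ℤ) - b)
        (by have := abs_le.1 h1; omega) (by have := abs_le.1 h2; omega)) h.mem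
    have eN : U ^ (a + b + nc) * U ^ n = U ^ (a + b' + (nc + y + 1)) := by
      rw [← pow_add]; congr 1; omega
    rw [e0, eN] at this
    convert this using 2 with σ
    split_ifs with h1
    swap
    · simp
    by_cases h2 : p σ = 0
    · simp [h2]
    have h3 := h.supp σ h2
    have h4 := abs_le.1 h1
    have e1 : ∀ X : A M, ∑ ω, pw μ n ω • (1 * (atf f n ((y : ℤ) - b + σ).toNat ω • X) * pφ φ n ω) =
        X * (U ^ ((y : ℤ) - b + σ).toNat * W * U ^ (n - 1 - ((y : ℤ) - b + σ).toNat)) := fun X => by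
      rw [← hW, ← hU, ← ev_atf f (by omega), ev, mul_sum]; simp [smul_smul]
    simp only [mul_sub, sub_mul, smul_sub, sum_sub_distrib, sub_add_cancel]
    rw [e0, e1, smul_mul_assoc, smul_mul_assoc, eN,
      hz_right U W C (y := y) (b' := b') (by omega) (by omega)]

/-- one layer of the tower -/
lemma PInv.layer (hr : IsRep μ φ) (hf0 : ∀ s, 0 ≤ f s) (hf1 : ∑ s, μ s * f s = 1)
    (hf2 : ∑ s, μ s * f s ^ 2 ≤ 1 + l) (hl : 0 ≤ l) {U W C : A M} (hU : ev μ φ (fun _ => 1) = U)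
    (hW : ev μ φ f = W) {J : ℕ} (hJ : Mix U J) {nc a : ℕ} {p ψ : ℤ → ℝ}
    (h : PInv U C nc a a p ψ) (hψ : ∀ d, 0 ≤ ψ d) (hψ1 : ψ 0 ≤ 1) {R x g s : ℕ} {v : ℝ}
    (hv : 0 ≤ v) (hp : ∀ σ, (1 - p σ) * R ^ 2 ≤ (σ : ℝ) ^ 2 + v)
    (hx : a + R ≤ x) (hs : g * (2 * J + 1) + R ≤ s) :
    ∃ p', PInv U (W * U ^ x * C * U ^ x * W) (nc + 2 * x + 2) s s p'
      ((TT ^ (2 * g)) (ψ + (2 * (2 * l + l ^ 2)) • dz)) ∧
      ∀ σ, (1 - p' σ) * R ^ 2 ≤ (σ : ℝ) ^ 2 + (v + g / 2) := by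
  have hU' : Prob U := hU ▸ hr.prob_ev
  have h1 := h.left hr hf0 hf1 hf2 hl hU hW hψ hx (a' := s - g * (2 * J + 1)) (by omega)
  have h0 := hψ 0
  have h2 := h1.right hr hf0 hf1 hf2 hl hU hW (fun d => by
    have := hψ d
    have := dz_nn d
    simp only [Pi.add_apply, Pi.smul_apply, smul_eq_mul]; positivity) hx
    (b' := s - g * (2 * J + 1)) (by omega)
  have h3 : PInv U (W * U ^ x * C * U ^ x * W) (nc + 2 * x + 2) (s - g * (2 * J + 1))
      (s - g * (2 * J + 1)) (fun σ => if |σ| ≤ R then p σ else 0)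
      (ψ + (2 * (2 * l + l ^ 2)) • dz) := by
    have e : (fun σ : ℤ => if |σ| ≤ R then (if |σ| ≤ R then p σ else 0) else 0) =
        fun σ : ℤ => if |σ| ≤ R then p σ else 0 := by funext σ; split_ifs <;> rfl
    rw [e, show nc + x + 1 + x + 1 = nc + 2 * x + 2 by ring] at h2
    refine ⟨h2.mem, h2.supp, h2.q.mono fun d => ?_⟩
    have := dz_nn d
    have d0 : dz 0 = 1 := rfl
    simp only [Pi.add_apply, Pi.smul_apply, smul_eq_mul, d0]
    nlinarith [mul_nonneg (mul_nonneg hl this) (sub_nonneg.2 hψ1),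
      mul_nonneg (mul_nonneg (mul_nonneg hl hl) this) (sub_nonneg.2 hψ1)]
  have h4 := h3.gadgets hU' hJ g
  rw [show s - g * (2 * J + 1) + g * (2 * J + 1) = s by omega] at h4
  refine ⟨_, h4, pot_A2 (fun σ => ?_) g⟩
  split_ifs with h5
  · exact hp σ
  · have : (R : ℝ) ≤ |(σ : ℝ)| := by exact_mod_cast (not_le.1 h5).le
    have := pow_le_pow_left₀ (by positivity) this 2
    rw [sq_abs] at this
    linarith

end Window

/-- the piece lemma -/
lemma piece {U W : A M} (hU : Prob U) (hW : Prob W) {ε : ℝ} (hD : Dom (W - U) ε U) {J : ℕ}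
    (hJ : Mix U J) {g h R s : ℕ} (hg : 0 < g) (hR : 0 < R) (hs : g * (2 * J + 1) + R ≤ s)
    (hR2 : 2 * R ≤ s) (hv : h * g ≤ R ^ 2)
    (hh : 2 ^ 18 * (2 * ε ^ 2 + (ε ^ 2) ^ 2) ^ 2 * h ≤ g) :
    nrm ((U ^ s * W * U ^ s) ^ (2 * h) - U ^ (2 * h * (2 * s + 1))) ≤ 1 / 4 := by
  rcases Nat.eq_zero_or_pos h with rfl | hpos
  · simp [nrm_zero]
  obtain ⟨S, _, μ, φ, hr, e1, hd⟩ := exists_rep hU
  obtain ⟨e, he, he1, he2⟩ := hd _ _ hD
  have hm : ∑ s, μ s * e s = 0 := by rw [← hr.mass_ev, he, map_sub, hW.one, hU.one, sub_self]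
  have hf0 := he2 (by simpa using hW.nn)
  have hf1 : ∑ s, μ s * (1 + e s) = 1 := by
    simp only [mul_add, mul_one, sum_add_distrib, hr.sum, hm, add_zero]
  have hf2 : ∑ s, μ s * (1 + e s) ^ 2 ≤ 1 + ε ^ 2 := by
    have : ∑ s, μ s * (1 + e s) ^ 2 ≤ ∑ s, (μ s * (1 + ε ^ 2) + 2 * (μ s * e s)) :=
      sum_le_sum fun s _ => by
        have := mul_le_mul_of_nonneg_left (sq_le_sq' (abs_le.1 (he1 s)).1 (abs_le.1 (he1 s)).2)
          (hr.nn s)
        nlinarith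
    rwa [sum_add_distrib, ← sum_mul, ← mul_sum, hr.sum, hm, one_mul, mul_zero, add_zero] at this
  have eW : ev μ φ (fun s => 1 + e s) = W := by rw [ev_add, e1, he, add_sub_cancel]
  set l := 2 * ε ^ 2 + (ε ^ 2) ^ 2 with hl
  have hl0 : 0 ≤ l := by positivity
  have key : ∀ j, j + 1 ≤ h → ∃ C nc p, U ^ s * C * U ^ s = (U ^ s * W * U ^ s) ^ (2 * (j + 1)) ∧
      nc + 2 * s = 2 * (j + 1) * (2 * s + 1) ∧ PInv U C nc s s p (Psi l (2 * g) (j + 1)) ∧
      ∀ σ, (1 - p σ) * R ^ 2 ≤ (σ : ℝ) ^ 2 + ((j + 1 : ℕ) : ℝ) * (g / 2) := by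
    intro j
    induction j with
    | zero =>
      intro _
      have h0 : PInv U 1 0 R R (fun σ => if |σ| ≤ R then 1 else 0) 0 := by
        refine ⟨fun σ => by split_ifs <;> norm_num, fun σ hσ => ?_, ?_⟩
        · have : |σ| ≤ R := by by_contra h; exact hσ (if_neg h)
          have := abs_le.1 this
          omega
        · convert qinv_zero (hU.pow (R + R + 0)) using 2 with σ
          split_ifs with h1
          · have := abs_le.1 h1
            unfold hz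
            rw [mul_one, ← pow_add, one_smul, sub_eq_zero]
            congr 1; omega
          · simp
      obtain ⟨p', h1, h2⟩ := h0.layer hr hf0 hf1 hf2 (sq_nonneg ε) e1 eW hJ (fun _ => le_rfl)
        zero_le_one (R := R) (x := s) (g := g) (s := s) (v := 0) le_rfl (fun σ => by
          split_ifs with h5
          · simp; positivity
          · have : (R : ℝ) ≤ |(σ : ℝ)| := by exact_mod_cast (not_le.1 h5).le
            have := pow_le_pow_left₀ (by positivity) this 2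
            rw [sq_abs] at this
            linarith) (by omega) hs
      refine ⟨W * U ^ s * 1 * U ^ s * W, 0 + 2 * s + 2, p', ?_, by ring, ?_, by simpa using h2⟩
      swap
      · rw [Psi_succ]
        simpa [Psi] using h1
      · simp only [mul_one, zero_add, pow_two, mul_assoc]
    | succ j ih =>
      intro hj
      obtain ⟨C, nc, p, c1, c2, c3, c4⟩ := ih (by omega)
      obtain ⟨p', h1, h2⟩ := c3.layer hr hf0 hf1 hf2 (sq_nonneg ε) e1 eW hJ (Psi_nn hl0 _ _)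
        ((Psi_le hl0 hg (by omega) hh).trans (by norm_num)) (R := R) (x := 2 * s) (g := g) (s := s)
        (by positivity) c4 (by omega) hs
      refine ⟨_, _, p', ?_, ?_, by rw [Psi_succ]; exact h1, fun σ => (h2 σ).trans (le_of_eq ?_)⟩
      · rw [show 2 * (j + 1 + 1) = 1 + 2 * (j + 1) + 1 by ring, pow_add, pow_add, ← c1, two_mul s,
          pow_add]
        simp only [pow_one, mul_assoc]
      · linarith
      · push_cast; ring
  obtain ⟨C, nc, p, c1, c2, c3, c4⟩ := key (h - 1) (by omega)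
  rw [show h - 1 + 1 = h by omega] at c1 c2 c3 c4
  have q1 := (c3.q.single 0).trans (Psi_le hl0 hg le_rfl hh)
  have q2 := c4 0
  have hp : 1 / 2 ≤ p 0 := by
    have a : (h : ℝ) * g ≤ R ^ 2 := by exact_mod_cast hv
    have b : (0 : ℝ) < R ^ 2 := by positivity
    by_contra hc
    push_cast at q2
    nlinarith
  have e2 : hz U C s s 0 = (U ^ s * W * U ^ s) ^ (2 * h) := by rw [← c1]; simp [hz]
  rw [e2, show s + s + nc = 2 * h * (2 * s + 1) by omega] at q1
  set Z := (U ^ s * W * U ^ s) ^ (2 * h) - U ^ (2 * h * (2 * s + 1))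
  have q3 : nrm (p 0 • Z) ≤ 1 / 8 := abs_le_of_sq_le_sq' (by linarith) (by norm_num) |>.2
  have q4 := nrm_smul (p 0)⁻¹ (p 0 • Z)
  have hp0 : 0 < p 0 := by linarith
  rw [smul_smul, inv_mul_cancel₀ hp0.ne', one_smul, abs_of_pos (inv_pos.2 hp0)] at q4
  have q5 : (p 0)⁻¹ ≤ 2 := by rw [inv_le_comm₀ hp0 (by norm_num)]; linarith
  have := mul_le_mul q5 q3 (nrm_nn _) (by norm_num)
  linarith

end Vale.Agent.P321
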