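import Vale.Agent.P321.Rate

/- Quadratic (second moment) invariants for families of signed elements. -/

namespace Vale.Agent.P321

open Finset

variable {M : Type} [Monoid M]

/-- second-difference averaging -/
noncomputable def A2 : Module.End ℝ (ℤ → ℝ) where
  toFun ψ d := (ψ (d - 1) + 2 * ψ d + ψ (d + 1)) / 4
  map_add' ψ φ := by ext d; simp only [Pi.add_apply]; ring
  map_smul' c ψ := by ext d; simp only [Pi.smul_apply, smul_eq_mul, RingHom.id_apply]; ring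

lemma A2_apply (ψ : ℤ → ℝ) (d : ℤ) : A2 ψ d = (ψ (d - 1) + 2 * ψ d + ψ (d + 1)) / 4 := rfl

/-- the lazy two-replica walk -/
noncomputable def TT : Module.End ℝ (ℤ → ℝ) := (3 / 4 : ℝ) • 1 + (1 / 4 : ℝ) • A2

lemma TT_apply (ψ : ℤ → ℝ) (d : ℤ) : TT ψ d = 3 / 4 * ψ d + 1 / 4 * A2 ψ d := rfl

/-- point mass at the origin -/
def dz : ℤ → ℝ := fun d => if d = 0 then 1 else 0

lemma dz_nn (d : ℤ) : 0 ≤ dz d := by unfold dz; split_ifs <;> norm_num

lemma TT_pow_nn {ψ : ℤ → ℝ} (h : ∀ d, 0 ≤ ψ d) : ∀ (n : ℕ) (d : ℤ), 0 ≤ (TT ^ n) ψ d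
  | 0, d => h d
  | n + 1, d => by
    rw [pow_succ', Module.End.mul_apply, TT_apply, A2_apply]
    linarith [TT_pow_nn h n d, TT_pow_nn h n (d - 1), TT_pow_nn h n (d + 1)]

lemma A2_pow_dz : ∀ (k : ℕ) (d : ℤ), (A2 ^ k) dz d = bz (2 * k) (d + k)
  | 0, d => by simp [dz, bz]
  | k + 1, d => by
    rw [pow_succ', Module.End.mul_apply, A2_apply, A2_pow_dz k, A2_pow_dz k, A2_pow_dz k,
      show 2 * (k + 1) = 2 * k + 1 + 1 by ring, bz, bz, bz]
    push_cast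
    rw [show d + (k + 1) = d + 1 + k by ring, show d + 1 + k - 1 = d + k by ring,
      show d + k - 1 = d - 1 + k by ring]
    ring

lemma TT_pow_dz (n : ℕ) : (TT ^ n) dz 0 ≤ 1 / √(1 + (n : ℝ) / 8) := by
  have := supersol (κ := 1 / 4) (by norm_num) (by norm_num) zero_le_one
    (fun n k => (TT ^ n) ((A2 ^ k) dz) 0) (fun k => ?_) (fun n k => ?_) n 0
  · rw [show ((0 : ℕ) : ℝ) + 1 + 1 / 4 * n / 2 = 1 + n / 8 by push_cast; ring] at this
    exact this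
  · rw [pow_zero, Module.End.one_apply, A2_pow_dz]
    refine (bz_le _ _).trans (one_div_le_one_div_of_le (Real.sqrt_pos.2 (by positivity))
      (Real.sqrt_le_sqrt ?_))
    push_cast; linarith [(Nat.cast_nonneg k : (0 : ℝ) ≤ k)]
  · have e : TT ((A2 ^ k) dz) = (3 / 4 : ℝ) • (A2 ^ k) dz + (1 / 4 : ℝ) • (A2 ^ (k + 1)) dz := by
      rw [pow_succ']; rfl
    rw [pow_succ, Module.End.mul_apply, e, map_add, map_smul, map_smul]
    simp only [Pi.add_apply, Pi.smul_apply, smul_eq_mul]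
    linarith

lemma sum_inv_sqrt : ∀ h : ℕ, ∑ i ∈ range h, 1 / √((i : ℝ) + 1) ≤ 2 * √(h : ℝ)
  | 0 => by simp
  | h + 1 => by
    rw [sum_range_succ]
    have a := sum_inv_sqrt h
    have hp : 0 < √((h : ℝ) + 1) := Real.sqrt_pos.2 (by positivity)
    have b : 1 / √((h : ℝ) + 1) ≤ 2 * √((h : ℝ) + 1) - 2 * √(h : ℝ) := by
      rw [div_le_iff₀ hp]
      have c := Real.mul_self_sqrt (by positivity : (0 : ℝ) ≤ h + 1)
      have d := Real.mul_self_sqrt (by positivity : (0 : ℝ) ≤ h)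
      nlinarith [sq_nonneg (√((h : ℝ) + 1) - √(h : ℝ))]
    push_cast; linarith

/-- accumulated second moment kernel -/
noncomputable def Psi (l : ℝ) (γ j : ℕ) : ℤ → ℝ :=
  (2 * l) • ∑ i ∈ range j, (TT ^ ((i + 1) * γ)) dz

lemma Psi_succ (l : ℝ) (γ j : ℕ) :
    Psi l γ (j + 1) = (TT ^ γ) (Psi l γ j + (2 * l) • dz) := by
  unfold Psi
  rw [sum_range_succ', ← smul_add, map_smul, map_add, map_sum]
  congr 2
  · refine sum_congr rfl fun i _ => ?_
    rw [← Module.End.mul_apply, ← pow_add]; congr 2; ring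
  · simp

lemma Psi_nn {l : ℝ} (hl : 0 ≤ l) (γ j : ℕ) (d : ℤ) : 0 ≤ Psi l γ j d := by
  unfold Psi
  rw [Pi.smul_apply, Finset.sum_apply, smul_eq_mul]
  exact mul_nonneg (by linarith) (sum_nonneg fun i _ => TT_pow_nn dz_nn _ _)

lemma Psi_le {l : ℝ} (hl : 0 ≤ l) {g h j : ℕ} (hg : 0 < g) (hj : j ≤ h)
    (hh : 2 ^ 18 * l ^ 2 * h ≤ g) : Psi l (2 * g) j 0 ≤ 1 / 64 := by
  unfold Psi
  rw [Pi.smul_apply, Finset.sum_apply, smul_eq_mul]
  have hg' : (0 : ℝ) < g := by exact_mod_cast hg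
  have hsg : 0 < √(g : ℝ) := Real.sqrt_pos.2 hg'
  have a : ∑ i ∈ range j, (TT ^ ((i + 1) * (2 * g))) dz 0 ≤
      ∑ i ∈ range j, 2 / √(g : ℝ) * (1 / √((i : ℝ) + 1)) := by
    refine sum_le_sum fun i _ => (TT_pow_dz _).trans ?_
    have hi : 0 < √((i : ℝ) + 1) := Real.sqrt_pos.2 (by positivity)
    rw [div_mul_div_comm, div_le_div_iff₀ (Real.sqrt_pos.2 (by positivity)) (by positivity),
      one_mul, mul_one, ← Real.sqrt_mul hg'.le]
    refine abs_le_of_sq_le_sq' ?_ (by positivity) |>.2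
    rw [mul_pow, Real.sq_sqrt (by positivity), Real.sq_sqrt (by positivity)]
    push_cast; nlinarith
  rw [← mul_sum] at a
  have b := (sum_inv_sqrt j).trans (mul_le_mul_of_nonneg_left
    (Real.sqrt_le_sqrt (by exact_mod_cast hj : (j : ℝ) ≤ h)) (by norm_num : (0 : ℝ) ≤ 2))
  have c : 512 * l * √(h : ℝ) ≤ √(g : ℝ) := by
    refine Real.le_sqrt_of_sq_le ?_
    rw [mul_pow, mul_pow, Real.sq_sqrt (by positivity)]; linarith
  calc 2 * l * ∑ i ∈ range j, (TT ^ ((i + 1) * (2 * g))) dz 0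
      ≤ 2 * l * (2 / √(g : ℝ) * (2 * √(h : ℝ))) := by
        gcongr
        exact a.trans (by gcongr)
    _ = (512 * l * √(h : ℝ)) / √(g : ℝ) / 64 := by ring
    _ ≤ 1 / 64 := by gcongr; exact (div_le_one hsg).2 c

/-- the quadratic invariant -/
def QInv (Y : ℤ → A M) (E : A M) (ψ : ℤ → ℝ) : Prop :=
  ∀ (ι : Type) [Fintype ι] (a : ι → ℝ) (ps : ι → ℤ) (t : ℝ), (∀ i, 0 ≤ a i) →
    nrm (∑ i, a i • Y (ps i) + t • E) ^ 2 ≤ ∑ i, ∑ j, a i * a j * ψ (ps i - ps j) + t ^ 2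

lemma QInv.mono {Y : ℤ → A M} {E : A M} {ψ ψ' : ℤ → ℝ} (h : QInv Y E ψ) (hψ : ∀ d, ψ d ≤ ψ' d) :
    QInv Y E ψ' := fun ι _ a ps t ha => (h ι a ps t ha).trans (by
  gcongr with i _ j _
  · exact mul_nonneg (ha i) (ha j)
  · exact hψ _)

lemma qinv_zero {E : A M} (hE : Prob E) : QInv (fun _ => 0) E 0 := by
  intro ι _ a ps t ha
  simp only [smul_zero, sum_const_zero, zero_add, Pi.zero_apply, mul_zero]
  have := (nrm_smul t E).trans (mul_le_of_le_one_right (abs_nonneg _) hE.nrm_le)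
  rw [← sq_abs t]
  exact pow_le_pow_left₀ (nrm_nn _) this 2

lemma QInv.single {Y : ℤ → A M} {E : A M} {ψ : ℤ → ℝ} (h : QInv Y E ψ) (σ : ℤ) :
    nrm (Y σ) ^ 2 ≤ ψ 0 := by
  simpa using h Unit (fun _ => 1) (fun _ => σ) 0 fun _ => zero_le_one

lemma QInv.gadget {U : A M} (hU : Prob U) {J : ℕ} (hJ : Mix U J) {Y : ℤ → A M} {E E' : A M}
    {ψ : ℤ → ℝ} (h : QInv Y E ψ) (e : ℤ) (h0 : U ^ (J + 1) * E * U ^ J = E')
    (h1 : U ^ J * E * U ^ (J + 1) = E') :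
    QInv (fun σ => (1 / 2 : ℝ) • (U ^ (J + 1) * Y (σ - e) * U ^ J +
      U ^ J * Y (σ - e + 1) * U ^ (J + 1))) E' (TT ψ) := by
  intro ι _ a ps t ha
  set Y₀ := ∑ i, a i • Y (ps i - e) + t • E with hY₀
  set Y₁ := ∑ i, a i • Y (ps i - e + 1) + t • E with hY₁
  have e1 : ∑ i, a i • (1 / 2 : ℝ) • (U ^ (J + 1) * Y (ps i - e) * U ^ J +
      U ^ J * Y (ps i - e + 1) * U ^ (J + 1)) + t • E' =
      (1 / 2 : ℝ) • (U ^ (J + 1) * Y₀ * U ^ J + U ^ J * Y₁ * U ^ (J + 1)) := by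
    simp only [hY₀, hY₁, mul_add, add_mul, mul_sum, sum_mul, mul_smul_comm, smul_mul_assoc, h0, h1,
      smul_add, sum_add_distrib, smul_sum, smul_comm (1 / 2 : ℝ) (a _)]
    have : t • E' = (1 / 2 : ℝ) • t • E' + (1 / 2 : ℝ) • t • E' := by
      rw [← add_smul]; norm_num
    conv_lhs => rw [this]
    abel
  have e2 : (1 / 2 : ℝ) • (Y₀ + Y₁) =
      ∑ i : ι × Bool, (a i.1 / 2) • Y (ps i.1 - e + if i.2 then 1 else 0) + t • E := by
    rw [Fintype.sum_prod_type]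
    simp only [Fintype.sum_bool, if_true, Bool.false_eq_true, if_false, add_zero, hY₀, hY₁,
      smul_add, sum_add_distrib, smul_sum, smul_smul]
    have : t • E = ((1 / 2 : ℝ) * t) • E + ((1 / 2 : ℝ) * t) • E := by
      rw [← add_smul]; congr 1; ring
    conv_rhs => rw [this]
    simp only [show ∀ x : ℝ, 1 / 2 * x = x / 2 from fun x => by ring]
    abel
  have b0 := h ι a (fun i => ps i - e) t ha
  have b1 := h ι a (fun i => ps i - e + 1) t ha
  have b2 := h (ι × Bool) (fun i => a i.1 / 2) (fun i => ps i.1 - e + if i.2 then 1 else 0) t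
    fun i => by linarith [ha i.1]
  rw [← e2] at b2
  simp only [sub_sub_sub_cancel_right, add_sub_add_right_eq_sub] at b0 b1
  have e3 : ∑ i : ι × Bool, ∑ j : ι × Bool, a i.1 / 2 * (a j.1 / 2) *
      ψ ((ps i.1 - e + if i.2 then 1 else 0) - (ps j.1 - e + if j.2 then 1 else 0)) =
      ∑ i, ∑ j, a i * a j * A2 ψ (ps i - ps j) := by
    rw [Fintype.sum_prod_type]
    refine sum_congr rfl fun i _ => ?_
    simp only [Fintype.sum_prod_type, Fintype.sum_bool, if_true, Bool.false_eq_true, if_false,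
      add_zero, ← sum_add_distrib]
    refine sum_congr rfl fun j _ => ?_
    rw [A2_apply, show ps i - e + 1 - (ps j - e + 1) = ps i - ps j by ring,
      show ps i - e + 1 - (ps j - e) = ps i - ps j + 1 by ring,
      show ps i - e - (ps j - e + 1) = ps i - ps j - 1 by ring,
      show ps i - e - (ps j - e) = ps i - ps j by ring]
    ring
  rw [e3] at b2
  have e4 : ∑ i, ∑ j, a i * a j * TT ψ (ps i - ps j) =
      3 / 4 * ∑ i, ∑ j, a i * a j * ψ (ps i - ps j) +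
        1 / 4 * ∑ i, ∑ j, a i * a j * A2 ψ (ps i - ps j) := by
    simp only [mul_sum, ← sum_add_distrib, TT_apply]
    exact sum_congr rfl fun i _ => sum_congr rfl fun j _ => by ring
  rw [e1, e4]
  have g := pow_le_pow_left₀ (nrm_nn _) (gadget_nrm hU hJ Y₀ Y₁) 2
  rw [← hY₀] at b0
  rw [← hY₁] at b1
  set x := nrm ((1 / 2 : ℝ) • (Y₀ + Y₁))
  set y := nrm Y₀
  set z := nrm Y₁
  nlinarith [sq_nonneg (x - y), sq_nonneg (x - z), sq_nonneg (y - z)]

lemma QInv.window {Y : ℤ → A M} {E : A M} {ψ : ℤ → ℝ} (h : QInv Y E ψ) (hψ : ∀ d, 0 ≤ ψ d)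
    {Ω : Type} [Fintype Ω] {ρ : Ω → ℝ} (hρ : ∀ ω, 0 ≤ ρ ω) (hρ1 : ∑ ω, ρ ω = 1)
    {L R : Ω → A M} (hL : ∀ ω, Prob (L ω)) (hR : ∀ ω, Prob (R ω))
    (χ : ℤ → Prop) [DecidablePred χ] {F : ℤ → Ω → ℝ} (hF : ∀ σ ω, 0 ≤ F σ ω)
    (hF1 : ∀ σ, ∑ ω, ρ ω * F σ ω = 1) {l : ℝ} (hl : 0 ≤ l)
    (hF2 : ∀ σ σ', χ σ → χ σ' → ∑ ω, ρ ω * (F σ ω * F σ' ω) ≤ 1 + l * dz (σ - σ'))
    {p : ℤ → ℝ} (hp : ∀ σ, 0 ≤ p σ ∧ p σ ≤ 1) :
    QInv (fun σ => if χ σ then
        ∑ ω, ρ ω • (L ω * (F σ ω • (Y σ + p σ • E) - p σ • E) * R ω) else 0)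
      (∑ ω, ρ ω • (L ω * E * R ω)) (ψ + (l * (ψ 0 + 1)) • dz) := by
  intro ι _ a ps t ha
  set a' : ι → ℝ := fun i => if χ (ps i) then a i else 0 with ha'
  have ha0 : ∀ i, 0 ≤ a' i := fun i => by simp only [ha']; split_ifs; exacts [ha i, le_rfl]
  have ha1 : ∀ i, a' i ≤ a i := fun i => by simp only [ha']; split_ifs; exacts [le_rfl, ha i]
  set X : Ω → A M := fun ω => ∑ i, (a' i * F (ps i) ω) • Y (ps i) +
    (t + ∑ i, a' i * p (ps i) * (F (ps i) ω - 1)) • E with hX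
  have e1 : ∑ i, a i • (if χ (ps i) then
        ∑ ω, ρ ω • (L ω * (F (ps i) ω • (Y (ps i) + p (ps i) • E) - p (ps i) • E) * R ω) else 0) +
      t • ∑ ω, ρ ω • (L ω * E * R ω) = ∑ ω, ρ ω • (L ω * X ω * R ω) := by
    have : ∀ i, a i • (if χ (ps i) then
        ∑ ω, ρ ω • (L ω * (F (ps i) ω • (Y (ps i) + p (ps i) • E) - p (ps i) • E) * R ω) else 0) =
        ∑ ω, ρ ω • (L ω * ((a' i * F (ps i) ω) • Y (ps i) +
          (a' i * p (ps i) * (F (ps i) ω - 1)) • E) * R ω) := by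
      intro i
      simp only [ha']
      split_ifs
      · rw [smul_sum]
        refine sum_congr rfl fun ω _ => ?_
        have : (a i * F (ps i) ω) • Y (ps i) + (a i * p (ps i) * (F (ps i) ω - 1)) • E =
            a i • (F (ps i) ω • (Y (ps i) + p (ps i) • E) - p (ps i) • E) := by module
        rw [this, mul_smul_comm, smul_mul_assoc, smul_comm]
      · simp
    simp only [this]
    rw [sum_comm, smul_sum, ← sum_add_distrib]
    refine sum_congr rfl fun ω _ => ?_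
    rw [smul_comm t, ← smul_sum, ← smul_add, ← sum_mul, ← mul_sum, ← smul_mul_assoc,
      ← mul_smul_comm, ← add_mul, ← mul_add]
    congr 3
    simp only [hX, sum_add_distrib, add_smul, sum_smul]
    abel
  rw [e1]
  have j1 := pow_le_pow_left₀ (nrm_nn _) (nrm_avg hρ hL hR X) 2
  have j2 := Real.pow_arith_mean_le_arith_mean_pow univ ρ (fun ω => nrm (X ω)) (fun ω _ => hρ ω)
    hρ1 (fun ω _ => nrm_nn _) 2
  refine j1.trans (j2.trans ?_)
  have j3 : ∑ ω, ρ ω * nrm (X ω) ^ 2 ≤ ∑ ω, ρ ω * (∑ i, ∑ j, (a' i * F (ps i) ω) *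
      (a' j * F (ps j) ω) * ψ (ps i - ps j) +
        (t + ∑ i, a' i * p (ps i) * (F (ps i) ω - 1)) ^ 2) :=
    sum_le_sum fun ω _ => mul_le_mul_of_nonneg_left
      (h ι _ ps _ fun i => mul_nonneg (ha0 i) (hF _ _)) (hρ ω)
  refine j3.trans ?_
  set G : ι → ι → ℝ := fun i j => ∑ ω, ρ ω * (F (ps i) ω * F (ps j) ω) with hG
  have e2 : ∑ ω, ρ ω * (∑ i, ∑ j, (a' i * F (ps i) ω) *
      (a' j * F (ps j) ω) * ψ (ps i - ps j) +
        (t + ∑ i, a' i * p (ps i) * (F (ps i) ω - 1)) ^ 2) =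
      ∑ i, ∑ j, a' i * a' j * (ψ (ps i - ps j) * G i j + p (ps i) * p (ps j) * (G i j - 1)) +
        t ^ 2 := by
    have s1 : ∀ ω, ρ ω * (∑ i, ∑ j, (a' i * F (ps i) ω) *
      (a' j * F (ps j) ω) * ψ (ps i - ps j) +
        (t + ∑ i, a' i * p (ps i) * (F (ps i) ω - 1)) ^ 2) =
        ∑ i, ∑ j, a' i * a' j * (ψ (ps i - ps j) * (ρ ω * (F (ps i) ω * F (ps j) ω)) +
          p (ps i) * p (ps j) * (ρ ω * (F (ps i) ω * F (ps j) ω) - ρ ω * F (ps i) ω -
            ρ ω * F (ps j) ω + ρ ω)) + t ^ 2 * ρ ω +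
          ∑ i, 2 * t * a' i * p (ps i) * (ρ ω * F (ps i) ω - ρ ω) := by
      intro ω
      rw [add_sq, sq (∑ i, _), sum_mul_sum]
      simp only [mul_add, mul_sum, sum_add_distrib]
      have r1 : ∀ i j, ρ ω * (a' i * F (ps i) ω * (a' j * F (ps j) ω) * ψ (ps i - ps j)) =
        a' i * a' j * (ψ (ps i - ps j) * (ρ ω * (F (ps i) ω * F (ps j) ω))) := fun i j => by ring
      have r2 : ∀ i, ρ ω * (2 * t * (a' i * p (ps i) * (F (ps i) ω - 1))) =
        2 * t * a' i * p (ps i) * (ρ ω * F (ps i) ω - ρ ω) := fun i => by ring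
      have r3 : ∀ i j, ρ ω * (a' i * p (ps i) * (F (ps i) ω - 1) *
          (a' j * p (ps j) * (F (ps j) ω - 1))) =
        a' i * a' j * (p (ps i) * p (ps j) * (ρ ω * (F (ps i) ω * F (ps j) ω) - ρ ω * F (ps i) ω -
            ρ ω * F (ps j) ω)) + a' i * a' j * (p (ps i) * p (ps j) * ρ ω) := fun i j => by ring
      simp only [r1, r2, r3, sum_add_distrib]
      ring
    simp only [s1, sum_add_distrib]
    rw [sum_comm, sum_comm (s := univ) (t := univ)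
      (f := fun ω i => 2 * t * a' i * p (ps i) * (ρ ω * F (ps i) ω - ρ ω))]
    simp only [← mul_sum, sum_sub_distrib, hF1, hρ1, sub_self, mul_zero, sum_const_zero,
      add_zero, mul_one]
    congr 1
    refine sum_congr rfl fun i _ => ?_
    rw [sum_comm]
    refine sum_congr rfl fun j _ => ?_
    simp only [← mul_sum, sum_add_distrib, sum_sub_distrib, hF1, hρ1, hG]
    ring
  rw [e2]
  refine add_le_add (sum_le_sum fun i _ => sum_le_sum fun j _ => ?_) le_rfl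
  have hd := dz_nn (ps i - ps j)
  have hψ' := hψ (ps i - ps j)
  have hnn : 0 ≤ (ψ + (l * (ψ 0 + 1)) • dz) (ps i - ps j) := by
    have := hψ 0
    simp only [Pi.add_apply, Pi.smul_apply, smul_eq_mul]; positivity
  by_cases ci : χ (ps i)
  swap
  · have : a' i = 0 := if_neg ci
    rw [this, zero_mul, zero_mul]; exact mul_nonneg (mul_nonneg (ha i) (ha j)) hnn
  by_cases cj : χ (ps j)
  swap
  · have : a' j = 0 := if_neg cj
    rw [this, mul_zero, zero_mul]; exact mul_nonneg (mul_nonneg (ha i) (ha j)) hnn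
  have ei : a' i = a i := if_pos ci
  have ej : a' j = a j := if_pos cj
  rw [ei, ej]
  refine mul_le_mul_of_nonneg_left ?_ (mul_nonneg (ha i) (ha j))
  have g1 : G i j ≤ 1 + l * dz (ps i - ps j) := hF2 _ _ ci cj
  have g2 : p (ps i) * p (ps j) ≤ 1 := mul_le_one₀ (hp _).2 (hp _).1 (hp _).2
  have g3 : 0 ≤ p (ps i) * p (ps j) := mul_nonneg (hp _).1 (hp _).1
  have g4 : ψ (ps i - ps j) * dz (ps i - ps j) = ψ 0 * dz (ps i - ps j) := by
    unfold dz; split_ifs with hh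
    · rw [hh]
    · simp
  have g5 := mul_le_mul_of_nonneg_left g1 hψ'
  have g6 := mul_le_mul_of_nonneg_left (sub_le_iff_le_add'.2 g1) g3
  have g7 := mul_le_mul_of_nonneg_right g2 (mul_nonneg hl hd)
  simp only [Pi.add_apply, Pi.smul_apply, smul_eq_mul]
  nlinarith

end Vale.Agent.P321
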