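import Vale.Agent.P321.Rep
import Vale.Agent.P321.Bin

/- The mixing rate lemma. -/

namespace Vale.Agent.P321

open Finset

variable {M : Type} [Monoid M]

lemma half_pow (U : A M) : ∀ k : ℕ,
    ((1 / 2 : ℝ) • (1 + U)) ^ k = ∑ τ ∈ range (k + 1), bk k 0 τ • U ^ τ
  | 0 => by simp [bk_zero_left]
  | k + 1 => by
    rw [pow_succ, half_pow U k, sum_bk_succ (by omega), mul_smul_comm, mul_add, mul_one, sum_mul]
    simp only [smul_mul_assoc, pow_succ]

lemma grad_nrm {U : A M} (hU : Prob U) (k : ℕ) :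
    nrm (((1 / 2 : ℝ) • (1 + U)) ^ k * (1 - U)) ≤ 2 / √((k : ℝ) + 1) := by
  have e : ((1 / 2 : ℝ) • (1 + U)) ^ k * (1 - U) =
      ∑ τ ∈ range (k + 2), (bk k 0 τ - bk k (0 + 1) τ) • U ^ τ := by
    simp only [sub_smul, sum_sub_distrib]
    rw [sum_bk_ext (by omega), sum_bk_shift, half_pow, mul_sub, mul_one, sum_mul]
    simp only [smul_mul_assoc, pow_succ]
  rw [e]
  refine (nrm_sum _ _).trans (le_trans (sum_le_sum fun τ _ => ?_)
    (sum_abs_grad (k := k) (r := 0) (n := k) (by omega)))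
  exact (nrm_smul _ _).trans (mul_le_of_le_one_right (abs_nonneg _) (hU.pow τ).nrm_le)

lemma rate {U : A M} (hU : Prob U) {j : ℕ} {κ : ℝ} (h : Ov (U ^ j) (U ^ (j + 1)) κ)
    (h0 : 0 ≤ κ) (h1 : κ ≤ 1) (n : ℕ) :
    nrm (U ^ (n * (j + 1)) * (1 - U)) ≤ 2 / √(1 + κ * n / 2) := by
  obtain ⟨C, hC, c1, c2, hm⟩ := h
  set H : A M := (1 / 2 : ℝ) • (1 + U) with hH
  have hc : Commute H U := by
    rw [hH]
    exact (Commute.add_left (Commute.one_left U) (Commute.refl U)).smul_left _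
  have := supersol h0 h1 (by norm_num : (0 : ℝ) ≤ 2)
    (fun n k => nrm (U ^ (n * (j + 1)) * (H ^ k * (1 - U)))) 
    (fun k => by rw [zero_mul, pow_zero, one_mul]; exact grad_nrm hU k)
    (fun n k => ?_) n 0
  · simpa using this
  · set Z := U ^ (n * (j + 1)) * (H ^ k * (1 - U)) with hZ
    have e1 : U ^ (n * (j + 1)) * (H ^ (k + 1) * (1 - U)) = H * Z := by
      rw [hZ, ← mul_assoc H, (hc.pow_right _).eq, pow_succ', mul_assoc, mul_assoc]
    have e2 : U ^ ((n + 1) * (j + 1)) * (H ^ k * (1 - U)) =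
        C * (H * Z) * 1 + (1 / 2 : ℝ) • ((U ^ j - C) * (U * Z) * 1 + (U ^ (j + 1) - C) * Z * 1) := by
      rw [show (n + 1) * (j + 1) = (j + 1) + n * (j + 1) by ring, pow_add, mul_assoc, ← hZ, hH,
        smul_mul_assoc, mul_smul_comm, smul_mul_assoc, ← smul_add]
      have : C * ((1 + U) * Z) * 1 + ((U ^ j - C) * (U * Z) * 1 + (U ^ (j + 1) - C) * Z * 1) =
          (2 : ℝ) • (U ^ (j + 1) * Z) := by
        rw [two_smul, pow_succ]; noncomm_ring
      rw [this, smul_smul]; norm_num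
    rw [e1, e2]
    have b0 := nrm_mul_mul hC zero_le_one (H * Z)
    have b1 := nrm_mul_mul (sub_nonneg.2 c1) zero_le_one (U * Z)
    have b2 := nrm_mul_mul (sub_nonneg.2 c2) zero_le_one Z
    have b3 := nrm_left hU Z
    simp only [map_sub, hm, (hU.pow _).one, map_one, mul_one (1 - κ), mul_one κ] at b0 b1 b2
    have b4 := mul_le_mul_of_nonneg_left b3 (sub_nonneg.2 h1)
    have a1 := nrm_smul (1 / 2 : ℝ) ((U ^ j - C) * (U * Z) * 1 + (U ^ (j + 1) - C) * Z * 1)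
    rw [abs_of_pos (by norm_num)] at a1
    have a2 := nrm_add ((U ^ j - C) * (U * Z) * 1) ((U ^ (j + 1) - C) * Z * 1)
    refine (nrm_add _ _).trans ?_
    linarith

lemma nrm_pow_sub {U : A M} (hU : Prob U) {N₀ : ℕ} {a : ℝ} (h : nrm (U ^ N₀ * (1 - U)) ≤ a)
    {N : ℕ} (hN : N₀ ≤ N) : ∀ d : ℕ, nrm (U ^ N - U ^ (N + d)) ≤ d * a
  | 0 => by simp [nrm_zero]
  | d + 1 => by
    have h1 := nrm_pow_sub hU h hN d
    obtain ⟨e, rfl⟩ := Nat.exists_eq_add_of_le hN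
    have h2 : U ^ (N₀ + e + d) - U ^ (N₀ + e + (d + 1)) = U ^ (e + d) * (U ^ N₀ * (1 - U)) := by
      rw [← mul_assoc, ← pow_add, mul_sub, mul_one, ← pow_succ]
      congr 2 <;> ring
    have h3 := (nrm_left (hU.pow (e + d)) _).trans h
    rw [← h2] at h3
    refine (nrm_sub_le _ (U ^ (N₀ + e + d)) _).trans ?_
    push_cast; linarith

/-- the rate for a mixing element -/
lemma Mix.rate {U : A M} (hU : Prob U) {J : ℕ} (h : Mix U J) {n : ℕ} {a : ℝ} (ha : 0 < a)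
    (hn : 16 ≤ a ^ 2 * n) : nrm (U ^ (n * (J + 1)) * (1 - U)) ≤ a := by
  refine (Vale.Agent.P321.rate hU h (by norm_num) (by norm_num) n).trans ?_
  have hp : (0 : ℝ) < 1 + 1 / 2 * n / 2 := by positivity
  rw [div_le_iff₀ (Real.sqrt_pos.2 hp)]
  refine abs_le_of_sq_le_sq' ?_ (by positivity) |>.2
  rw [mul_pow, Real.sq_sqrt hp.le]
  nlinarith [sq_nonneg a]

lemma mix_of_ov {U : A M} (hU : Prob U) {j n : ℕ} {κ : ℝ} (h : Ov (U ^ j) (U ^ (j + 1)) κ)
    (h0 : 0 ≤ κ) (h1 : κ ≤ 1) (hn : 6 ≤ κ * n) : Mix U (n * (j + 1)) := by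
  refine ov_of_nrm (hU.pow _) (hU.pow _) ?_
  have := rate hU h h0 h1 n
  rw [mul_sub, mul_one, ← pow_succ] at this
  refine this.trans ?_
  have hp : (0 : ℝ) < 1 + κ * n / 2 := by positivity
  rw [div_le_one (Real.sqrt_pos.2 hp)]
  exact Real.le_sqrt_of_sq_le (by linarith)

/-- mixing of a power -/
lemma Mix.pow {U : A M} (hU : Prob U) {J : ℕ} (h : Mix U J) {w : ℕ} (hw : 0 < w) :
    Mix (U ^ w) (16 * w * (J + 1)) := by
  refine ov_of_nrm ((hU.pow w).pow _) ((hU.pow w).pow _) ?_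
  have hw' : (0 : ℝ) < w := by exact_mod_cast hw
  have h1 := h.rate hU (n := 16 * w ^ 2) (a := 1 / w) (by positivity)
    (by push_cast; field_simp; norm_num)
  have h2 := nrm_pow_sub hU h1 (N := w * (16 * w * (J + 1))) (le_of_eq (by ring)) w
  rw [← pow_mul, ← pow_mul, mul_add w _ 1, mul_one]
  refine h2.trans (le_of_eq ?_)
  field_simp

end Vale.Agent.P321
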