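import Vale.Agent.P321.Alg

/- Finite random representations of elements of the algebra, products and Hoeffding. -/

namespace Vale.Agent.P321

open Finset

set_option linter.unusedSectionVars false

variable {M : Type} [Monoid M] {S : Type} [Fintype S]

structure IsRep (μ : S → ℝ) (φ : S → A M) : Prop where
  nn : ∀ s, 0 ≤ μ s
  sum : ∑ s, μ s = 1
  prob : ∀ s, Prob (φ s)

noncomputable def ev (μ : S → ℝ) (φ : S → A M) (g : S → ℝ) : A M := ∑ s, (μ s * g s) • φ s

variable {μ : S → ℝ} {φ : S → A M}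

lemma ev_add (g g' : S → ℝ) : ev μ φ (fun s => g s + g' s) = ev μ φ g + ev μ φ g' := by
  simp [ev, mul_add, add_smul, Finset.sum_add_distrib]

lemma ev_sub (g g' : S → ℝ) : ev μ φ (fun s => g s - g' s) = ev μ φ g - ev μ φ g' := by
  simp [ev, mul_sub, sub_smul, Finset.sum_sub_distrib]

lemma ev_smul (c : ℝ) (g : S → ℝ) : ev μ φ (fun s => c * g s) = c • ev μ φ g := by
  simp only [ev, Finset.smul_sum, smul_smul]
  exact Finset.sum_congr rfl fun s _ => by ring_nf

lemma ev_neg (g : S → ℝ) : ev μ φ (fun s => -g s) = -ev μ φ g := by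
  simp [ev]

lemma ev_sum {ι : Type*} (t : Finset ι) (g : ι → S → ℝ) :
    ev μ φ (fun s => ∑ i ∈ t, g i s) = ∑ i ∈ t, ev μ φ (g i) := by
  simp only [ev, Finset.mul_sum, Finset.sum_smul]
  exact Finset.sum_comm

lemma IsRep.mass_ev (h : IsRep μ φ) (g : S → ℝ) : mass (ev μ φ g) = ∑ s, μ s * g s := by
  simp [ev, map_sum, (h.prob _).one]

lemma IsRep.ev_mono (h : IsRep μ φ) {g g' : S → ℝ} (hg : ∀ s, g s ≤ g' s) :
    ev μ φ g ≤ ev μ φ g' :=
  Finset.sum_le_sum fun s _ =>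
    smul_le_smul_of_nonneg_right (mul_le_mul_of_nonneg_left (hg s) (h.nn s)) (h.prob s).nn

lemma IsRep.ev_nn (h : IsRep μ φ) {g : S → ℝ} (hg : ∀ s, 0 ≤ g s) : 0 ≤ ev μ φ g :=
  Finset.sum_nonneg fun s _ => smul_nonneg (mul_nonneg (h.nn s) (hg s)) (h.prob s).nn

lemma IsRep.prob_ev (h : IsRep μ φ) : Prob (ev μ φ fun _ => 1) :=
  ⟨h.ev_nn fun _ => zero_le_one, by simp [h.mass_ev, h.sum]⟩

lemma IsRep.dom_ev (h : IsRep μ φ) {g f : S → ℝ} {c : ℝ} (hg : ∀ s, |g s| ≤ c * f s) :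
    Dom (ev μ φ g) c (ev μ φ f) := by
  constructor
  · rw [← ev_smul]; exact h.ev_mono fun s => (abs_le.1 (hg s)).2
  · rw [← ev_smul, ← ev_neg]; exact h.ev_mono fun s => by linarith [(abs_le.1 (hg s)).1]

lemma Np_avg {ρ : S → ℝ} (hρ : ∀ s, 0 ≤ ρ s) {L R : S → A M} (hL : ∀ s, Prob (L s))
    (hR : ∀ s, Prob (R s)) (X : S → A M) :
    Np (∑ s, ρ s • (L s * X s * R s)) ≤ ∑ s, ρ s * Np (X s) :=
  (Np_sum _ _).trans (Finset.sum_le_sum fun s _ => (Np_smul (hρ s) _).trans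
    (mul_le_mul_of_nonneg_left (Np_sw (hL s) (hR s) _) (hρ s)))

lemma nrm_avg {ρ : S → ℝ} (hρ : ∀ s, 0 ≤ ρ s) {L R : S → A M} (hL : ∀ s, Prob (L s))
    (hR : ∀ s, Prob (R s)) (X : S → A M) :
    nrm (∑ s, ρ s • (L s * X s * R s)) ≤ ∑ s, ρ s * nrm (X s) :=
  (nrm_sum _ _).trans (Finset.sum_le_sum fun s _ => (nrm_smul _ _).trans (by
    rw [abs_of_nonneg (hρ s)]
    exact mul_le_mul_of_nonneg_left (nrm_sw (hL s) (hR s) _) (hρ s)))

/-- product weight -/
def pw (μ : S → ℝ) (n : ℕ) (ω : Fin n → S) : ℝ := ∏ i, μ (ω i)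

/-- ordered product of blocks -/
noncomputable def pφ (φ : S → A M) (n : ℕ) (ω : Fin n → S) : A M :=
  (List.ofFn fun i => φ (ω i)).prod

lemma ofFn_sum_prod {R : Type*} [Semiring R] : ∀ (n : ℕ) (X : Fin n → S → R),
    (List.ofFn fun i => ∑ s, X i s).prod = ∑ ω : Fin n → S, (List.ofFn fun i => X i (ω i)).prod
  | 0, X => by simp
  | n + 1, X => by
    rw [List.ofFn_succ, List.prod_cons, ofFn_sum_prod n (fun i => X i.succ),
      ← (Fin.consEquiv fun _ : Fin (n + 1) => S).sum_comp, Fintype.sum_prod_type,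
      Finset.sum_mul_sum]
    refine Finset.sum_congr rfl fun s _ => Finset.sum_congr rfl fun ω _ => ?_
    rw [List.ofFn_succ, List.prod_cons]
    simp [Fin.consEquiv]

lemma ofFn_smul_prod : ∀ (n : ℕ) (c : Fin n → ℝ) (Y : Fin n → A M),
    (List.ofFn fun i => c i • Y i).prod = (∏ i, c i) • (List.ofFn Y).prod
  | 0, c, Y => by simp
  | n + 1, c, Y => by
    rw [List.ofFn_succ, List.prod_cons, ofFn_smul_prod n (fun i => c i.succ) (fun i => Y i.succ),
      List.ofFn_succ, List.prod_cons, Fin.prod_univ_succ, smul_mul_smul_comm]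

lemma ev_prod (n : ℕ) (g : Fin n → S → ℝ) :
    ev (pw μ n) (pφ φ n) (fun ω => ∏ i, g i (ω i)) = (List.ofFn fun i => ev μ φ (g i)).prod := by
  unfold ev
  rw [ofFn_sum_prod]
  refine Finset.sum_congr rfl fun ω _ => ?_
  rw [ofFn_smul_prod, pw, pφ, Finset.prod_mul_distrib]

lemma exp_prod (μ : S → ℝ) (n : ℕ) (g : Fin n → S → ℝ) :
    ∑ ω : Fin n → S, pw μ n ω * ∏ i, g i (ω i) = ∏ i, ∑ s, μ s * g i s := by
  classical
  rw [Finset.prod_univ_sum, Fintype.piFinset_univ]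
  refine Finset.sum_congr rfl fun ω _ => ?_
  rw [pw, Finset.prod_mul_distrib]

lemma pw_nn (h : ∀ s, 0 ≤ μ s) (n : ℕ) (ω : Fin n → S) : 0 ≤ pw μ n ω :=
  Finset.prod_nonneg fun _ _ => h _

lemma pw_sum (h : ∑ s, μ s = 1) (n : ℕ) : ∑ ω, pw μ n ω = 1 := by
  simpa [h] using exp_prod μ n fun _ _ => 1

lemma prob_ofFn {n : ℕ} {Y : Fin n → A M} (h : ∀ i, Prob (Y i)) : Prob (List.ofFn Y).prod :=
  prob_list _ fun X hX => by
    obtain ⟨i, rfl⟩ := (List.mem_ofFn' _ _).1 hX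
    exact h i

lemma IsRep.pow (h : IsRep μ φ) (n : ℕ) : IsRep (pw μ n) (pφ φ n) :=
  ⟨pw_nn h.nn n, pw_sum h.sum n, fun _ => prob_ofFn fun _ => h.prob _⟩

lemma ofFn_const_prod {R : Type*} [Monoid R] (n : ℕ) (U : R) :
    (List.ofFn fun _ : Fin n => U).prod = U ^ n := by
  rw [List.ofFn_const, List.prod_replicate]

lemma ofFn_ite_prod {R : Type*} [Monoid R] (U W : R) : ∀ (n k : ℕ), k < n →
    (List.ofFn fun i : Fin n => if (i : ℕ) = k then W else U).prod = U ^ k * W * U ^ (n - 1 - k)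
  | 0, k, h => absurd h (by omega)
  | n + 1, 0, _ => by
    rw [List.ofFn_succ, List.prod_cons]
    simp
  | n + 1, k + 1, h => by
    rw [List.ofFn_succ, List.prod_cons]
    have := ofFn_ite_prod U W n k (by omega)
    simp only [Fin.val_succ, Nat.add_right_cancel_iff, this]
    simp only [Fin.val_zero, Nat.zero_ne_add_one, if_false]
    rw [show n + 1 - 1 - (k + 1) = n - 1 - k by omega, pow_succ', mul_assoc, mul_assoc, mul_assoc]

lemma ev_pow_one (n : ℕ) :
    ev (pw μ n) (pφ φ n) (fun _ => 1) = (ev μ φ fun _ => 1) ^ n := by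
  have := ev_prod (μ := μ) (φ := φ) n fun _ _ => 1
  simpa [ofFn_const_prod] using this

/-- density of a single marked block -/
noncomputable def atf (f : S → ℝ) (n k : ℕ) (ω : Fin n → S) : ℝ :=
  ∏ i : Fin n, if (i : ℕ) = k then f (ω i) else 1

lemma atf_eq (f : S → ℝ) {n : ℕ} (k : Fin n) (ω : Fin n → S) : atf f n k ω = f (ω k) := by
  unfold atf
  rw [Finset.prod_eq_single k]
  · simp
  · intro i _ hi; rw [if_neg]; exact fun h => hi (Fin.ext h)
  · simp

lemma atf_of_le (f : S → ℝ) {n k : ℕ} (h : n ≤ k) (ω : Fin n → S) : atf f n k ω = 1 :=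
  Finset.prod_eq_one fun i _ => if_neg (by have := i.2; omega)

lemma atf_mem {f : S → ℝ} {a b : ℝ} (hf : ∀ s, a ≤ f s ∧ f s ≤ b) (ha : a ≤ 1) (hb : 1 ≤ b)
    (n k : ℕ) (ω : Fin n → S) : a ≤ atf f n k ω ∧ atf f n k ω ≤ b := by
  by_cases h : k < n
  · have := atf_eq f ⟨k, h⟩ ω
    simp only at this
    rw [this]; exact hf _
  · rw [atf_of_le f (by omega)]; exact ⟨ha, hb⟩

lemma atf_nn {f : S → ℝ} (hf : ∀ s, 0 ≤ f s) (n k : ℕ) (ω : Fin n → S) : 0 ≤ atf f n k ω :=
  Finset.prod_nonneg fun i _ => by split_ifs; exacts [hf _, zero_le_one]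

lemma ev_atf (f : S → ℝ) {n k : ℕ} (h : k < n) :
    ev (pw μ n) (pφ φ n) (atf f n k) =
      (ev μ φ fun _ => 1) ^ k * ev μ φ f * (ev μ φ fun _ => 1) ^ (n - 1 - k) := by
  have := ev_prod (μ := μ) (φ := φ) n fun i s => if (i : ℕ) = k then f s else 1
  rw [← ofFn_ite_prod _ _ n k h]
  refine Eq.trans rfl (this.trans ?_)
  congr 2
  funext i
  split_ifs <;> rfl

lemma exp_atf (hμ : ∑ s, μ s = 1) {f : S → ℝ} (hf : ∑ s, μ s * f s = 1) (n k : ℕ) :
    ∑ ω, pw μ n ω * atf f n k ω = 1 := by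
  have := exp_prod μ n fun i s => if (i : ℕ) = k then f s else 1
  refine Eq.trans rfl (this.trans (Finset.prod_eq_one fun i _ => ?_))
  split_ifs
  · exact hf
  · simpa using hμ

lemma exp_atf2 (hμ : ∑ s, μ s = 1) {f : S → ℝ} (hf : ∑ s, μ s * f s = 1) {Λ : ℝ}
    (hΛ : ∑ s, μ s * f s ^ 2 ≤ Λ) (h1 : 1 ≤ Λ) (n k k' : ℕ) :
    ∑ ω, pw μ n ω * (atf f n k ω * atf f n k' ω) ≤ if k = k' then Λ else 1 := by
  have := exp_prod μ n fun i s =>
    (if (i : ℕ) = k then f s else 1) * (if (i : ℕ) = k' then f s else 1)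
  simp only [Finset.prod_mul_distrib] at this
  refine le_trans (le_of_eq this) ?_
  split_ifs with h
  · subst h
    by_cases hk : k < n
    · rw [Finset.prod_eq_single ⟨k, hk⟩]
      · simpa [sq] using hΛ
      · intro i _ hi
        have : (i : ℕ) ≠ k := fun h => hi (Fin.ext h)
        simpa [this] using hμ
      · simp
    · rw [Finset.prod_eq_one]
      · exact h1
      · intro i _
        have : (i : ℕ) ≠ k := by have := i.2; omega
        simpa [this] using hμ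
  · refine le_of_eq (Finset.prod_eq_one fun i _ => ?_)
    by_cases a : (i : ℕ) = k
    · have b : (i : ℕ) ≠ k' := fun b => h (a.symm.trans b)
      simpa only [if_pos a, if_neg b, mul_one] using hf
    · by_cases b : (i : ℕ) = k'
      · simpa only [if_neg a, if_pos b, one_mul] using hf
      · simpa only [if_neg a, if_neg b, mul_one] using hμ

/-- every probability element has a canonical representation carrying all dominated elements -/
lemma exists_rep {U : A M} (hU : Prob U) : ∃ (S : Type) (_ : Fintype S) (μ : S → ℝ)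
    (φ : S → A M), IsRep μ φ ∧ ev μ φ (fun _ => 1) = U ∧
      ∀ (Y : A M) (c : ℝ), Dom Y c U → ∃ g : S → ℝ, ev μ φ g = Y ∧ (∀ s, |g s| ≤ c) ∧
        (0 ≤ U + Y → ∀ s, 0 ≤ 1 + g s) := by
  classical
  have key : ∀ (Y : A M), (∀ m, U.coeff m = 0 → Y.coeff m = 0) →
      ev (fun s : U.coeff.support => U.coeff s) (fun s => MonoidAlgebra.single (s : M) (1 : ℝ))
        (fun s => Y.coeff s / U.coeff s) = Y := by
    intro Y hY
    unfold ev
    rw [Finset.sum_coe_sort U.coeff.support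
      (fun m => (U.coeff m * (Y.coeff m / U.coeff m)) • MonoidAlgebra.single m (1 : ℝ))]
    conv_rhs => rw [← MonoidAlgebra.sum_coeff_single Y, Finsupp.sum_of_support_subset _
      (s := U.coeff.support) (fun m hm => by
        rw [Finsupp.mem_support_iff] at hm ⊢
        exact fun h => hm (hY m h)) _ (by simp)]
    refine Finset.sum_congr rfl fun m hm => ?_
    rw [Finsupp.mem_support_iff] at hm
    rw [MonoidAlgebra.smul_single, smul_eq_mul, mul_one, mul_div_cancel₀ _ hm]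
  have hpos : ∀ s : U.coeff.support, 0 < U.coeff s := fun s =>
    lt_of_le_of_ne (hU.nn s) (Finsupp.mem_support_iff.1 s.2).symm
  refine ⟨U.coeff.support, inferInstance, fun s => U.coeff s,
    fun s => MonoidAlgebra.single (s : M) (1 : ℝ), ⟨fun s => hU.nn s, ?_, fun s => prob_single _⟩,
    ?_, fun Y c hY => ⟨fun s => Y.coeff s / U.coeff s, key Y fun m hm => ?_, fun s => ?_,
      fun h s => ?_⟩⟩
  · rw [Finset.sum_coe_sort U.coeff.support (fun m => U.coeff m), ← mass_eq, hU.one]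
  · have := key U fun _ h => h
    refine Eq.trans ?_ this
    congr 1
    funext s
    rw [div_self (hpos s).ne']
  · have h1 := hY.le m
    have h2 := hY.ge m
    simp only [MonoidAlgebra.coeff_neg, Finsupp.neg_apply, MonoidAlgebra.coeff_smul,
      Finsupp.smul_apply, smul_eq_mul, hm] at h1 h2
    linarith
  · have h1 := hY.le s
    have h2 := hY.ge s
    simp only [MonoidAlgebra.coeff_neg, Finsupp.neg_apply, MonoidAlgebra.coeff_smul,
      Finsupp.smul_apply, smul_eq_mul] at h1 h2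
    rw [abs_div, abs_of_pos (hpos s), div_le_iff₀ (hpos s), abs_le]
    constructor <;> linarith
  · have h1 := h s
    simp only [MonoidAlgebra.coeff_add, Finsupp.add_apply, MonoidAlgebra.coeff_zero,
      Finsupp.zero_apply] at h1
    rw [← div_self (hpos s).ne', ← add_div]
    exact div_nonneg h1 (hpos s).le

lemma mgf_one (hn : ∀ s, 0 ≤ μ s) (hμ : ∑ s, μ s = 1) {g : S → ℝ} (hg : ∑ s, μ s * g s = 0)
    {b : ℝ} (hb : 0 < b) (hgb : ∀ s, |g s| ≤ b) (θ : ℝ) :
    ∑ s, μ s * Real.exp (θ * g s) ≤ Real.exp (θ ^ 2 * b ^ 2 / 2) := by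
  have h1 : ∀ s, Real.exp (θ * g s) ≤ Real.cosh (θ * b) + g s / b * Real.sinh (θ * b) := by
    intro s
    have := Real.exp_mul_le_cosh_add_mul_sinh (t := g s / b)
      (by rw [abs_div, abs_of_pos hb, div_le_one hb]; exact hgb s) (θ * b)
    rwa [show g s / b * (θ * b) = θ * g s by field_simp] at this
  calc ∑ s, μ s * Real.exp (θ * g s)
      ≤ ∑ s, μ s * (Real.cosh (θ * b) + g s / b * Real.sinh (θ * b)) :=
        Finset.sum_le_sum fun s _ => mul_le_mul_of_nonneg_left (h1 s) (hn s)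
    _ = (∑ s, μ s) * Real.cosh (θ * b) + (∑ s, μ s * g s) * (Real.sinh (θ * b) / b) := by
        rw [Finset.sum_mul, Finset.sum_mul, ← Finset.sum_add_distrib]
        exact Finset.sum_congr rfl fun s _ => by ring
    _ = Real.cosh (θ * b) := by rw [hμ, hg]; ring
    _ ≤ _ := by
        have := Real.cosh_le_exp_half_sq (θ * b)
        rwa [mul_pow] at this

/-- Hoeffding bound for the positive part -/
lemma centre (hn : ∀ s, 0 ≤ μ s) (hμ : ∑ s, μ s = 1) {g : S → ℝ} (hg : ∑ s, μ s * g s = 0)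
    {b : ℝ} (hb : 0 < b) (hgb : ∀ s, |g s| ≤ b) {n : ℕ} {E : (Fin n → S) → A M}
    (hE : ∀ ω, Prob (E ω)) (κ : Fin n → ℝ) (t : ℝ) {θ : ℝ} (hθ : 0 < θ) :
    Np (ev (pw μ n) E fun ω => ∑ i, κ i * g (ω i) - t) ≤
      Real.exp (θ ^ 2 * b ^ 2 * (∑ i, κ i ^ 2) / 2 - θ * t) / θ := by
  have hr : IsRep (pw μ n) E := ⟨pw_nn hn n, pw_sum hμ n, hE⟩
  have h1 : ∀ ω : Fin n → S, ∑ i, κ i * g (ω i) - t ≤
      Real.exp (-(θ * t)) / θ * ∏ i, Real.exp (θ * κ i * g (ω i)) := by
    intro ω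
    rw [← Real.exp_sum, div_mul_eq_mul_div, ← Real.exp_add, le_div_iff₀ hθ]
    have := Real.add_one_le_exp (-(θ * t) + ∑ i, θ * κ i * g (ω i))
    have e : ∑ i, θ * κ i * g (ω i) = θ * ∑ i, κ i * g (ω i) := by
      rw [Finset.mul_sum]; exact Finset.sum_congr rfl fun i _ => by ring
    rw [e] at this ⊢
    linarith
  refine (Np_le (hr.ev_nn fun ω => ?_) (hr.ev_mono h1)).trans ?_
  · positivity
  rw [hr.mass_ev]
  have e : ∑ ω : Fin n → S, pw μ n ω * (Real.exp (-(θ * t)) / θ *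
      ∏ i, Real.exp (θ * κ i * g (ω i))) =
      Real.exp (-(θ * t)) / θ * ∏ i, ∑ s, μ s * Real.exp (θ * κ i * g s) := by
    rw [← exp_prod μ n fun i s => Real.exp (θ * κ i * g s), Finset.mul_sum]
    exact Finset.sum_congr rfl fun ω _ => by ring
  rw [e]
  have h2 : ∏ i, ∑ s, μ s * Real.exp (θ * κ i * g s) ≤
      ∏ i, Real.exp ((θ * κ i) ^ 2 * b ^ 2 / 2) :=
    Finset.prod_le_prod (fun i _ => Finset.sum_nonneg fun s _ =>
      mul_nonneg (hn s) (Real.exp_pos _).le) fun i _ => mgf_one hn hμ hg hb hgb _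
  refine (mul_le_mul_of_nonneg_left h2 (by positivity)).trans (le_of_eq ?_)
  rw [← Real.exp_sum, div_mul_eq_mul_div, ← Real.exp_add]
  congr 2
  rw [Finset.mul_sum, Finset.sum_div, sub_eq_neg_add]
  congr 1
  exact Finset.sum_congr rfl fun i _ => by ring

end Vale.Agent.P321
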