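import Vale.Agent.P321.Centre

/- The recursive construction: plain step and gain step. -/

namespace Vale.Agent.P321

open Finset

abbrev FM := FreeMonoid Bool

/-- law of the trace of a word, as an element of the monoid algebra -/
noncomputable def PP (q : ℝ) : FM →* A FM :=
  FreeMonoid.lift fun b => q • (1 : A FM) + (1 - q) • MonoidAlgebra.single (FreeMonoid.of b) (1 : ℝ)

lemma PP_of (q : ℝ) (b : Bool) : PP q (FreeMonoid.of b) =
    q • (1 : A FM) + (1 - q) • MonoidAlgebra.single (FreeMonoid.of b) (1 : ℝ) :=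
  FreeMonoid.lift_eval_of _ _

lemma prob_PP {q : ℝ} (h0 : 0 ≤ q) (h1 : q ≤ 1) (u : FM) : Prob (PP q u) := by
  induction u using FreeMonoid.inductionOn' with
  | one => rw [map_one]; exact prob_one
  | of_mul b u ih =>
    rw [map_mul]
    refine Prob.mul ⟨?_, ?_⟩ ih
    · rw [PP_of]
      exact add_nonneg (smul_nonneg h0 zero_le_one) (smul_nonneg (by linarith) (prob_single _).nn)
    · rw [PP_of]; simp [mass_single]

lemma length_pow (u : FM) : ∀ n : ℕ, (u ^ n).length = n * u.length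
  | 0 => by simp
  | n + 1 => by rw [pow_succ, FreeMonoid.length_mul, length_pow u n]; ring

lemma prodT_succ {R : Type} [Monoid R] (t : ℕ → Bool) (n : ℕ) (U V : R) :
    prodT t (n + 1) U V = (if t 0 then V else U) * prodT (fun i => t (i + 1)) n U V := by
  unfold prodT
  rw [List.ofFn_succ, List.prod_cons]
  rfl

lemma length_prodT {u v : FM} (h : v.length = u.length) : ∀ (n : ℕ) (t : ℕ → Bool),
    (prodT t n u v).length = n * u.length
  | 0, t => by simp [prodT]
  | n + 1, t => by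
    rw [prodT_succ, FreeMonoid.length_mul, length_prodT h n]
    split_ifs
    · rw [h]; ring
    · ring

lemma map_prodT {R R' : Type} [Monoid R] [Monoid R'] (F : R →* R') (u v : R) :
    ∀ (n : ℕ) (t : ℕ → Bool), F (prodT t n u v) = prodT t n (F u) (F v)
  | 0, t => by simp [prodT]
  | n + 1, t => by
    rw [prodT_succ, prodT_succ, map_mul, map_prodT F u v n]
    split_ifs <;> rfl

lemma nrm_prodT {M : Type} [Monoid M] {U V U' V' : A M} (hU : Prob U) (hV : Prob V)
    (hU' : Prob U') (hV' : Prob V') {β : ℝ} (h1 : nrm (U - U') ≤ β) (h2 : nrm (V - V') ≤ β) :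
    ∀ (n : ℕ) (t : ℕ → Bool), nrm (prodT t n U V - prodT t n U' V') ≤ n * β
  | 0, t => by simp [prodT, nrm_zero]
  | n + 1, t => by
    rw [prodT_succ, prodT_succ]
    have ih := nrm_prodT hU hV hU' hV' h1 h2 n fun i => t (i + 1)
    have p := prob_prodT hU' hV' (fun i => t (i + 1)) n
    push_cast
    split_ifs
    · linarith [nrm_mul_sub (X' := V') (Y := prodT (fun i => t (i + 1)) n U V) hV p]
    · linarith [nrm_mul_sub (X' := U') (Y := prodT (fun i => t (i + 1)) n U V) hU p]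

lemma nrm_pow_pow {M : Type} [Monoid M] {U U' : A M} (hU : Prob U) (hU' : Prob U') {β : ℝ}
    (h1 : nrm (U - U') ≤ β) (n : ℕ) : nrm (U ^ n - U' ^ n) ≤ n * β := by
  have := nrm_prodT hU hU hU' hU' h1 h1 n fun _ => false
  simpa [prodT, ofFn_const_prod] using this

lemma eq_of_mul_eq {u v x y : FM} (hl : v.length = u.length) (h : u * x = v * y) : u = v := by
  have := congrArg FreeMonoid.toList h
  rw [FreeMonoid.toList_mul, FreeMonoid.toList_mul] at this
  exact FreeMonoid.toList.injective (List.append_inj_left this hl.symm)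

/-- the invariant of the recursion -/
structure St (q : ℝ) (u v : FM) (U D : A FM) (X : ℕ) (δ β : ℝ) : Prop where
  len : v.length = u.length
  ne : u ≠ v
  le : u.length ≤ X
  prob : Prob U
  zero : mass D = 0
  dom : Dom D δ U
  mix : Mix U X
  eu : nrm (PP q u - U) ≤ u.length * β
  ev : nrm (PP q v - (U + D)) ≤ u.length * β

lemma St.pos {q : ℝ} {u v : FM} {U D : A FM} {X : ℕ} {δ β : ℝ} (h : St q u v U D X δ β) :
    1 ≤ u.length := by
  by_contra hc
  have h1 : u.length = 0 := by omega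
  have h2 : v.length = 0 := by rw [h.len, h1]
  rw [FreeMonoid.length_eq_zero] at h1 h2
  exact h.ne (h1.trans h2.symm)

lemma St.mono {q : ℝ} {u v : FM} {U D : A FM} {X X' : ℕ} {δ β δ' β' : ℝ}
    (h : St q u v U D X δ β) (hX : X ≤ X') (hδ : δ ≤ δ') (hβ : β ≤ β') : St q u v U D X' δ' β' :=
  ⟨h.len, h.ne, h.le.trans hX, h.prob, h.zero, h.dom.mono h.prob.nn hδ, h.mix.mono h.prob hX,
    h.eu.trans (by gcongr), h.ev.trans (by gcongr)⟩

lemma St.clamp {q : ℝ} {u v : FM} {U D : A FM} {X : ℕ} {δ β δ' η : ℝ}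
    (h : St q u v U D X δ β) (hδ : 0 ≤ δ') (h1 : Np (D - δ' • U) ≤ η) (h2 : Np (-D - δ' • U) ≤ η) :
    ∃ D', St q u v U D' X (2 * δ') (β + 4 * η) := by
  obtain ⟨D', a1, a2, a3⟩ := Vale.Agent.P321.clamp h.prob hδ h.zero h1 h2
  have hη : 0 ≤ η := (Np_nn _).trans h1
  have hp : (1 : ℝ) ≤ u.length := by exact_mod_cast h.pos
  refine ⟨D', h.len, h.ne, h.le, h.prob, a1, a2, h.mix, h.eu.trans (by nlinarith), ?_⟩
  have := nrm_sub_le (PP q v) (U + D) (U + D')
  rw [add_sub_add_left_eq_sub, nrm_sub_comm D] at this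
  nlinarith [h.ev]

/-- padding length -/
def sOf (w X : ℕ) : ℕ := 4 * 2 * w ^ 3 * (16 * w * (X + 1) + 1)

/-- negligible error -/
noncomputable def eta (K : ℕ) : ℝ := (1 / 2) ^ (K * K)

lemma eta_nn (K : ℕ) : 0 ≤ eta K := by unfold eta; positivity

lemma sq_small {x : ℝ} {c : ℝ} (hx : 0 ≤ x) (hc : 0 ≤ c) (h : x ^ 2 ≤ c ^ 2) : x ≤ c :=
  (abs_le_of_sq_le_sq' h hc).2

lemma plain : ∃ W₀ : ℕ, ∀ (q : ℝ) (u v : FM) (U D : A FM) (X K w : ℕ) (δ β : ℝ),
    0 ≤ q → q ≤ 1 → w = 2 ^ K → W₀ ≤ w → St q u v U D X δ β → 0 ≤ δ →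
    (w : ℝ) ^ 5 * δ ^ 2 * X ≤ 1 →
    St q ((u ^ w) ^ sOf w X * prodT (tmf K) w u v * (u ^ w) ^ sOf w X)
      ((u ^ w) ^ sOf w X * prodT (fun i => !tmf K i) w u v * (u ^ w) ^ sOf w X)
      ((U ^ w) ^ sOf w X * prodT (tmf K) w U (U + D) * (U ^ w) ^ sOf w X)
      ((U ^ w) ^ sOf w X * DT K U D * (U ^ w) ^ sOf w X) (w ^ 7 * X ^ 2)
      (4 * w ^ 2 * δ ^ 2) (β + eta K) := by
  obtain ⟨C, hC⟩ := mixing FM (c₀ := 1 / 2) (by norm_num) (by norm_num) (Q := 2) le_rfl
  refine ⟨10000 * (C + 1), fun q u v U D X K w δ β q0 q1 hw hW h hδ hs => ?_⟩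
  have hX : 1 ≤ X := h.pos.trans h.le
  have hX' : (1 : ℝ) ≤ X := by exact_mod_cast hX
  have hw1 : 10000 ≤ w := by omega
  have hw' : (10000 : ℝ) ≤ w := by exact_mod_cast hw1
  have hw0 : (0 : ℝ) < w := by linarith
  have b1 : (w : ℝ) ^ 3 * δ ^ 2 * X * 10000 ^ 2 ≤ 1 := by
    have : (w : ℝ) ^ 3 * δ ^ 2 * X * 10000 ^ 2 ≤ w ^ 3 * δ ^ 2 * X * w ^ 2 := by gcongr
    linarith
  have b2 : w * δ ≤ 1 / 4 := by
    refine sq_small (by positivity) (by norm_num) ?_
    have : (w * δ) ^ 2 * 1 * 1 ≤ (w * δ) ^ 2 * w * X := by gcongr; linarith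
    nlinarith
  have b3 : δ ≤ 1 := by nlinarith
  have pU := h.prob
  have pV := h.dom.prob_add pU b3 h.zero
  have pT := pU.pow w
  set s := sOf w X with hsd
  have pS := pT.pow s
  have pW := prob_prodT pU pV (tmf K) w
  have d1 := (tm_dom pU h.dom hδ (n := w) (by linarith) (tmf K)).1
  have d2 : Dom (DT K U D) (2 * (w * δ) ^ 2) (U ^ w) := by
    have := dom_DT pU h.dom hδ (K := K) (by rw [← hw]; linarith)
    rwa [← hw] at this
  have hhalf : (1 / 2 : ℝ) • U ^ w ≤ prodT (tmf K) w U (U + D) := by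
    have := (d1.mono pT.nn (δ' := 1 / 2) (by linarith)).ge
    rw [neg_sub, sub_le_iff_le_add] at this
    have e : U ^ w = (1 / 2 : ℝ) • U ^ w + (1 / 2 : ℝ) • U ^ w := by rw [← add_smul]; norm_num
    rw [e] at this
    conv_rhs at this => rw [← e]
    exact le_of_add_le_add_left this
  have hJ : 16 * w * (X + 1) + 1 ≤ 33 * w * X := by nlinarith
  have hs1 : s ≤ 264 * w ^ 4 * X := by
    calc s ≤ 4 * 2 * w ^ 3 * (33 * w * X) := Nat.mul_le_mul_left _ hJ
      _ = _ := by ring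
  have lu : ((u ^ w) ^ s * prodT (tmf K) w u v * (u ^ w) ^ s).length = (2 * s + 1) * w * u.length := by
    simp only [FreeMonoid.length_mul, length_pow, length_prodT h.len]; ring
  have eP : ∀ t, nrm (PP q ((u ^ w) ^ s * prodT t w u v * (u ^ w) ^ s) -
      (U ^ w) ^ s * prodT t w U (U + D) * (U ^ w) ^ s) ≤
      ((2 * s + 1) * w * u.length : ℕ) * β := by
    intro t
    have p1 := prob_PP q0 q1 u
    have p2 := prob_PP q0 q1 v
    have a1 := nrm_pow_pow (p1.pow w) pT (nrm_pow_pow p1 pU h.eu w) s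
    have a2 := nrm_prodT p1 p2 pU pV h.eu h.ev w t
    simp only [map_mul, map_pow, map_prodT]
    have a3 := nrm_mul_sub (X' := (U ^ w) ^ s) (Y := prodT t w (PP q u) (PP q v))
      ((p1.pow w).pow s) (prob_prodT pU pV t w)
    have a4 := nrm_mul_sub (X' := (U ^ w) ^ s * prodT t w U (U + D)) (Y := (PP q u ^ w) ^ s)
      (((p1.pow w).pow s).mul (prob_prodT p1 p2 t w)) pS
    push_cast
    linarith
  have hpos := h.pos
  have hl1 : (1 : ℝ) ≤ ((2 * s + 1) * w * u.length : ℕ) := by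
    have : 0 < (2 * s + 1) * w * u.length := by positivity
    exact_mod_cast this
  refine ⟨?_, ?_, ?_, (pS.mul pW).mul pS, ?_, ?_, ?_, ?_, ?_⟩
  · simp only [FreeMonoid.length_mul, length_prodT h.len]
  · intro he
    have he := mul_left_cancel (mul_right_cancel he)
    obtain ⟨w', hw'⟩ : ∃ w', w = w' + 1 := ⟨w - 1, by omega⟩
    rw [hw', prodT_succ, prodT_succ, tmf_zero] at he
    exact h.ne (eq_of_mul_eq h.len he)
  · rw [lu]
    have := h.le
    calc (2 * s + 1) * w * u.length ≤ (w * (w ^ 4 * X)) * w * X := by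
          gcongr
          have : 1 ≤ w ^ 4 * X := Nat.succ_le_of_lt (by positivity)
          nlinarith
      _ = w ^ 6 * X ^ 2 * 1 := by ring
      _ ≤ w ^ 6 * X ^ 2 * w := by gcongr; omega
      _ = _ := by ring
  · simp only [DT, map_mul, map_sub, mass_remT pU pV h.zero, sub_self, mul_zero, zero_mul]
  · refine Dom.sw ⟨d2.le.trans ?_, d2.ge.trans ?_⟩ pS.nn pS.nn <;>
    · have := smul_le_smul_of_nonneg_left hhalf (by positivity : (0 : ℝ) ≤ 4 * w ^ 2 * δ ^ 2)
      rw [smul_smul] at this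
      convert this using 2; ring
  · have := hC (U ^ w) _ _ _ (w ^ 3) s (2 * s + 1) pT pW d1 (h.mix.pow pU (w := w) (by omega))
      (by positivity) rfl ?_ le_rfl ?_
    · refine this.mono ((pS.mul pW).mul pS) ?_
      calc C * s * (16 * w * (X + 1) + 1) ≤ C * (264 * w ^ 4 * X) * (33 * w * X) := by gcongr
        _ = 8712 * C * (w ^ 5 * X ^ 2) := by ring
        _ ≤ w * w * (w ^ 5 * X ^ 2) := Nat.mul_le_mul_right _ (by nlinarith)
        _ = _ := by ring
    · have a1 : ((16 * w * (X + 1) : ℕ) : ℝ) + 1 ≤ 33 * w * X := by exact_mod_cast hJ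
      have a2 : 2 * (2 * w * δ) ^ 2 + ((2 * w * δ) ^ 2) ^ 2 ≤ 12 * (w * δ) ^ 2 := by
        have : (2 * w * δ) ^ 2 ≤ 1 := by nlinarith [mul_nonneg hw0.le hδ]
        nlinarith [sq_nonneg (2 * w * δ)]
      have a3 := mul_le_mul a2 a1 (by positivity) (by positivity)
      have a4 : (2 * (2 * w * δ) ^ 2 + ((2 * w * δ) ^ 2) ^ 2) * (((16 * w * (X + 1) : ℕ) : ℝ) + 1) ≤
          1 / 512 := by nlinarith
      have a5 := pow_le_pow_left₀ (by positivity) a4 2
      push_cast at a5 ⊢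
      linarith
    · have := mul_le_mul_of_nonneg_right (mul_le_mul_of_nonneg_left hhalf pS.nn) pS.nn
      rw [mul_smul_comm, smul_mul_assoc, ← pow_succ, ← pow_add] at this
      rwa [show 2 * s + 1 = s + 1 + s by ring]
  · rw [lu]
    refine (eP _).trans ?_
    nlinarith [eta_nn K]
  · rw [lu]
    have a1 := eP fun i => !tmf K i
    have a2 : nrm ((U ^ w) ^ s * FT K U D * (U ^ w) ^ s) ≤ eta K := by
      have r := h.mix.rate pU (n := 16 * w ^ 4) (a := 1 / w ^ 2) (by positivity)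
        (by push_cast; field_simp; norm_num)
      have f := FT_bound (D := D) pU r (w := w) K (by rw [hw]; norm_num)
      have hK : K ≤ w := by rw [hw]; exact Nat.lt_two_pow_self.le
      have hle : K * (16 * w ^ 4 * (X + 1)) ≤ w * s := by
        refine Nat.mul_le_mul hK ?_
        rw [hsd, sOf]; nlinarith [Nat.zero_le (w ^ 4 * (X + 1)), Nat.zero_le (w ^ 3)]
      obtain ⟨c, hc⟩ := Nat.exists_eq_add_of_le hle
      have e : (U ^ w) ^ s * FT K U D * (U ^ w) ^ s = U ^ c * (U ^ (K * (16 * w ^ 4 * (X + 1))) *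
          FT K U D * U ^ (K * (16 * w ^ 4 * (X + 1)))) * U ^ c := by
        rw [← pow_mul, sw_mul U _ (a' := w * s) (b' := w * s) (by omega) (by omega)]
      rw [e]
      refine (nrm_sw (pU.pow c) (pU.pow c) _).trans (f.trans ?_)
      have e2 : ((w : ℝ) * (1 / w ^ 2)) ^ K = eta K := by
        rw [eta, pow_mul, show (w : ℝ) * (1 / w ^ 2) = 1 / w by field_simp, hw]
        push_cast
        rw [one_div_pow 2]
      rw [e2]
      exact mul_le_of_le_one_right (eta_nn K) ((h.dom.nrm_le pU).trans b3)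
    have e : (U ^ w) ^ s * prodT (fun i => !tmf K i) w U (U + D) * (U ^ w) ^ s -
        ((U ^ w) ^ s * prodT (tmf K) w U (U + D) * (U ^ w) ^ s + (U ^ w) ^ s * DT K U D * (U ^ w) ^ s) =
        (U ^ w) ^ s * FT K U D * (U ^ w) ^ s := by
      have := prodT_diff K U D
      rw [← hw] at this
      rw [this]; noncomm_ring
    refine (nrm_sub_le _ ((U ^ w) ^ s * prodT (fun i => !tmf K i) w U (U + D) * (U ^ w) ^ s) _).trans ?_
    rw [e]
    nlinarith [eta_nn K]

end Vale.Agent.P321
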