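import Vale.Agent.P321.Step

/- The gain lemma and the double step. -/

namespace Vale.Agent.P321

open Finset

lemma exp_le_eta (K : ℕ) : Real.exp (-((K : ℝ) ^ 2)) ≤ eta K := by
  have h : Real.exp (-1) ≤ 1 / 2 := by
    rw [Real.exp_neg, ← one_div]
    exact one_div_le_one_div_of_le (by norm_num) (by linarith [Real.add_one_le_exp (1 : ℝ)])
  rw [show -((K : ℝ) ^ 2) = ((K * K : ℕ) : ℝ) * (-1) by push_cast; ring, Real.exp_nat_mul]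
  exact pow_le_pow_left₀ (Real.exp_pos _).le h _

lemma half_pow_le_eta {K n : ℕ} (h : K * K ≤ n) : (1 / 2 : ℝ) ^ n ≤ eta K :=
  pow_le_pow_of_le_one (by norm_num) (by norm_num) h

lemma col_zero {S : Type} {f : S → ℝ} {ε : ℝ} (hε : 0 ≤ ε) (hf1 : ∀ s, 1 - ε ≤ f s ∧ f s ≤ 1 + ε)
    {w : ℕ} (hw : 1 ≤ w) (c1 : w * ε ≤ 1 / 4) (col : Fin w → S) :
    3 / 4 ≤ ∏ i, f (col i) ∧ ∏ i, f (col i) ≤ 2 := by
  have hw' : (1 : ℝ) ≤ w := by exact_mod_cast hw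
  have c2 : ε ≤ 1 / 4 := by nlinarith
  constructor
  · have a := prod_le_prod (s := univ) (f := fun _ : Fin w => 1 - ε)
      (fun _ _ => by linarith) fun i _ => (hf1 (col i)).1
    rw [prod_const, card_univ, Fintype.card_fin] at a
    have b := one_add_mul_le_pow (a := -ε) (by linarith) w
    rw [← sub_eq_add_neg] at b
    nlinarith
  · have a := prod_le_prod (s := univ) (g := fun _ : Fin w => 1 + ε)
      (fun i _ => by linarith [(hf1 (col i)).1] : ∀ i ∈ univ, 0 ≤ f (col i))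
      fun i _ => (hf1 (col i)).2
    rw [prod_const, card_univ, Fintype.card_fin] at a
    have b := one_add_pow_le hε (n := w) (by linarith)
    have : 0 ≤ (w : ℝ) * ε := by positivity
    nlinarith

lemma gain_core {M : Type} [Monoid M] {S : Type} [Fintype S] {μ : S → ℝ} {φ : S → A M}
    (hr : IsRep μ φ) {T W D : A M} (e1 : ev μ φ (fun _ => 1) = T) {f d : S → ℝ}
    (eW : ev μ φ f = W) (eD : ev μ φ d = D) (mW : mass W = 1) (mD : mass D = 0)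
    {ε δ₁ b δ₂ θ η σ : ℝ} (hε : 0 ≤ ε) (hf1 : ∀ s, 1 - ε ≤ f s ∧ f s ≤ 1 + ε) (hδ₁ : 0 ≤ δ₁)
    (hdf : ∀ s, |d s| ≤ δ₁ * f s) {K w s h k₀ J : ℕ} (hw : w = 2 ^ K) (c1 : w * ε ≤ 1 / 4)
    (c5 : w * δ₁ ≤ 1 / 8) (c6 : (2 * h : ℕ) * ε ≤ 1 / 2) (hb : b = 4 * (w * δ₁) ^ 2) (hb0 : 0 < b)
    (hδ₂ : 0 ≤ δ₂) (hθ : 0 < θ)
    (hη : Real.exp (θ ^ 2 * b ^ 2 * (4 / √((k₀ : ℝ) + 1)) / 2 - θ * (δ₂ / 4)) / θ ≤ η)
    (mT : Mix T J) (hs : h + J ≤ s) (hσ : σ = 1 ∨ σ = -1) {U₁ D₁ : A M}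
    (hU₁ : U₁ = T ^ s * W * T ^ s) (hD₁ : D₁ = T ^ s * D * T ^ s) :
    Np (U₁ ^ h * (σ • DT K U₁ D₁ - δ₂ • prodT (tmf K) w U₁ (U₁ + D₁)) * U₁ ^ h) ≤
      Phi η k₀ h 0 := by
  have hw1 : 1 ≤ w := by rw [hw]; exact Nat.one_le_two_pow
  have hw' : (1 : ℝ) ≤ w := by exact_mod_cast hw1
  have c2 : ε ≤ 1 / 4 := by nlinarith
  have hf0 : ∀ s, 0 ≤ f s := fun s => by linarith [(hf1 s).1]
  have pS : Prob (T ^ s) := (e1 ▸ hr.prob_ev).pow s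
  have pW : Prob W := ⟨eW ▸ hr.ev_nn hf0, mW⟩
  set φ' : S → A M := fun x => T ^ s * φ x * T ^ s with hφ'
  have hr' : IsRep μ φ' := ⟨hr.nn, hr.sum, fun x => (pS.mul (hr.prob x)).mul pS⟩
  have eU₁ : ev μ φ' f = U₁ := by rw [hφ', ev_sw, eW, hU₁]
  have eD₁ : ev μ φ' d = D₁ := by rw [hφ', ev_sw, eD, hD₁]
  have pU₁ : Prob U₁ := hU₁ ▸ (pS.mul pW).mul pS
  have mD₁ : mass D₁ = 0 := by simp only [hD₁, map_mul, mD, mul_zero, zero_mul]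
  have pV₁ : Prob (U₁ + D₁) := by
    have := hr'.dom_ev hdf
    rw [eU₁, eD₁] at this
    exact this.prob_add pU₁ (by nlinarith) mD₁
  have eDT : DT K U₁ D₁ = remT (fun i => !tmf K i) w U₁ D₁ - remT (tmf K) w U₁ D₁ := by
    rw [hw]; rfl
  have hz0 := col_zero hε hf1 hw1 c1
  have cb := fun t => col_bounds hδ₁ (n := w) (by linarith) hf0 hdf t
  have hb1 : 2 * b ≤ 1 := by
    have : (w * δ₁) ^ 2 ≤ (1 / 8) ^ 2 := by gcongr
    linarith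
  set g : (Fin w → S) → ℝ :=
    fun col => σ * (remC (fun i => !tmf K i) w f d col - remC (tmf K) w f d col) with hg
  have eg : ev (pw μ w) (pφ φ' w) g = σ • DT K U₁ D₁ := by
    rw [hg, ev_smul, ev_sub, ev_remC, ev_remC, eU₁, eD₁, eDT]
  have hg0 : ∑ col, pw μ w col * g col = 0 := by
    rw [← (hr'.pow w).mass_ev, eg, eDT]
    simp [mass_remT pU₁ pV₁ mD₁]
  have hgb : ∀ col, |g col| ≤ b := fun col => by
    have a1 := (cb (fun i => !tmf K i) col).2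
    have a2 := (cb (tmf K) col).2
    have a3 : |σ| = 1 := by rcases hσ with rfl | rfl <;> norm_num
    have a4 := mul_le_mul_of_nonneg_left (hz0 col).2 (sq_nonneg (w * δ₁))
    rw [hg]
    simp only
    rw [abs_mul, a3, one_mul]
    refine (abs_sub _ _).trans ?_
    linarith
  have hH : ∀ col, 1 / 2 ≤ prodC (tmf K) w f d col := fun col => by
    have a1 := (abs_le.1 (cb (tmf K) col).1).1
    have a2 := (hz0 col).1
    nlinarith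
  have eH := ev_prodC (μ := μ) (φ := φ') (tmf K) w f d
  rw [eU₁, eD₁] at eH
  have hlo : 1 / 2 ≤ (1 - ε) ^ (2 * h) := by
    have b := one_add_mul_le_pow (a := -ε) (by linarith) (2 * h)
    rw [← sub_eq_add_neg] at b
    linarith
  have hhi : (1 + ε) ^ (2 * h) ≤ 2 := by
    have b := one_add_pow_le hε (n := 2 * h) (by linarith)
    have : 0 ≤ ((2 * h : ℕ) : ℝ) * ε := by positivity
    nlinarith
  clear_value g
  obtain ⟨w', rfl⟩ : ∃ w', w = w' + 1 := ⟨w - 1, by omega⟩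
  have G := gain_centre hr e1 hg0 hb0 hb1 hgb hH hδ₂ hlo hhi (n := h) (s := s) (by omega) hθ hη
  have T := tower_gain hr hf1 (by linarith) (by linarith) (by linarith) e1 eW mT _ _ _ G hs
  rw [core_eq _ rfl, ev_sub, ev_smul, ← hU₁, zero_add, ← hφ', eg] at T
  rw [← eH]
  exact T

lemma gain_num {K z : ℕ} (hK : 1 ≤ K) (hz : 1 ≤ z) {b : ℝ} (hb0 : 0 < b) (hb1 : b ≤ 1) :
    Real.exp ((K * z / b) ^ 2 * b ^ 2 * (4 / √(((z ^ 4 : ℕ) : ℝ) + 1)) / 2 -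
      K * z / b * (12 * K * b / z / 4)) / (K * z / b) ≤ eta K := by
  have hK' : (1 : ℝ) ≤ K := by exact_mod_cast hK
  have hz' : (1 : ℝ) ≤ z := by exact_mod_cast hz
  have a1 : 4 / √(((z ^ 4 : ℕ) : ℝ) + 1) ≤ 4 / (z : ℝ) ^ 2 := by
    gcongr
    exact Real.le_sqrt_of_sq_le (by push_cast; nlinarith)
  have a2 : (K * z / b) ^ 2 * b ^ 2 * (4 / √(((z ^ 4 : ℕ) : ℝ) + 1)) / 2 ≤
      (K * z / b) ^ 2 * b ^ 2 * (4 / (z : ℝ) ^ 2) / 2 := by gcongr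
  have a3 : (K * z / b) ^ 2 * b ^ 2 * (4 / (z : ℝ) ^ 2) / 2 = 2 * K ^ 2 := by
    field_simp; ring
  have a4 : K * z / b * (12 * K * b / z / 4) = 3 * K ^ 2 := by
    field_simp; ring
  have a5 : 1 ≤ K * z / b := by
    rw [le_div_iff₀ hb0]; nlinarith
  refine (div_le_self (Real.exp_pos _).le a5).trans (le_trans ?_ (exp_le_eta K))
  exact Real.exp_le_exp.2 (by linarith)

lemma gain {M : Type} [Monoid M] {U D : A M} (pU : Prob U) {δ : ℝ} (hD : Dom D δ U)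
    (hm : mass D = 0) {K w z s N : ℕ} (hJ : Mix U (z ^ 8)) (hw : w = 2 ^ K) (hw1 : 10000 ≤ w)
    (hK : 1 ≤ K) (hz : K ≤ z) (hδ : 0 < δ) (h : (w : ℝ) ^ 5 * δ * z ^ 4 ≤ 1)
    (hs : 12 * z ^ 4 + 16 * w * (z ^ 8 + 1) ≤ s) (hN : 12 * z ^ 4 ≤ N) {σ : ℝ}
    (hσ : σ = 1 ∨ σ = -1) {U₁ D₁ : A M}
    (hU₁ : U₁ = (U ^ w) ^ s * prodT (tmf K) w U (U + D) * (U ^ w) ^ s)
    (hD₁ : D₁ = (U ^ w) ^ s * DT K U D * (U ^ w) ^ s) :
    Np (σ • (U₁ ^ N * DT K U₁ D₁ * U₁ ^ N) - (768 * K * w ^ 6 * δ ^ 4 / z : ℝ) •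
      (U₁ ^ N * prodT (tmf K) w U₁ (U₁ + D₁) * U₁ ^ N)) ≤ 2 * eta K := by
  have hw' : (10000 : ℝ) ≤ w := by exact_mod_cast hw1
  have hw0 : (0 : ℝ) < w := by linarith
  have hz' : (1 : ℝ) ≤ z := by exact_mod_cast hK.trans hz
  have hz4 : (1 : ℝ) ≤ z ^ 4 := one_le_pow₀ hz'
  have c0 : (w : ℝ) ^ 5 * δ ≤ 1 := by nlinarith [mul_pos (pow_pos hw0 5) hδ]
  have c1 : (w : ℝ) ^ 2 * δ ≤ 1 / 10000 := by
    have : (w : ℝ) ^ 2 * δ * (10000 * 1 ^ 2) ≤ w ^ 2 * δ * (w * w ^ 2) := by gcongr; linarith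
    linarith
  have c2 : (w : ℝ) * δ * z ^ 4 ≤ 1 / 10000 := by
    have : (w : ℝ) * δ * z ^ 4 * (10000 * 1 ^ 3) ≤ w * δ * z ^ 4 * (w * w ^ 3) := by
      gcongr; linarith
    linarith
  have c4 : 0 < (w : ℝ) * δ := mul_pos hw0 hδ
  have c3 : (w : ℝ) * δ ≤ 1 / 10000 := by nlinarith
  have b3 : δ ≤ 1 := by nlinarith
  have pV := hD.prob_add pU b3 hm
  have pT := pU.pow w
  have pS := pT.pow s
  have pW := prob_prodT pU pV (tmf K) w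
  have pU₁ : Prob U₁ := hU₁ ▸ (pS.mul pW).mul pS
  have d1 := (tm_dom pU hD hδ.le (n := w) (by linarith) (tmf K)).1
  have d2 : Dom (DT K U D) (2 * (w * δ) ^ 2) (U ^ w) := by
    have := dom_DT pU hD hδ.le (K := K) (by rw [← hw]; linarith)
    rwa [← hw] at this
  obtain ⟨S, _, μ, φ, hr, e1, hd⟩ := exists_rep pT
  obtain ⟨e, he, he1, -⟩ := hd _ _ d1
  obtain ⟨d, hd0, hd1, -⟩ := hd _ _ d2
  have eW : ev μ φ (fun s => 1 + e s) = prodT (tmf K) w U (U + D) := by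
    rw [ev_add, e1, he, add_sub_cancel]
  have hf1 : ∀ s, 1 - 2 * w * δ ≤ 1 + e s ∧ 1 + e s ≤ 1 + 2 * w * δ := fun s => by
    have := abs_le.1 (he1 s)
    constructor <;> linarith
  have hdf : ∀ s, |d s| ≤ 4 * (w * δ) ^ 2 * (1 + e s) := fun s => by
    have a : 1 / 2 ≤ 1 + e s := by linarith [(hf1 s).1]
    have := mul_le_mul_of_nonneg_left a (by positivity : 0 ≤ 4 * ((w : ℝ) * δ) ^ 2)
    linarith [hd1 s]
  have c5 : (w : ℝ) * (4 * (w * δ) ^ 2) ≤ 1 / 8 := by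
    have := mul_le_mul c1 c3 c4.le (by norm_num)
    linarith
  have hb1 : 4 * ((w : ℝ) * (4 * (w * δ) ^ 2)) ^ 2 ≤ 1 := by
    have : ((w : ℝ) * (4 * (w * δ) ^ 2)) ^ 2 ≤ (1 / 8) ^ 2 := by gcongr
    linarith
  have T := gain_core hr e1 eW hd0 pW.one
    (by simp only [DT, map_sub, mass_remT pU pV hm, sub_self]) (by positivity) hf1 (by positivity)
    hdf (h := 12 * z ^ 4) hw (by linarith) c5 (by push_cast; linarith) rfl (by positivity)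
    (by positivity) (by positivity) (gain_num hK (hK.trans hz) (by positivity) hb1)
    (hJ.pow pU (w := w) (by omega)) hs hσ hU₁ hD₁
  obtain ⟨c, rfl⟩ := Nat.exists_eq_add_of_le hN
  have T2 := ((Np_sw (pU₁.pow c) (pU₁.pow c) _).trans T).trans (Phi_final _ _)
  rw [sw_mul U₁ _ (a' := 12 * z ^ 4 + c) (b' := 12 * z ^ 4 + c) (by ring) rfl, mul_sub, sub_mul,
    mul_smul_comm, mul_smul_comm, smul_mul_assoc, smul_mul_assoc,
    show (12 * K * (4 * (w * (4 * (w * δ) ^ 2)) ^ 2) / z : ℝ) = 768 * K * w ^ 6 * δ ^ 4 / z by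
      ring] at T2
  have := half_pow_le_eta (K := K) (n := z ^ 4) (by
    have a : K * K ≤ z * z := Nat.mul_le_mul hz hz
    have b : 1 ≤ z * z := by nlinarith
    nlinarith)
  linarith

def State (q : ℝ) (X : ℕ) (δ β : ℝ) : Prop := ∃ u v U D, St q u v U D X δ β

lemma State.mono {q : ℝ} {X X' : ℕ} {δ β δ' β' : ℝ} (h : State q X δ β) (hX : X ≤ X')
    (hδ : δ ≤ δ') (hβ : β ≤ β') : State q X' δ' β' := by
  obtain ⟨u, v, U, D, h⟩ := h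
  exact ⟨u, v, U, D, h.mono hX hδ hβ⟩

lemma double : ∃ W₀ : ℕ, ∀ (q : ℝ) (K w z : ℕ) (δ β : ℝ), 0 ≤ q → q ≤ 1 → w = 2 ^ K → W₀ ≤ w →
    K ≤ z → 0 < δ → (w : ℝ) ^ 5 * δ * z ^ 4 ≤ 1 → State q (z ^ 8) δ β →
    State q ((w ^ 3 * z ^ 4) ^ 8) (w ^ 8 * δ ^ 4 / z) (β + 10 * eta K) := by
  obtain ⟨W₀, hP⟩ := plain
  refine ⟨W₀ + 10000, fun q K w z δ β q0 q1 hw hW hz hδ h ⟨u, v, U, D, H⟩ => ?_⟩
  have hw1 : 10000 ≤ w := by omega
  have hK : 1 ≤ K := by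
    rcases Nat.eq_zero_or_pos K with rfl | h
    · omega
    · exact h
  have hw' : (10000 : ℝ) ≤ w := by exact_mod_cast hw1
  have hw0 : (0 : ℝ) < w := by linarith
  have hz1 : 1 ≤ z := hK.trans hz
  have hz' : (1 : ℝ) ≤ z := by exact_mod_cast hz1
  have h2 : ((w : ℝ) ^ 5 * δ * z ^ 4) ^ 2 ≤ 1 := pow_le_one₀ (by positivity) h
  have h4 : ((w : ℝ) ^ 5 * δ * z ^ 4) ^ 4 ≤ 1 := pow_le_one₀ (by positivity) h
  have H1 := hP q u v U D _ K w δ β q0 q1 hw (by omega) H hδ.le (by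
    push_cast
    have : (w : ℝ) ^ 5 * δ ^ 2 * z ^ 8 * 1 ^ 5 ≤ w ^ 5 * δ ^ 2 * z ^ 8 * w ^ 5 := by
      gcongr; linarith
    nlinarith)
  have H2 := hP q _ _ _ _ _ K w _ _ q0 q1 hw (by omega) H1 (by positivity) (by
    push_cast
    have : (w : ℝ) ^ 16 * δ ^ 4 * z ^ 16 * (16 * 1 ^ 3) ≤ w ^ 16 * δ ^ 4 * z ^ 16 * (w * w ^ 3) := by
      gcongr <;> linarith
    nlinarith)
  have hs : 12 * z ^ 4 + 16 * w * (z ^ 8 + 1) ≤ sOf w (z ^ 8) := by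
    have a : z ^ 4 ≤ z ^ 8 := Nat.pow_le_pow_right hz1 (by norm_num)
    have b : 1 ≤ w ^ 3 := Nat.succ_le_of_lt (by positivity)
    have c : 8 * 1 * (16 * w * (z ^ 8 + 1) + 1) ≤ sOf w (z ^ 8) := by
      unfold sOf; gcongr
    nlinarith
  have hN : 12 * z ^ 4 ≤ w * sOf w (w ^ 7 * (z ^ 8) ^ 2) := by
    have a : z ^ 4 ≤ (z ^ 8) ^ 2 := by rw [← pow_mul]; exact Nat.pow_le_pow_right hz1 (by norm_num)
    have b : 1 ≤ w ^ 3 := Nat.succ_le_of_lt (by positivity)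
    have b' : 1 ≤ w ^ 7 := Nat.succ_le_of_lt (by positivity)
    calc 12 * z ^ 4 ≤ 1 * (4 * 2 * 1 * (16 * 1 * (1 * z ^ 4 + 1) + 1)) := by omega
      _ ≤ _ := by unfold sOf; gcongr <;> omega
  have g1 := gain H.prob H.dom H.zero H.mix hw hw1 hK hz hδ h hs hN (Or.inl rfl) rfl rfl
  have g2 := gain H.prob H.dom H.zero H.mix hw hw1 hK hz hδ h hs hN (Or.inr rfl) rfl rfl
  rw [one_smul, pow_mul] at g1
  rw [neg_smul, one_smul, pow_mul] at g2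
  obtain ⟨D', H3⟩ := H2.clamp (by positivity) g1 g2
  refine ⟨_, _, _, D', H3.mono ?_ ?_ (le_of_eq (by ring))⟩
  · calc w ^ 7 * (w ^ 7 * (z ^ 8) ^ 2) ^ 2 = w ^ 21 * z ^ 32 * 1 ^ 3 := by ring
      _ ≤ w ^ 21 * z ^ 32 * w ^ 3 := by gcongr; omega
      _ = _ := by ring
  · have hKw : (K : ℝ) ≤ w := by
      have : K ≤ w := by rw [hw]; exact Nat.lt_two_pow_self.le
      exact_mod_cast this
    calc 2 * (768 * K * w ^ 6 * δ ^ 4 / z : ℝ) = 1536 * K * (w ^ 6 * δ ^ 4 / z) := by ring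
      _ ≤ w * w * (w ^ 6 * δ ^ 4 / z) := by gcongr; linarith
      _ = _ := by ring

end Vale.Agent.P321
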