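import Vale.Agent.P321.Gain

/- Thue-Morse products: first-order cancellation and second-order remainder. -/

namespace Vale.Agent.P321

open Finset

variable {M : Type} [Monoid M]

/-- Thue-Morse word of length `2 ^ K` -/
def tmf : ℕ → ℕ → Bool
  | 0, _ => false
  | K + 1, i => if i < 2 ^ K then tmf K i else !tmf K (i - 2 ^ K)

lemma tmf_zero : ∀ K, tmf K 0 = false
  | 0 => rfl
  | K + 1 => by rw [tmf, if_pos (by positivity), tmf_zero K]

def prodT {R : Type} [Monoid R] (t : ℕ → Bool) (n : ℕ) (U V : R) : R :=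
  (List.ofFn fun i : Fin n => if t i then V else U).prod

noncomputable def firstT (t : ℕ → Bool) (n : ℕ) (U D : A M) : A M :=
  ∑ i ∈ range n, U ^ i * (if t i then D else 0) * U ^ (n - 1 - i)

noncomputable def remT (t : ℕ → Bool) (n : ℕ) (U D : A M) : A M :=
  prodT t n U (U + D) - U ^ n - firstT t n U D

/-- difference of first-order terms -/
noncomputable def FT (K : ℕ) (U D : A M) : A M :=
  firstT (fun i => !tmf K i) (2 ^ K) U D - firstT (tmf K) (2 ^ K) U D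

/-- difference of remainders -/
noncomputable def DT (K : ℕ) (U D : A M) : A M :=
  remT (fun i => !tmf K i) (2 ^ K) U D - remT (tmf K) (2 ^ K) U D

lemma FT_eq (K : ℕ) (U D : A M) : FT K U D =
    ∑ i ∈ range (2 ^ K), U ^ i * (if tmf K i then -D else D) * U ^ (2 ^ K - 1 - i) := by
  unfold FT firstT
  rw [← sum_sub_distrib]
  refine sum_congr rfl fun i _ => ?_
  by_cases h : tmf K i = true <;> simp [h]

lemma FT_succ (K : ℕ) (U D : A M) :
    FT (K + 1) U D = FT K U D * U ^ (2 ^ K) - U ^ (2 ^ K) * FT K U D := by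
  rw [FT_eq, FT_eq, pow_succ, mul_two, sum_range_add, sum_mul, mul_sum, sub_eq_add_neg,
    ← sum_neg_distrib]
  congr 1
  · refine sum_congr rfl fun i hi => ?_
    have := mem_range.1 hi
    rw [tmf, if_pos this, mul_assoc _ (U ^ _) (U ^ _), ← pow_add,
      show 2 ^ K - 1 - i + 2 ^ K = 2 ^ K + 2 ^ K - 1 - i by omega]
  · refine sum_congr rfl fun i hi => ?_
    have := mem_range.1 hi
    rw [tmf, if_neg (show ¬(2 ^ K + i < 2 ^ K) by omega), Nat.add_sub_cancel_left, pow_add,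
      show 2 ^ K + 2 ^ K - 1 - (2 ^ K + i) = 2 ^ K - 1 - i by omega]
    cases tmf K i <;> simp [mul_assoc]

lemma FT_bound {U D : A M} (hU : Prob U) {s₀ : ℕ} {a : ℝ} (ha : nrm (U ^ s₀ * (1 - U)) ≤ a)
    {w : ℝ} : ∀ K : ℕ, (2 : ℝ) ^ K ≤ w →
      nrm (U ^ (K * s₀) * FT K U D * U ^ (K * s₀)) ≤ (w * a) ^ K * nrm D
  | 0, _ => by simp [FT_eq, tmf]
  | K + 1, hw => by
    have h2 : (0 : ℝ) < 2 ^ K := by positivity
    have ih := FT_bound (D := D) hU ha (w := w) K (by rw [pow_succ] at hw; linarith)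
    set G := U ^ (K * s₀) * FT K U D * U ^ (K * s₀) with hG
    have e : U ^ ((K + 1) * s₀) * FT (K + 1) U D * U ^ ((K + 1) * s₀) =
        U ^ s₀ * (G * -(U ^ s₀ - U ^ (s₀ + 2 ^ K))) + (U ^ s₀ - U ^ (s₀ + 2 ^ K)) * G * U ^ s₀ := by
      have c1 : U ^ ((K + 1) * s₀) = U ^ s₀ * U ^ (K * s₀) := by rw [← pow_add]; congr 1; ring
      have c2 : U ^ ((K + 1) * s₀) = U ^ (K * s₀) * U ^ s₀ := by rw [← pow_add]; congr 1; ring
      have c3 : U ^ (2 ^ K) * U ^ ((K + 1) * s₀) = U ^ (K * s₀) * U ^ (s₀ + 2 ^ K) := by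
        rw [← pow_add, ← pow_add]; congr 1; ring
      have c4 : U ^ ((K + 1) * s₀) * U ^ (2 ^ K) = U ^ (s₀ + 2 ^ K) * U ^ (K * s₀) := by
        rw [← pow_add, ← pow_add]; congr 1; ring
      rw [FT_succ, mul_sub, sub_mul, ← mul_assoc _ (U ^ 2 ^ K), c4, mul_assoc, mul_assoc (FT K U D),
        c3]
      nth_rw 1 [c1]
      rw [c2, hG]
      noncomm_ring
    have hb := nrm_pow_sub hU ha le_rfl (2 ^ K)
    have h0 : 0 ≤ a := (nrm_nn _).trans ha
    rw [e]
    refine (nrm_add _ _).trans ?_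
    have b1 := (nrm_left (hU.pow s₀) _).trans (nrm_mul G (-(U ^ s₀ - U ^ (s₀ + 2 ^ K))))
    have b2 := (nrm_right (hU.pow s₀) _).trans (nrm_mul (U ^ s₀ - U ^ (s₀ + 2 ^ K)) G)
    rw [nrm_neg] at b1
    push_cast at hb
    have b3 := mul_le_mul hb ih (nrm_nn _) (by positivity)
    have hw0 : 0 ≤ w := le_trans (by positivity) hw
    have b4 : 2 ^ (K + 1) * a * ((w * a) ^ K * nrm D) ≤ w * a * ((w * a) ^ K * nrm D) := by
      have := nrm_nn D
      gcongr
    calc _ ≤ 2 * (nrm (U ^ s₀ - U ^ (s₀ + 2 ^ K)) * nrm G) := by linarith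
      _ ≤ 2 ^ (K + 1) * a * ((w * a) ^ K * nrm D) := by rw [pow_succ]; linarith
      _ ≤ _ := b4
      _ = _ := by ring

lemma scalar_rem {δ : ℝ} (hδ : 0 ≤ δ) : ∀ (n : ℕ) (f x : Fin n → ℝ), (∀ i, |x i| ≤ δ * f i) →
    (∀ i, 0 ≤ f i) → |∏ i, (f i + x i) - ∏ i, f i| ≤ ((1 + δ) ^ n - 1) * ∏ i, f i ∧
      |∏ i, (f i + x i) - ∏ i, f i - ∑ i, ∏ j, (if j = i then x j else f j)| ≤
        ((1 + δ) ^ n - 1 - n * δ) * ∏ i, f i
  | 0, f, x, _, _ => by simp
  | n + 1, f, x, hx, hf => by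
    obtain ⟨h1, h2⟩ := scalar_rem hδ n (fun i => f i.succ) (fun i => x i.succ)
      (fun i => hx _) (fun i => hf _)
    have e : ∑ i, ∏ j, (if j = i then x j else f j) = x 0 * ∏ i : Fin n, f i.succ +
        f 0 * ∑ i : Fin n, ∏ j : Fin n, (if j = i then x j.succ else f j.succ) := by
      rw [Fin.sum_univ_succ, Fin.prod_univ_succ, mul_sum]
      simp only [if_true, Fin.succ_ne_zero, if_false]
      congr 1
      refine sum_congr rfl fun i _ => ?_
      rw [Fin.prod_univ_succ, if_neg (Fin.succ_ne_zero i).symm]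
      simp only [Fin.succ_inj]
    rw [e, Fin.prod_univ_succ, Fin.prod_univ_succ]
    have hZ : 0 ≤ ∏ i : Fin n, f i.succ := prod_nonneg fun i _ => hf _
    set P := ∏ i : Fin n, (f i.succ + x i.succ)
    set Z := ∏ i : Fin n, f i.succ
    set F := ∑ i : Fin n, ∏ j : Fin n, (if j = i then x j.succ else f j.succ)
    have a0 := hf 0
    have a1 := hx 0
    have b1 : |f 0 * (P - Z)| ≤ f 0 * (((1 + δ) ^ n - 1) * Z) := by
      rw [abs_mul, abs_of_nonneg a0]; gcongr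
    have b2 : |x 0 * (P - Z)| ≤ δ * f 0 * (((1 + δ) ^ n - 1) * Z) := by
      rw [abs_mul]; gcongr
    have b3 : |x 0 * Z| ≤ δ * f 0 * Z := by
      rw [abs_mul, abs_of_nonneg hZ]; gcongr
    have b4 : |f 0 * (P - Z - F)| ≤ f 0 * (((1 + δ) ^ n - 1 - n * δ) * Z) := by
      rw [abs_mul, abs_of_nonneg a0]; gcongr
    rw [abs_le] at b1 b2 b3 b4
    rw [abs_le, abs_le, pow_succ]
    push_cast
    refine ⟨⟨?_, ?_⟩, ?_, ?_⟩ <;> nlinarith [b1.1, b1.2, b2.1, b2.2, b3.1, b3.2, b4.1, b4.2]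

lemma one_add_pow_le {δ : ℝ} (hδ : 0 ≤ δ) {n : ℕ} (h : n * δ ≤ 1) :
    (1 + δ) ^ n ≤ 1 + n * δ + (n * δ) ^ 2 := by
  have h1 : (1 + δ) ^ n ≤ Real.exp (n * δ) := by
    rw [Real.exp_nat_mul]
    exact pow_le_pow_left₀ (by linarith) (by linarith [Real.add_one_le_exp δ]) n
  have h2 := Real.abs_exp_sub_one_sub_id_le (x := n * δ) (by rwa [abs_of_nonneg (by positivity)])
  linarith [(abs_le.1 h2).2]

section Col

variable {S : Type}

noncomputable def prodC (t : ℕ → Bool) (n : ℕ) (f d : S → ℝ) (ω : Fin n → S) : ℝ :=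
  ∏ i : Fin n, (f (ω i) + if t i then d (ω i) else 0)

noncomputable def remC (t : ℕ → Bool) (n : ℕ) (f d : S → ℝ) (ω : Fin n → S) : ℝ :=
  prodC t n f d ω - ∏ i, f (ω i) -
    ∑ i : Fin n, ∏ j : Fin n, if j = i then (if t j then d (ω j) else 0) else f (ω j)

lemma col_bounds {δ : ℝ} (hδ : 0 ≤ δ) {n : ℕ} (h : n * δ ≤ 1) {f d : S → ℝ}
    (hf : ∀ s, 0 ≤ f s) (hd : ∀ s, |d s| ≤ δ * f s) (t : ℕ → Bool) (ω : Fin n → S) :
    |prodC t n f d ω - ∏ i, f (ω i)| ≤ 2 * n * δ * ∏ i, f (ω i) ∧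
      |remC t n f d ω| ≤ (n * δ) ^ 2 * ∏ i, f (ω i) := by
  obtain ⟨h1, h2⟩ := scalar_rem hδ n (fun i => f (ω i)) (fun i => if t i then d (ω i) else 0)
    (fun i => by
      split_ifs
      · exact hd _
      · simpa using mul_nonneg hδ (hf _)) fun i => hf _
  have hZ : 0 ≤ ∏ i, f (ω i) := prod_nonneg fun i _ => hf _
  have a := one_add_pow_le hδ h
  have b : 0 ≤ n * δ := by positivity
  constructor
  · exact h1.trans (mul_le_mul_of_nonneg_right (by nlinarith) hZ)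
  · exact h2.trans (mul_le_mul_of_nonneg_right (by linarith) hZ)

variable [Fintype S] {μ : S → ℝ} {φ : S → A M}

lemma ev_prodC (t : ℕ → Bool) (n : ℕ) (f d : S → ℝ) :
    ev (pw μ n) (pφ φ n) (prodC t n f d) = prodT t n (ev μ φ f) (ev μ φ f + ev μ φ d) := by
  refine (ev_prod n fun i s => f s + if t i then d s else 0).trans ?_
  unfold prodT
  congr 2
  funext i
  cases t i
  · simp
  · simp [ev_add]

lemma ev_zeroC (n : ℕ) (f : S → ℝ) :
    ev (pw μ n) (pφ φ n) (fun ω => ∏ i, f (ω i)) = ev μ φ f ^ n := by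
  rw [ev_prod n fun _ s => f s, ofFn_const_prod]

lemma ev_remC (t : ℕ → Bool) (n : ℕ) (f d : S → ℝ) :
    ev (pw μ n) (pφ φ n) (remC t n f d) = remT t n (ev μ φ f) (ev μ φ d) := by
  unfold remC remT
  rw [ev_sub, ev_sub, ev_zeroC, ev_sum]
  congr 1
  · congr 1
    exact ev_prodC t n f d
  · unfold firstT
    rw [← Fin.sum_univ_eq_sum_range (fun i => ev μ φ f ^ i * (if t i then ev μ φ d else 0) *
      ev μ φ f ^ (n - 1 - i))]
    refine sum_congr rfl fun i _ => ?_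
    rw [ev_prod n fun j s => if j = i then (if t j then d s else 0) else f s,
      ← ofFn_ite_prod _ _ n i i.2]
    congr 2
    funext j
    by_cases h : j = i
    · subst h
      cases t j <;> simp [ev]
    · have : (j : ℕ) ≠ i := fun h' => h (Fin.ext h')
      simp [h, this]

end Col

lemma Dom.prob_add {U D : A M} {δ : ℝ} (hU : Prob U) (hD : Dom D δ U) (h1 : δ ≤ 1)
    (hm : mass D = 0) : Prob (U + D) := by
  refine ⟨?_, by rw [map_add, hU.one, hm, add_zero]⟩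
  have := (hD.mono hU.nn h1).ge
  rw [one_smul, neg_le_iff_add_nonneg'] at this
  rwa [add_comm]

lemma prob_prodT {U V : A M} (hU : Prob U) (hV : Prob V) (t : ℕ → Bool) (n : ℕ) :
    Prob (prodT t n U V) := prob_ofFn fun i => by split_ifs; exacts [hV, hU]

lemma mass_remT {U D : A M} (hU : Prob U) (hV : Prob (U + D)) (hm : mass D = 0) (t : ℕ → Bool)
    (n : ℕ) : mass (remT t n U D) = 0 := by
  unfold remT firstT
  rw [map_sub, map_sub, (prob_prodT hU hV t n).one, (hU.pow n).one, map_sum, sum_eq_zero]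
  · simp
  · intro i _
    split_ifs <;> simp [hm]

lemma tm_dom {U D : A M} {δ : ℝ} (hU : Prob U) (hD : Dom D δ U) (hδ : 0 ≤ δ) {n : ℕ}
    (h : n * δ ≤ 1) (t : ℕ → Bool) :
    Dom (prodT t n U (U + D) - U ^ n) (2 * n * δ) (U ^ n) ∧
      Dom (remT t n U D) ((n * δ) ^ 2) (U ^ n) := by
  obtain ⟨S, _, μ, φ, hr, e1, hd⟩ := exists_rep hU
  obtain ⟨g, hg, hg1, -⟩ := hd _ _ hD
  have hb := col_bounds (S := S) hδ h (f := fun _ => 1) (d := g) (fun _ => zero_le_one)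
    (by simpa using hg1) t
  have a1 := (hr.pow n).dom_ev fun ω => (hb ω).1
  have a2 := (hr.pow n).dom_ev fun ω => (hb ω).2
  rw [ev_sub, ev_zeroC n fun _ => 1, e1] at a1
  rw [ev_zeroC n fun _ => 1, e1] at a2
  have b1 := ev_prodC (μ := μ) (φ := φ) t n (fun _ => 1) g
  have b2 := ev_remC (μ := μ) (φ := φ) t n (fun _ => 1) g
  rw [e1, hg] at b1 b2
  exact ⟨b1 ▸ a1, b2 ▸ a2⟩

lemma Dom.sub {D D' U : A M} {δ δ' : ℝ} (h : Dom D δ U) (h' : Dom D' δ' U) :
    Dom (D - D') (δ + δ') U := by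
  constructor
  · rw [add_smul, sub_eq_add_neg]; exact add_le_add h.le h'.ge
  · rw [add_smul, neg_sub, sub_eq_neg_add]; exact add_le_add h.ge h'.le

lemma dom_DT {U D : A M} {δ : ℝ} (hU : Prob U) (hD : Dom D δ U) (hδ : 0 ≤ δ) {K : ℕ}
    (h : (2 ^ K : ℕ) * δ ≤ 1) : Dom (DT K U D) (2 * ((2 ^ K : ℕ) * δ) ^ 2) (U ^ 2 ^ K) := by
  rw [two_mul]
  exact (tm_dom hU hD hδ h _).2.sub (tm_dom hU hD hδ h _).2

lemma prodT_diff (K : ℕ) (U D : A M) : prodT (fun i => !tmf K i) (2 ^ K) U (U + D) =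
    prodT (tmf K) (2 ^ K) U (U + D) + DT K U D + FT K U D := by
  unfold DT FT remT; abel

end Vale.Agent.P321
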